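import Mathlib

/-!
# P146, Sh: the competitor: sums of positive parts, the intermediate value theorem
-/

open MeasureTheory ProbabilityTheory Filter Topology Set

namespace Vale.Agent.P146.Sh

/-! ### Telescoping sums of positive parts -/

theorem comp_step1 {c y : ℝ} (hc : 0 ≤ c) :
    max y 0 ^ 2 - max (y - c) 0 ^ 2 ≤ 2 * c * max y 0 := by
  rcases le_total y 0 with h | h
  · rw [max_eq_right h, max_eq_right (by linarith)]; simp
  · rcases le_total y c with h' | h'
    · rw [max_eq_left h, max_eq_right (by linarith)]; nlinarith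
    · rw [max_eq_left h, max_eq_left (by linarith)]; nlinarith

theorem comp_step2 {c y : ℝ} (hc : 0 ≤ c) :
    max (y - c) 0 ^ 2 + 2 * c * max (y - c) 0 ≤ max y 0 ^ 2 := by
  rcases le_total y c with h' | h'
  · rw [max_eq_right (by linarith : y - c ≤ 0)]
    have := sq_nonneg (max y 0)
    linarith
  · rw [max_eq_left (by linarith : (0:ℝ) ≤ y - c), max_eq_left (by linarith)]; nlinarith

theorem comp_step3 {c y : ℝ} (hc : 0 ≤ c) :
    max y 0 ^ 3 - max (y - c) 0 ^ 3 ≤ 3 * c * max y 0 ^ 2 := by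
  rcases le_total y 0 with h | h
  · rw [max_eq_right h, max_eq_right (by linarith)]; simp
  · rcases le_total y c with h' | h'
    · rw [max_eq_left h, max_eq_right (by linarith)]
      nlinarith [mul_nonneg (sq_nonneg y) (sub_nonneg.2 h'), mul_nonneg (sq_nonneg y) hc]
    · rw [max_eq_left h, max_eq_left (by linarith)]
      have : y ^ 3 - (y - c) ^ 3 = c * (y ^ 2 + y * (y - c) + (y - c) ^ 2) := by ring
      rw [this]
      have h1 : y ^ 2 + y * (y - c) + (y - c) ^ 2 ≤ 3 * y ^ 2 := by nlinarith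
      nlinarith

theorem comp_step4 {c y : ℝ} (hc : 0 ≤ c) :
    max (y - c) 0 ^ 3 + 3 * c * max (y - c) 0 ^ 2 ≤ max y 0 ^ 3 := by
  rcases le_total y c with h' | h'
  · rw [max_eq_right (by linarith : y - c ≤ 0)]; simp
  · rw [max_eq_left (by linarith : (0:ℝ) ≤ y - c), max_eq_left (by linarith)]
    have hy : 0 ≤ y - c := by linarith
    obtain ⟨t, ht⟩ : ∃ t, t = y - c := ⟨_, rfl⟩
    have hy' : y = t + c := by linarith
    rw [← ht] at hy ⊢
    rw [hy']
    nlinarith [mul_nonneg hy (sq_nonneg c), pow_nonneg hc 3]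

theorem comp_arg (w c : ℝ) (L : ℕ) : w - c * ((L + 1 : ℕ) : ℝ) = w - c * L - c := by
  push_cast; ring

theorem comp_sum1 {c : ℝ} (hc : 0 ≤ c) (w : ℝ) (L : ℕ) :
    max w 0 ^ 2 - max (w - c * L) 0 ^ 2 ≤
      2 * c * ∑ j ∈ Finset.range L, max (w - c * j) 0 := by
  induction L with
  | zero => simp
  | succ L ih =>
    rw [Finset.sum_range_succ, comp_arg]
    have := comp_step1 (y := w - c * L) hc
    linarith [mul_add (2 * c) (∑ j ∈ Finset.range L, max (w - c * j) 0) (max (w - c * L) 0)]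

theorem comp_sum2 {c : ℝ} (hc : 0 ≤ c) (w : ℝ) (L : ℕ) :
    2 * c * ∑ j ∈ Finset.range L, max (w - c * j) 0 ≤
      max w 0 ^ 2 - max (w - c * L) 0 ^ 2 + 2 * c * (max w 0 - max (w - c * L) 0) := by
  induction L with
  | zero => simp
  | succ L ih =>
    rw [Finset.sum_range_succ, comp_arg]
    have := comp_step2 (y := w - c * L) hc
    nlinarith

theorem comp_sum3 {c : ℝ} (hc : 0 ≤ c) (w : ℝ) (L : ℕ) :
    max w 0 ^ 3 - max (w - c * L) 0 ^ 3 ≤
      3 * c * ∑ j ∈ Finset.range L, max (w - c * j) 0 ^ 2 := by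
  induction L with
  | zero => simp
  | succ L ih =>
    rw [Finset.sum_range_succ, comp_arg]
    have := comp_step3 (y := w - c * L) hc
    linarith [mul_add (3 * c) (∑ j ∈ Finset.range L, max (w - c * j) 0 ^ 2)
      (max (w - c * L) 0 ^ 2)]

theorem comp_sum4 {c : ℝ} (hc : 0 ≤ c) (w : ℝ) (L : ℕ) :
    3 * c * ∑ j ∈ Finset.range L, max (w - c * j) 0 ^ 2 ≤
      max w 0 ^ 3 - max (w - c * L) 0 ^ 3 +
        3 * c * (max w 0 ^ 2 - max (w - c * L) 0 ^ 2) := by
  induction L with
  | zero => simp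
  | succ L ih =>
    rw [Finset.sum_range_succ, comp_arg]
    have := comp_step4 (y := w - c * L) hc
    nlinarith

theorem comp_id1 {R u y : ℝ} (huR : u ≤ R) :
    R - max u (min R y) = max (R - y) 0 - max (u - y) 0 := by
  rcases le_total y u with h | h
  · rw [min_eq_right (h.trans huR), max_eq_left h, max_eq_left (by linarith),
      max_eq_left (by linarith)]; ring
  · rcases le_total y R with h' | h'
    · rw [min_eq_right h', max_eq_right h, max_eq_left (by linarith),
        max_eq_right (by linarith)]; ring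
    · rw [min_eq_left h', max_eq_right huR, max_eq_right (by linarith),
        max_eq_right (by linarith)]
      ring

theorem comp_id2 (R y : ℝ) :
    R ^ 2 - min R y ^ 2 = 2 * R * max (R - y) 0 - max (R - y) 0 ^ 2 := by
  rcases le_total y R with h | h
  · rw [min_eq_right h, max_eq_left (by linarith)]; ring
  · rw [min_eq_left h, max_eq_right (by linarith)]; ring

/-! ### The slope `c` -/

theorem comp_ivt {L d : ℕ} {R : ℝ} (hR : 0 < R) (hd : 1 ≤ d) (hdL : d < L) :
    ∃ c : ℝ, 0 < c ∧ ∑ l ∈ Finset.range L, min R (c * l) ^ 2 = ((L : ℝ) - d) * R ^ 2 := by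
  set f : ℝ → ℝ := fun c => ∑ l ∈ Finset.range L, min R (c * l) ^ 2 with hf
  have hfc : Continuous f := by fun_prop
  have h0 : f 0 = 0 := by
    simp [hf, min_eq_right hR.le]
  have hL : (d : ℝ) < L := by exact_mod_cast hdL
  have hd' : (1 : ℝ) ≤ d := by exact_mod_cast hd
  have h1 : ((L : ℝ) - d) * R ^ 2 ≤ f R := by
    have h2 : ∀ l ∈ Finset.range L, (if l = 0 then 0 else R ^ 2) ≤ min R (R * (l : ℝ)) ^ 2 := by
      intro l _
      split_ifs with h
      · positivity
      · have : (1 : ℝ) ≤ l := by exact_mod_cast Nat.one_le_iff_ne_zero.2 h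
        rw [min_eq_left (by nlinarith)]
    have h3 := Finset.sum_le_sum h2
    have h4 : ∑ l ∈ Finset.range L, (if l = 0 then 0 else R ^ 2) = ((L : ℝ) - 1) * R ^ 2 := by
      obtain ⟨M, rfl⟩ : ∃ M, L = M + 1 := ⟨L - 1, by omega⟩
      rw [Finset.sum_range_succ']
      simp
    rw [h4] at h3
    refine le_trans ?_ h3
    nlinarith [sq_nonneg R]
  have h5 : ((L : ℝ) - d) * R ^ 2 ∈ Icc (f 0) (f R) := by
    rw [h0]
    exact ⟨by have := sq_nonneg R; nlinarith, h1⟩
  obtain ⟨c, hc, hfc'⟩ := intermediate_value_Icc hR.le hfc.continuousOn h5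
  refine ⟨c, ?_, hfc'⟩
  rcases hc.1.lt_or_eq with h | h
  · exact h
  · exfalso
    rw [← h, h0] at hfc'
    have : 0 < ((L : ℝ) - d) * R ^ 2 := by
      have : (0 : ℝ) < L - d := by linarith
      positivity
    linarith

end Vale.Agent.P146.Sh
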