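import Vale.Agent.P146.Sh.ShDefs
import Vale.Agent.P146.Sh.ShComp0

/-!
# P146, Sh: the competitor `ρ l = min R (c l)`

`c` is chosen by the intermediate value theorem so that `∑ ρ² = (L - d) R²`; then `c` is close to
`2 R / (3 d)`, and the area function is close to `a (R² - u²)`.
-/

open MeasureTheory ProbabilityTheory Filter Topology Set

namespace Vale.Agent.P146.Sh

/-- The basic relation between `c`, `R` and `y = (R - c L)⁺`. -/
private theorem comp_rel {L d : ℕ} {R c : ℝ} (hR : 0 < R) (hc : 0 < c)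
    (hs : ∑ l ∈ Finset.range L, min R (c * l) ^ 2 = ((L : ℝ) - d) * R ^ 2) :
    c * d * R ^ 2 ≤ 2 / 3 * R ^ 3 - R * max (R - c * L) 0 ^ 2 + max (R - c * L) 0 ^ 3 / 3 +
        2 * c * R ^ 2 ∧
      2 / 3 * R ^ 3 - R * max (R - c * L) 0 ^ 2 + max (R - c * L) 0 ^ 3 / 3 - c * R ^ 2 ≤
        c * d * R ^ 2 := by
  have h1 : (d : ℝ) * R ^ 2 = 2 * R * ∑ j ∈ Finset.range L, max (R - c * j) 0 -
      ∑ j ∈ Finset.range L, max (R - c * j) 0 ^ 2 := by
    rw [Finset.mul_sum, ← Finset.sum_sub_distrib]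
    have h0 : ∀ j ∈ Finset.range L, 2 * R * max (R - c * (j : ℝ)) 0 -
        max (R - c * (j : ℝ)) 0 ^ 2 = R ^ 2 - min R (c * (j : ℝ)) ^ 2 :=
      fun j _ => (comp_id2 R (c * j)).symm
    rw [Finset.sum_congr rfl h0]
    rw [Finset.sum_sub_distrib, hs]
    simp
    ring
  have hP1 := comp_sum1 hc.le R L
  have hP2 := comp_sum2 hc.le R L
  have hP3 := comp_sum3 hc.le R L
  have hP4 := comp_sum4 hc.le R L
  rw [max_eq_left hR.le] at hP1 hP2 hP3 hP4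
  set P := ∑ j ∈ Finset.range L, max (R - c * j) 0
  set Q := ∑ j ∈ Finset.range L, max (R - c * j) 0 ^ 2
  have hy : 0 ≤ max (R - c * L) 0 := le_max_right _ _
  set y := max (R - c * L) 0
  have h2 : c * d * R ^ 2 = R * (2 * c * P) - (3 * c * Q) / 3 := by
    rw [mul_assoc, h1]; ring
  rw [h2]
  have h3 := mul_le_mul_of_nonneg_left hP1 hR.le
  have h4 := mul_le_mul_of_nonneg_left hP2 hR.le
  constructor
  · nlinarith [mul_nonneg (mul_nonneg hc.le hR.le) hy]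
  · nlinarith [mul_nonneg hc.le (sq_nonneg y)]

/-- `y` is small. -/
private theorem comp_y {L d : ℕ} {R c D s : ℝ} (hR : 0 < R) (hc : 0 < c) (hD : 0 ≤ D)
    (hs0 : 0 ≤ s) (hd : 1 ≤ d) (hdL : d < L)
    (hL : (3 / 2 - D * s) * d ≤ L) (hds : 1 ≤ s * d)
    (hs : ∑ l ∈ Finset.range L, min R (c * l) ^ 2 = ((L : ℝ) - d) * R ^ 2) :
    max (R - c * L) 0 ≤ (2 * D + 3) * s * R := by
  rcases le_total (R - c * L) 0 with h | h
  · rw [max_eq_right h]; positivity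
  rw [max_eq_left h]
  have h1 := (comp_rel hR hc hs).2
  rw [max_eq_left h] at h1
  have hL' : (d : ℝ) < L := by exact_mod_cast hdL
  have hd' : (1 : ℝ) ≤ d := by exact_mod_cast hd
  have hL0 : (0 : ℝ) < L := by linarith
  -- normalise
  obtain ⟨t, ht⟩ : ∃ t, t = (R - c * L) / R := ⟨_, rfl⟩
  have hy : R - c * L = t * R := by rw [ht]; field_simp
  have hcL : c * L = (1 - t) * R := by linarith
  have ht0 : 0 ≤ t := by rw [ht]; positivity
  have ht1 : t < 1 := by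
    by_contra hcon
    have : (1 - t) * R ≤ 0 := mul_nonpos_of_nonpos_of_nonneg (by linarith) hR.le
    have : 0 < c * L := by positivity
    linarith
  rw [hy] at h1 ⊢
  have hcd : c * d ≤ (1 - t) * R := by
    rw [← hcL]; exact mul_le_mul_of_nonneg_left hL'.le hc.le
  -- `(3/2) c d ≤ (1 + D s) (1 - t) R`
  have h2 : 3 / 2 * (c * d) ≤ (1 + D * s) * ((1 - t) * R) := by
    have h3 : c * ((3 / 2 - D * s) * d) ≤ c * L := mul_le_mul_of_nonneg_left hL hc.le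
    rw [hcL] at h3
    have h4 : D * s * (c * d) ≤ D * s * ((1 - t) * R) :=
      mul_le_mul_of_nonneg_left hcd (by positivity)
    nlinarith
  -- `c ≤ s (1 - t) R`
  have h5 : c ≤ s * ((1 - t) * R) := by
    have h6 : c * 1 ≤ c * (s * d) := mul_le_mul_of_nonneg_left hds hc.le
    have h7 : s * (c * d) ≤ s * ((1 - t) * R) := mul_le_mul_of_nonneg_left hcd hs0
    nlinarith
  have hR2 : 0 < R ^ 2 := by positivity
  have h8 : 2 / 3 * R - t ^ 2 * R + t ^ 3 * R / 3 - c ≤ c * d := by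
    have h9 : (2 / 3 * R - t ^ 2 * R + t ^ 3 * R / 3 - c) * R ^ 2 ≤ c * d * R ^ 2 := by
      calc _ = 2 / 3 * R ^ 3 - R * (t * R) ^ 2 + (t * R) ^ 3 / 3 - c * R ^ 2 := by ring
        _ ≤ _ := h1
    exact le_of_mul_le_mul_right h9 hR2
  have h10 : (1 - t) * R * (t * (2 - t) / 2) ≤ (1 - t) * R * ((D + 3 / 2) * s) := by
    nlinarith
  have h11 : t * (2 - t) / 2 ≤ (D + 3 / 2) * s :=
    le_of_mul_le_mul_left h10 (by have : 0 < 1 - t := by linarith
                                  positivity)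
  have h12 : t ≤ (2 * D + 3) * s := by nlinarith
  exact mul_le_mul_of_nonneg_right h12 hR.le

/-- The slope `c` is close to `2 R / (3 d)`. -/
private theorem comp_slope {L d : ℕ} {R c D s x : ℝ} (hR : 0 < R) (hc : 0 < c) (hD : 1 ≤ D)
    (hs0 : 0 < s) (hs2 : s ^ 2 = x) (hx : 400 * D ^ 2 * x ≤ 1) (hd : 1 ≤ d) (hdL : d < L)
    (hL : (3 / 2 - D * s) * d ≤ L) (hds : 1 ≤ s * d) (hdx : 1 ≤ x * d)
    (hs : ∑ l ∈ Finset.range L, min R (c * l) ^ 2 = ((L : ℝ) - d) * R ^ 2) :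
    |c * d - 2 / 3 * R| ≤ 26 * D ^ 2 * x * R ∧ R / 2 ≤ c * d ∧ c * d ≤ R := by
  have hy := comp_y hR hc (by linarith : 0 ≤ D) hs0.le hd hdL hL hds hs
  obtain ⟨h1, h2⟩ := comp_rel hR hc hs
  have hy0 : 0 ≤ max (R - c * L) 0 := le_max_right _ _
  have hyR : max (R - c * L) 0 ≤ R := by
    refine max_le ?_ hR.le
    have : 0 ≤ c * L := by positivity
    linarith
  set y := max (R - c * L) 0 with hydef
  have hx0 : 0 < x := by rw [← hs2]; positivity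
  have hD2 : 1 ≤ D ^ 2 := by nlinarith
  have hx1 : x ≤ 1 / 400 := by nlinarith
  have hy2 : y ^ 2 ≤ 25 * D ^ 2 * x * R ^ 2 := by
    have h3 : y ≤ 5 * D * s * R := by
      refine hy.trans ?_
      have : (2 * D + 3) * (s * R) ≤ 5 * D * (s * R) :=
        mul_le_mul_of_nonneg_right (by linarith) (by positivity)
      nlinarith
    calc y ^ 2 ≤ (5 * D * s * R) ^ 2 := by gcongr
      _ = 25 * D ^ 2 * s ^ 2 * R ^ 2 := by ring
      _ = _ := by rw [hs2]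
  have hy3 : y ^ 3 / 3 ≤ R * y ^ 2 := by
    have : y * y ^ 2 ≤ R * y ^ 2 := mul_le_mul_of_nonneg_right hyR (sq_nonneg y)
    have h0 : 0 ≤ y ^ 3 := by positivity
    nlinarith
  have hy30 : 0 ≤ y ^ 3 := by positivity
  have hcx : c ≤ x * (c * d) := by
    have : c * 1 ≤ c * (x * d) := mul_le_mul_of_nonneg_left hdx hc.le
    nlinarith
  have hR2 : 0 < R ^ 2 := by positivity
  have hup : c * d ≤ 2 / 3 * R + 2 * c := by
    have : c * d * R ^ 2 ≤ (2 / 3 * R + 2 * c) * R ^ 2 := by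
      have e : (2 / 3 * R + 2 * c) * R ^ 2 = 2 / 3 * R ^ 3 + 2 * c * R ^ 2 := by ring
      rw [e]
      linarith
    exact le_of_mul_le_mul_right this hR2
  have hlo : 2 / 3 * R - 25 * D ^ 2 * x * R - c ≤ c * d := by
    have : (2 / 3 * R - 25 * D ^ 2 * x * R - c) * R ^ 2 ≤ c * d * R ^ 2 := by
      have h5 : R * y ^ 2 ≤ R * (25 * D ^ 2 * x * R ^ 2) := mul_le_mul_of_nonneg_left hy2 hR.le
      have e : (2 / 3 * R - 25 * D ^ 2 * x * R - c) * R ^ 2 =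
        2 / 3 * R ^ 3 - R * (25 * D ^ 2 * x * R ^ 2) - c * R ^ 2 := by ring
      rw [e]
      linarith
    exact le_of_mul_le_mul_right this hR2
  have hk0 : 0 < c * d := by
    have : (0 : ℝ) < d := by exact_mod_cast hd
    positivity
  obtain ⟨k, hk⟩ : ∃ k, k = c * d := ⟨_, rfl⟩
  rw [← hk] at hup hlo hcx hk0 ⊢
  have hkR : k ≤ R := by
    have := mul_le_mul_of_nonneg_right hx1 hk0.le
    linarith
  have hxk : x * k ≤ x * R := mul_le_mul_of_nonneg_left hkR hx0.le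
  have hDx : x * R ≤ D ^ 2 * x * R := by
    have : 1 * (x * R) ≤ D ^ 2 * (x * R) := mul_le_mul_of_nonneg_right hD2 (by positivity)
    linarith
  refine ⟨?_, ?_, hkR⟩
  · rw [abs_le]
    constructor <;> linarith
  · have : 400 * D ^ 2 * x * R ≤ 1 * R := mul_le_mul_of_nonneg_right hx hR.le
    linarith

/-- The bound of `y` and of `c`. -/
private theorem comp_small {L d : ℕ} {R c D s x : ℝ} (hR : 0 < R) (hc : 0 < c) (hD : 1 ≤ D)
    (hs0 : 0 < s) (hs2 : s ^ 2 = x) (hx : 400 * D ^ 2 * x ≤ 1) (hd : 1 ≤ d) (hdL : d < L)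
    (hL : (3 / 2 - D * s) * d ≤ L) (hds : 1 ≤ s * d) (hdx : 1 ≤ x * d)
    (hs : ∑ l ∈ Finset.range L, min R (c * l) ^ 2 = ((L : ℝ) - d) * R ^ 2) :
    max (R - c * L) 0 ^ 2 ≤ 25 * D ^ 2 * x * R ^ 2 ∧ 2 * c * R ≤ 2 * D ^ 2 * x * R ^ 2 := by
  obtain ⟨_, _, hk3⟩ := comp_slope hR hc hD hs0 hs2 hx hd hdL hL hds hdx hs
  have hy := comp_y hR hc (by linarith : 0 ≤ D) hs0.le hd hdL hL hds hs
  have hy0 : 0 ≤ max (R - c * L) 0 := le_max_right _ _
  have hx0 : 0 < x := by rw [← hs2]; positivity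
  have hD2 : 1 ≤ D ^ 2 := by nlinarith
  constructor
  · have h3 : max (R - c * L) 0 ≤ 5 * D * s * R := by
      refine hy.trans ?_
      have h4 : (2 * D + 3) * (s * R) ≤ 5 * D * (s * R) :=
        mul_le_mul_of_nonneg_right (by linarith) (by positivity)
      rw [← mul_assoc, ← mul_assoc] at h4
      exact h4
    calc max (R - c * L) 0 ^ 2 ≤ (5 * D * s * R) ^ 2 := by gcongr
      _ = 25 * D ^ 2 * s ^ 2 * R ^ 2 := by ring
      _ = _ := by rw [hs2]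
  · have h3 : c * 1 ≤ c * (x * d) := mul_le_mul_of_nonneg_left hdx hc.le
    have h4 : x * (c * d) ≤ x * R := mul_le_mul_of_nonneg_left hk3 hx0.le
    have h5 : c ≤ x * R := by
      have e : c * (x * d) = x * (c * d) := by ring
      rw [e] at h3
      linarith
    have h6 : c * R ≤ x * R * R := mul_le_mul_of_nonneg_right h5 hR.le
    have h7 : 1 * (x * R * R) ≤ D ^ 2 * (x * R * R) :=
      mul_le_mul_of_nonneg_right hD2 (by positivity)
    have e : 2 * D ^ 2 * x * R ^ 2 = 2 * (D ^ 2 * (x * R * R)) := by ring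
    rw [e]
    linarith

/-- The sum. -/
private theorem comp_sum {L d : ℕ} {R c D s x u : ℝ} (hR : 0 < R) (hc : 0 < c) (hD : 1 ≤ D)
    (hs0 : 0 < s) (hs2 : s ^ 2 = x) (hx : 400 * D ^ 2 * x ≤ 1) (hd : 1 ≤ d) (hdL : d < L)
    (hL : (3 / 2 - D * s) * d ≤ L) (hds : 1 ≤ s * d) (hdx : 1 ≤ x * d)
    (hs : ∑ l ∈ Finset.range L, min R (c * l) ^ 2 = ((L : ℝ) - d) * R ^ 2)
    (hu : u ∈ Icc 0 R) :
    |(2 * c * ∑ j ∈ Finset.range L, max (R - c * j) 0 -
      2 * c * ∑ j ∈ Finset.range L, max (u - c * j) 0) - (R ^ 2 - u ^ 2)| ≤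
        27 * D ^ 2 * x * R ^ 2 := by
  obtain ⟨hy2, hcR⟩ := comp_small hR hc hD hs0 hs2 hx hd hdL hL hds hdx hs
  have hR1 := comp_sum1 hc.le R L
  have hR2 := comp_sum2 hc.le R L
  have hu1 := comp_sum1 hc.le u L
  have hu2 := comp_sum2 hc.le u L
  rw [max_eq_left hR.le] at hR1 hR2
  rw [max_eq_left hu.1] at hu1 hu2
  have hy0 : 0 ≤ max (R - c * L) 0 := le_max_right _ _
  have hyu0 : 0 ≤ max (u - c * L) 0 := le_max_right _ _
  have hyu : max (u - c * L) 0 ≤ max (R - c * L) 0 := max_le_max (by linarith [hu.2]) le_rfl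
  generalize ∑ j ∈ Finset.range L, max (R - c * j) 0 = P at hR1 hR2 ⊢
  generalize ∑ j ∈ Finset.range L, max (u - c * j) 0 = Q at hu1 hu2 ⊢
  generalize max (R - c * L) 0 = y at hy2 hR1 hR2 hy0 hyu
  generalize max (u - c * L) 0 = z at hu1 hu2 hyu0 hyu
  have hz2 : z ^ 2 ≤ y ^ 2 := by gcongr
  have hcu : 2 * c * u ≤ 2 * c * R := mul_le_mul_of_nonneg_left hu.2 (by positivity)
  have hcy : 0 ≤ 2 * c * y := by positivity
  have hcz : 0 ≤ 2 * c * z := by positivity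
  have hy20 := sq_nonneg y
  have hz20 := sq_nonneg z
  rw [mul_sub] at hR2 hu2
  rw [abs_le]
  constructor <;> linarith

/-- The coefficient. -/
private theorem comp_coef {R k D s x a : ℝ} (hR : 0 < R) (hD : 1 ≤ D) (hs0 : 0 < s)
    (hs2 : s ^ 2 = x) (hx : 400 * D ^ 2 * x ≤ 1) (ha0 : 0 < a) (haD : a ≤ D) (haD' : 1 ≤ D * a)
    (haR : |a * R - 3 / 4 * x| ≤ D * (x * s)) (hk : |k - 2 / 3 * R| ≤ 26 * D ^ 2 * x * R) :
    R ≤ D * x ∧ |x - 2 * a * k| ≤ 4 / 3 * (D * (x * s)) + 52 * D ^ 3 * x * R := by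
  have hx0 : 0 < x := by rw [← hs2]; positivity
  have hD0 : 0 < D := by linarith
  have haR' := abs_le.1 haR
  have hDs : D * s ≤ 1 / 20 := by
    by_contra hcon
    push Not at hcon
    have : (1 / 20) ^ 2 < (D * s) ^ 2 := by gcongr
    rw [mul_pow, hs2] at this
    linarith
  have hDsx : D * (x * s) ≤ 1 / 20 * x := by
    have := mul_le_mul_of_nonneg_right hDs hx0.le
    have e : D * (x * s) = D * s * x := by ring
    rw [e]; exact this
  constructor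
  · have h3 : a * R ≤ x := by linarith [haR'.2]
    have h4 : D * (a * R) ≤ D * x := mul_le_mul_of_nonneg_left h3 hD0.le
    have h5 : 1 * R ≤ D * a * R := mul_le_mul_of_nonneg_right haD' hR.le
    rw [mul_assoc] at h5
    linarith
  · have h3 : x - 2 * a * k = -(4 / 3) * (a * R - 3 / 4 * x) - 2 * a * (k - 2 / 3 * R) := by ring
    rw [h3]
    refine (abs_sub _ _).trans ?_
    rw [abs_mul, abs_mul, abs_neg, abs_of_pos (by norm_num : (0 : ℝ) < 4 / 3),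
      abs_of_pos (by positivity : 0 < 2 * a)]
    have h4 : 2 * a * |k - 2 / 3 * R| ≤ 2 * D * (26 * D ^ 2 * x * R) := by gcongr
    have h5 : 2 * D * (26 * D ^ 2 * x * R) = 52 * D ^ 3 * x * R := by ring
    linarith

/-- The final computation. -/
private theorem comp_fin {R D s x : ℝ} (hD : 1 ≤ D) (hs0 : 0 < s) (hx0 : 0 < x)
    (hxs : x ≤ s) (hR : 0 < R) (hRx : R ≤ D * x) :
    x * (27 * D ^ 2 * x * R) + (4 / 3 * (D * (x * s)) + 52 * D ^ 3 * x * R) * R ≤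
      100 * D ^ 5 * (x ^ 2 * s) := by
  have hD0 : 0 < D := by linarith
  have hx2s : 0 ≤ x ^ 2 * s := by positivity
  have hD5 : D ^ 2 ≤ D ^ 5 := pow_le_pow_right₀ hD (by norm_num)
  have hD53 : D ^ 3 ≤ D ^ 5 := pow_le_pow_right₀ hD (by norm_num)
  have hRs : R ≤ D * s := hRx.trans (by gcongr)
  have e1 : x * (27 * D ^ 2 * x * R) ≤ 27 * D ^ 5 * (x ^ 2 * s) := by
    calc x * (27 * D ^ 2 * x * R) ≤ x * (27 * D ^ 2 * x * (D * s)) := by gcongr
      _ = 27 * D ^ 3 * (x ^ 2 * s) := by ring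
      _ ≤ _ := by gcongr
  have e2 : (4 / 3 * (D * (x * s)) + 52 * D ^ 3 * x * R) * R ≤
      54 * D ^ 5 * (x ^ 2 * s) := by
    calc (4 / 3 * (D * (x * s)) + 52 * D ^ 3 * x * R) * R
        ≤ (4 / 3 * (D * (x * s)) + 52 * D ^ 3 * x * (D * s)) * (D * x) := by gcongr
      _ = 4 / 3 * D ^ 2 * (x ^ 2 * s) + 52 * D ^ 5 * (x ^ 2 * s) + 0 := by ring
      _ ≤ 4 / 3 * D ^ 5 * (x ^ 2 * s) + 52 * D ^ 5 * (x ^ 2 * s) + 0 := by gcongr
      _ ≤ _ := by linarith [mul_nonneg (pow_nonneg hD0.le 5) hx2s]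
  linarith [mul_nonneg (pow_nonneg hD0.le 5) hx2s]

/-- The area function. -/
private theorem comp_area {n L d : ℕ} {R c D s x a u : ℝ} (hR : 0 < R) (hc : 0 < c) (hD : 1 ≤ D)
    (hs0 : 0 < s) (hs2 : s ^ 2 = x) (hx : 400 * D ^ 2 * x ≤ 1) (hd : 1 ≤ d) (hdL : d < L)
    (hxd : x = (d : ℝ) / ((n : ℝ) + 1)) (ha0 : 0 < a) (haD : a ≤ D) (haD' : 1 ≤ D * a)
    (haR : |a * R - 3 / 4 * x| ≤ D * (x * s))
    (hL : (3 / 2 - D * s) * d ≤ L) (hds : 1 ≤ s * d) (hdx : 1 ≤ x * d)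
    (hs : ∑ l ∈ Finset.range L, min R (c * l) ^ 2 = ((L : ℝ) - d) * R ^ 2)
    (hu : u ∈ Icc 0 R) :
    |Aw n L R (fun l => min R (c * l)) u - a * (R ^ 2 - u ^ 2)| ≤ 100 * D ^ 5 * (x ^ 2 * s) := by
  obtain ⟨hk1, hk2, hk3⟩ := comp_slope hR hc hD hs0 hs2 hx hd hdL hL hds hdx hs
  obtain ⟨hRx, hE2⟩ := comp_coef hR hD hs0 hs2 hx ha0 haD haD' haR hk1
  have hE1 := comp_sum hR hc hD hs0 hs2 hx hd hdL hL hds hdx hs hu
  have hN : (0 : ℝ) < (n : ℝ) + 1 := by positivity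
  have hx0 : 0 < x := by rw [← hs2]; positivity
  have hD2 : 1 ≤ D ^ 2 := by nlinarith
  have hx1 : x ≤ 1 := by nlinarith
  have hs1 : s ≤ 1 := by nlinarith
  have hxs : x ≤ s := by nlinarith
  have hxN : x * ((n : ℝ) + 1) = d := by rw [hxd]; field_simp
  have hA : Aw n L R (fun l => min R (c * l)) u = 1 / ((n : ℝ) + 1) *
      (∑ j ∈ Finset.range L, max (R - c * j) 0 - ∑ j ∈ Finset.range L, max (u - c * j) 0) := by
    unfold Aw
    rw [← Finset.sum_sub_distrib, Finset.mul_sum]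
    exact Finset.sum_congr rfl fun j _ => by rw [comp_id1 hu.2]
  generalize Aw n L R (fun l => min R (c * l)) u = A at hA ⊢
  generalize ∑ j ∈ Finset.range L, max (R - c * j) 0 = P at hA hE1
  generalize ∑ j ∈ Finset.range L, max (u - c * j) 0 = Q at hA hE1
  have hkA : 2 * (c * d) * A = x * (2 * c * P - 2 * c * Q) := by
    rw [hA, ← hxN]
    field_simp
  generalize c * (d : ℝ) = k at hk1 hk2 hk3 hkA hE2
  have hu0 : 0 ≤ R ^ 2 - u ^ 2 := by nlinarith [hu.1, hu.2]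
  have hu2' : R ^ 2 - u ^ 2 ≤ R ^ 2 := by linarith [sq_nonneg u]
  have hk0 : 0 < 2 * k := by linarith
  have hT : |A - a * (R ^ 2 - u ^ 2)| * R ≤
      (x * (27 * D ^ 2 * x * R) + (4 / 3 * (D * (x * s)) + 52 * D ^ 3 * x * R) * R) * R := by
    have h5 : |A - a * (R ^ 2 - u ^ 2)| * R ≤ |A - a * (R ^ 2 - u ^ 2)| * (2 * k) :=
      mul_le_mul_of_nonneg_left (by linarith) (abs_nonneg _)
    refine h5.trans ?_
    have h6 : |A - a * (R ^ 2 - u ^ 2)| * (2 * k) =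
        |x * ((2 * c * P - 2 * c * Q) - (R ^ 2 - u ^ 2)) + (x - 2 * a * k) * (R ^ 2 - u ^ 2)| := by
      have h9 : |A - a * (R ^ 2 - u ^ 2)| * (2 * k) = |(A - a * (R ^ 2 - u ^ 2)) * (2 * k)| := by
        rw [abs_mul, abs_of_pos hk0]
      rw [h9]
      congr 1
      linear_combination hkA
    rw [h6]
    refine (abs_add_le _ _).trans ?_
    rw [abs_mul, abs_mul, abs_of_pos hx0, abs_of_nonneg hu0]
    have h7 : x * |(2 * c * P - 2 * c * Q) - (R ^ 2 - u ^ 2)| ≤ x * (27 * D ^ 2 * x * R ^ 2) := by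
      gcongr
    have h8 : |x - 2 * a * k| * (R ^ 2 - u ^ 2) ≤
        (4 / 3 * (D * (x * s)) + 52 * D ^ 3 * x * R) * R ^ 2 := by gcongr
    have e : (x * (27 * D ^ 2 * x * R) + (4 / 3 * (D * (x * s)) + 52 * D ^ 3 * x * R) * R) * R =
        x * (27 * D ^ 2 * x * R ^ 2) + (4 / 3 * (D * (x * s)) + 52 * D ^ 3 * x * R) * R ^ 2 := by
      ring
    rw [e]
    linarith
  exact (le_of_mul_le_mul_right hT hR).trans (comp_fin hD hs0 hx0 hxs hR hRx)

/-- The competitor `ρ l = min R (c l)`. -/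
theorem comp {D : ℝ} (hD : 1 ≤ D) : ∃ c C : ℝ, 0 < c ∧ 1 ≤ C ∧ ∀ (n d L : ℕ) (R a x : ℝ),
    x = (d : ℝ) / ((n : ℝ) + 1) → 1 ≤ d → d < L → L ≤ 2 * d → 0 < R → 1 / D ≤ a → a ≤ D →
    x ≤ c → C ≤ x ^ 40 * ((n : ℝ) + 1) → |a * R - 3 / 4 * x| ≤ D * (x * √x) →
    3 / 2 * x - D * (x * √x) ≤ (L : ℝ) / ((n : ℝ) + 1) →
    ∃ ρ : ℕ → ℝ, ρ 0 = 0 ∧ (∀ l, l + 1 < L → ρ l ≤ ρ (l + 1)) ∧ (∀ l < L, 0 ≤ ρ l ∧ ρ l ≤ R) ∧
      ∑ l ∈ Finset.range L, ρ l ^ 2 = ((L : ℝ) - d) * R ^ 2 ∧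
      ∀ u ∈ Icc 0 R, |Aw n L R ρ u - a * (R ^ 2 - u ^ 2)| ≤ C * (x ^ 2 * √x) := by
  have hD0 : 0 < D := by linarith
  have hD5 : 1 ≤ D ^ 5 := one_le_pow₀ hD
  refine ⟨1 / (400 * D ^ 2), 100 * D ^ 5, by positivity, by linarith, ?_⟩
  intro n d L R a x hxd hd hdL _ hR haD haD' hxc hxN haR hL
  have hN : (0 : ℝ) < (n : ℝ) + 1 := by positivity
  have hd0 : (0 : ℝ) < d := by exact_mod_cast hd
  have hx0 : 0 < x := by rw [hxd]; positivity
  have hx : 400 * D ^ 2 * x ≤ 1 := by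
    have := (le_div_iff₀ (by positivity : 0 < 400 * D ^ 2)).1 hxc
    linarith
  have hD2 : 1 ≤ D ^ 2 := by nlinarith
  have hx1 : x ≤ 1 := by nlinarith
  have hs0 : 0 < √x := Real.sqrt_pos.2 hx0
  have hs2 : √x ^ 2 = x := Real.sq_sqrt hx0.le
  have hs1 : √x ≤ 1 := by nlinarith
  have hxs : x ≤ √x := by nlinarith
  have hdN : (d : ℝ) = x * ((n : ℝ) + 1) := by rw [hxd]; field_simp
  have hdx : 1 ≤ x * d := by
    have h1 : x ^ 40 * ((n : ℝ) + 1) ≤ x ^ 2 * ((n : ℝ) + 1) := by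
      gcongr ?_ * _
      exact pow_le_pow_of_le_one hx0.le hx1 (by norm_num)
    rw [hdN]
    nlinarith
  have hds : 1 ≤ √x * d := hdx.trans (by gcongr)
  have ha0 : 0 < a := lt_of_lt_of_le (by positivity) haD
  have haD1 : 1 ≤ D * a := by
    have := (div_le_iff₀ hD0).1 haD
    linarith
  have hL' : (3 / 2 - D * √x) * d ≤ L := by
    have h1 := (le_div_iff₀ hN).1 hL
    rw [hdN]
    nlinarith
  obtain ⟨c, hc, hs⟩ := comp_ivt hR hd hdL
  refine ⟨fun l => min R (c * l), ?_, ?_, ?_, hs, ?_⟩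
  · simp [min_eq_right hR.le]
  · intro l _
    have : c * (l : ℝ) ≤ c * ((l + 1 : ℕ) : ℝ) := by
      push_cast
      gcongr
      linarith
    exact min_le_min le_rfl this
  · intro l _
    exact ⟨le_min hR.le (by positivity), min_le_left _ _⟩
  · intro u hu
    exact comp_area hR hc hD hs0 hs2 hx hd hdL hxd ha0 haD' haD1 haR hL' hds hdx hs hu

end Vale.Agent.P146.Sh
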