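import Vale.Agent.P146.Sh.ShDefs

/-!
# P146, Sh: bounds of the derivatives at the origin
-/

open MeasureTheory ProbabilityTheory Filter Topology Set

namespace Vale.Agent.P146.Sh

open Vale.Agent.P157.Par
open Vale.Agent.P146.Gap
open Vale.Agent.P146.Pw2
open Vale.Agent.P146.Lb
open Vale.Agent.P367.Cl

theorem vk_bd (b : ℝ) : ∃ c K : ℝ, 0 < c ∧ 1 ≤ K ∧ ∀ (n : ℕ) (r : ℕ → ℝ), BPath b n r →
    c ≤ vv n r ∧ vv n r ≤ 1 ∧ c ≤ kk n r ∧ kk n r ≤ K := by
  obtain ⟨K, hK1, hK⟩ := fl_bk b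
  have hK0 : 0 < K := by linarith
  set a : ℝ := Real.exp (-(2 * b ^ 2)) with ha
  have ha0 : 0 < a := Real.exp_pos _
  refine ⟨min (1 / K) (2 * a * (1 / K) ^ 2), K, lt_min (by positivity) (by positivity), hK1,
    fun n r hr => ?_⟩
  have hm := gm_exponents n
  obtain ⟨hF, -⟩ := hK n (gm n) r hm hr
  have hA := hF 0 (Nat.zero_le n)
  have hv := vari_d2_01 hA.adm 0
  have h0 : 1 / K ≤ iteratedDeriv 2 (Fl n (gm n) r 0) 0 := by
    rw [div_le_iff₀ hK0]
    linarith [hA.low0]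
  have e : Fl n (gm n) r 0 = cascade (gm n) r n lc := by
    simp only [Fl, Nat.zero_add, Nat.sub_zero]
  have hlt : ∀ l, 1 ≤ l → l ≤ n → 0 < gm n l ∧ gm n l ≤ 1 := fun l h1 h2 => by
    have h3 := sp7_exp_of hm (l - 1) (by omega)
    have e1 : l - 1 + 1 = l := by omega
    rw [e1] at h3
    exact h3
  have hb := inv_cascade (n := n) (m := gm n) (r := r) (c := 1) good_lc le_rfl zero_lt_one le_rfl
    inv_lc (fun l h1 h2 => (hlt l h1 h2).1) (fun l _ h2 => (hm.2.2 l h2.le).le)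
    (fun l h1 h2 => (hlt l h1 h2).2) hr.2.1.2 0
  rw [← e, one_mul, hr.1, sub_zero] at hb
  have h3 : iteratedDeriv 3 (Fl n (gm n) r 0) 0 = 0 := GoodX.good_odd hA.adm.even (by decide)
  have hk : 2 * a * (1 / K) ^ 2 ≤ kk n r := by
    unfold bet at hb
    rw [h3, zero_div] at hb
    have hc : a ≤ Real.exp (-(2 * r n)) := Real.exp_le_exp.2 (by linarith [hr.2.2])
    set F2 := iteratedDeriv 2 (Fl n (gm n) r 0) 0 with hF2
    have h4 : iteratedDeriv 4 (Fl n (gm n) r 0) 0 / F2 ≤ -(2 * Real.exp (-(2 * r n)) * F2) := by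
      nlinarith
    rw [div_le_iff₀ hv.1] at h4
    have h5 : a * (1 / K) ^ 2 ≤ Real.exp (-(2 * r n)) * F2 ^ 2 :=
      mul_le_mul hc (pow_le_pow_left₀ (by positivity) h0 2) (by positivity) (Real.exp_pos _).le
    unfold kk
    nlinarith
  refine ⟨(min_le_left _ _).trans h0, hv.2, (min_le_right _ _).trans hk, ?_⟩
  have h6 := abs_le.1 ((hA.k4 0).trans (mul_le_of_le_one_right hK0.le hv.2))
  unfold kk
  linarith [h6.1]

end Vale.Agent.P146.Sh
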