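import Vale.Agent.P146.Sh.ShLawAB
import Vale.Agent.P146.Sh.ShM1
import Vale.Agent.P146.Sh.ShBd

/-!
# P146, Sh: the first block of the constrained minimiser
-/

open MeasureTheory ProbabilityTheory Filter Topology Set

namespace Vale.Agent.P146.Sh

open Vale.Agent.P157.Par
open Vale.Agent.P146.Gap
open Vale.Agent.P146.Pw2
open Vale.Agent.P146.Lb
open Vale.Agent.P367.Cl

theorem lawA {b : ℝ} (hb : 1 < b) : ∃ c C : ℝ, 0 < c ∧ 1 ≤ C ∧ ∀ (n d : ℕ) (r : ℕ → ℝ),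
    1 ≤ d → d ≤ n → IsMinD b n d r → gm n d ≤ c → C ≤ gm n d ^ 40 * (n + 1) →
      c * gm n d ≤ r d ∧ r d ≤ C * gm n d ∧ 2 * C * gm n d ≤ r n ∧
      ∀ l, d ≤ l → l < n → ∀ t ∈ Icc 0 (r (l + 1) - r l),
        |Mb n (gm n) r l t - 1 / b ^ 2| ≤ gm n d ^ 8 :=
  lawA_of hb (vk_bd b) (m1e b)

end Vale.Agent.P146.Sh
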