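import Vale.Agent.P146.Lb.LReal

/-!
# P146, Sh: real analysis on the first block
-/

open MeasureTheory Set

namespace Vale.Agent.P146.Sh

open Vale.Agent.P146.Lb

theorem fb_real {R E K y ε : ℝ} {f g g1 : ℝ → ℝ} (hR : 0 < R) (hE : 0 ≤ E)
    (hf : ContinuousOn f (Icc 0 R)) (hg : ContinuousOn g (Icc 0 R))
    (h1 : ∀ t ∈ Ioo 0 R, HasDerivAt f (g t) t) (h2 : ∀ t ∈ Ioo 0 R, HasDerivAt g (g1 t) t)
    (h3 : ∀ t ∈ Ioo 0 R, |g1 t - (K * t - 2 * y)| ≤ E) (hf0 : f 0 = 0) (hfR : f R = 0)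
    (hgR : |g R| ≤ ε) :
    |K * R ^ 3 / 3 - y * R ^ 2| ≤ E * R ^ 2 + ε * R ∧
      ∫ t in (0 : ℝ)..R, f t ≤ K * R ^ 4 / 72 + E * R ^ 3 + ε * R ^ 2 := by
  have dp : ∀ t : ℝ, HasDerivAt (fun t : ℝ => K * t ^ 2 / 2 - 2 * y * t) (K * t - 2 * y) t := by
    intro t
    have e1 := ((hasDerivAt_pow 2 t).const_mul K).div_const 2
    have e2 := (hasDerivAt_id t).const_mul (2 * y)
    refine (e1.sub e2).congr_deriv ?_
    norm_num
    ring
  -- the second derivative
  have hgu : ∀ s ∈ Icc 0 R, g s ≤ (K * s ^ 2 / 2 - 2 * y * s) - (K * R ^ 2 / 2 - 2 * y * R) + g R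
      + E * (R - s) := by
    intro s hs
    have := lreal_ge (f := fun t => g t - (K * t ^ 2 / 2 - 2 * y * t))
      (f' := fun t => g1 t - (K * t - 2 * y)) (a := -E) hs.2
      ((hg.mono (Icc_subset_Icc_left hs.1)).sub (by fun_prop))
      (fun t ht => (h2 t ⟨hs.1.trans_lt ht.1, ht.2⟩).sub (dp t))
      (fun t ht => (abs_le.1 (h3 t ⟨hs.1.trans_lt ht.1, ht.2⟩)).1)
    linarith
  have hgl : ∀ s ∈ Icc 0 R, (K * s ^ 2 / 2 - 2 * y * s) - (K * R ^ 2 / 2 - 2 * y * R) + g R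
      - E * (R - s) ≤ g s := by
    intro s hs
    have := lreal_le (f := fun t => g t - (K * t ^ 2 / 2 - 2 * y * t))
      (f' := fun t => g1 t - (K * t - 2 * y)) (a := E) hs.2
      ((hg.mono (Icc_subset_Icc_left hs.1)).sub (by fun_prop))
      (fun t ht => (h2 t ⟨hs.1.trans_lt ht.1, ht.2⟩).sub (dp t))
      (fun t ht => (abs_le.1 (h3 t ⟨hs.1.trans_lt ht.1, ht.2⟩)).2)
    linarith
  -- the function
  set q : ℝ → ℝ := fun t => (K * t ^ 3 / 6 - y * t ^ 2) - (K * R ^ 3 / 6 - y * R ^ 2)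
    - ((K * R ^ 2 / 2 - 2 * y * R) - g R) * (t - R) with hq
  have dq : ∀ t : ℝ, HasDerivAt q ((K * t ^ 2 / 2 - 2 * y * t)
      - ((K * R ^ 2 / 2 - 2 * y * R) - g R)) t := by
    intro t
    have e1 := ((hasDerivAt_pow 3 t).const_mul K).div_const 6
    have e2 := (hasDerivAt_pow 2 t).const_mul y
    have e3 := ((hasDerivAt_id t).sub_const R).const_mul ((K * R ^ 2 / 2 - 2 * y * R) - g R)
    refine (((e1.sub e2).sub_const (K * R ^ 3 / 6 - y * R ^ 2)).sub e3).congr_deriv ?_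
    norm_num
    ring
  have de : ∀ t : ℝ, HasDerivAt (fun t : ℝ => E * (R - t) ^ 2 / 2) (-(E * (R - t))) t := by
    intro t
    have e1 := ((((hasDerivAt_id t).const_sub R).pow 2).const_mul E).div_const 2
    refine e1.congr_deriv ?_
    norm_num
    ring
  have hqR : q R = 0 := by simp [hq]
  have hq0 : q 0 = K * R ^ 3 / 3 - y * R ^ 2 - g R * R := by
    simp only [hq]
    ring
  have hfu : ∀ s ∈ Icc 0 R, f s ≤ q s + E * (R - s) ^ 2 / 2 := by
    intro s hs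
    have := lreal_ge (f := fun t => f t - q t - E * (R - t) ^ 2 / 2)
      (f' := fun t => g t - ((K * t ^ 2 / 2 - 2 * y * t)
      - ((K * R ^ 2 / 2 - 2 * y * R) - g R)) - (-(E * (R - t)))) (a := 0) hs.2
      (((hf.mono (Icc_subset_Icc_left hs.1)).sub (by
        rw [hq]
        fun_prop)).sub (by fun_prop))
      (fun t ht => ((h1 t ⟨hs.1.trans_lt ht.1, ht.2⟩).sub (dq t)).sub (de t))
      (fun t ht => by
        have := hgl t ⟨hs.1.trans ht.1.le, ht.2.le⟩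
        linarith)
    simp only [hfR, hqR] at this
    have e : E * (R - R) ^ 2 / 2 = 0 := by ring
    linarith
  have hfl : ∀ s ∈ Icc 0 R, q s - E * (R - s) ^ 2 / 2 ≤ f s := by
    intro s hs
    have := lreal_le (f := fun t => f t - q t + E * (R - t) ^ 2 / 2)
      (f' := fun t => g t - ((K * t ^ 2 / 2 - 2 * y * t)
      - ((K * R ^ 2 / 2 - 2 * y * R) - g R)) + (-(E * (R - t)))) (a := 0) hs.2
      (((hf.mono (Icc_subset_Icc_left hs.1)).sub (by
        rw [hq]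
        fun_prop)).add (by fun_prop))
      (fun t ht => ((h1 t ⟨hs.1.trans_lt ht.1, ht.2⟩).sub (dq t)).add (de t))
      (fun t ht => by
        have := hgu t ⟨hs.1.trans ht.1.le, ht.2.le⟩
        linarith)
    simp only [hfR, hqR] at this
    have e : E * (R - R) ^ 2 / 2 = 0 := by ring
    linarith
  have h0u := hfu 0 ⟨le_rfl, hR.le⟩
  have h0l := hfl 0 ⟨le_rfl, hR.le⟩
  rw [hf0, hq0, sub_zero] at h0u h0l
  have hg1 : g R * R ≤ ε * R := mul_le_mul_of_nonneg_right (abs_le.1 hgR).2 hR.le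
  have hg2 : -(ε * R) ≤ g R * R := by
    have := mul_le_mul_of_nonneg_right (abs_le.1 hgR).1 hR.le
    linarith
  have hER : 0 ≤ E * R ^ 2 := by positivity
  refine ⟨abs_le.2 ⟨by linarith, by linarith⟩, ?_⟩
  -- the integral
  have hint : ∫ t in (0 : ℝ)..R, f t ≤ ∫ t in (0 : ℝ)..R, (q t + E * (R - t) ^ 2 / 2) := by
    refine intervalIntegral.integral_mono_on hR.le ?_ ?_ hfu
    · refine ContinuousOn.intervalIntegrable ?_
      rwa [uIcc_of_le hR.le]
    · refine Continuous.intervalIntegrable ?_ _ _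
      rw [hq]
      fun_prop
  have hval : ∫ t in (0 : ℝ)..R, (q t + E * (R - t) ^ 2 / 2) =
      K * R ^ 4 / 8 - y * R ^ 3 / 3 - g R * R ^ 2 / 2 + E * R ^ 3 / 6 := by
    have dQ : ∀ t ∈ uIcc 0 R, HasDerivAt (fun t : ℝ => (K * t ^ 4 / 24 - y * t ^ 3 / 3)
        - (K * R ^ 3 / 6 - y * R ^ 2) * t
        - ((K * R ^ 2 / 2 - 2 * y * R) - g R) * (t - R) ^ 2 / 2 - E * (R - t) ^ 3 / 6)
        (q t + E * (R - t) ^ 2 / 2) t := by
      intro t _
      have e1 := ((hasDerivAt_pow 4 t).const_mul K).div_const 24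
      have e2 := ((hasDerivAt_pow 3 t).const_mul y).div_const 3
      have e3 := (hasDerivAt_id t).const_mul (K * R ^ 3 / 6 - y * R ^ 2)
      have e4 := ((((hasDerivAt_id t).sub_const R).pow 2).const_mul
        ((K * R ^ 2 / 2 - 2 * y * R) - g R)).div_const 2
      have e5 := ((((hasDerivAt_id t).const_sub R).pow 3).const_mul E).div_const 6
      refine ((((e1.sub e2).sub e3).sub e4).sub e5).congr_deriv ?_
      simp only [hq, id]
      norm_num
      ring
    rw [intervalIntegral.integral_eq_sub_of_hasDerivAt dQ ?_]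
    · ring
    · refine Continuous.intervalIntegrable ?_ _ _
      rw [hq]
      fun_prop
  rw [hval] at hint
  have h5 : K * R ^ 4 / 8 - y * R ^ 3 / 3 - g R * R ^ 2 / 2 + E * R ^ 3 / 6 =
      K * R ^ 4 / 72 + (K * R ^ 3 / 3 - y * R ^ 2 - g R * R) * R / 3 - g R * R * R / 6
        + E * R ^ 3 / 6 := by ring
  have h6 : (K * R ^ 3 / 3 - y * R ^ 2 - g R * R) * R / 3 ≤ E * R ^ 2 / 2 * R / 3 := by
    have : (K * R ^ 3 / 3 - y * R ^ 2 - g R * R) * R ≤ E * R ^ 2 / 2 * R :=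
      mul_le_mul_of_nonneg_right (by linarith) hR.le
    linarith
  have h7 : -(g R * R * R / 6) ≤ ε * R * R / 6 := by
    have : -(ε * R) * R ≤ g R * R * R := mul_le_mul_of_nonneg_right hg2 hR.le
    linarith
  have h8 : 0 ≤ E * R ^ 3 := by positivity
  have hε : 0 ≤ ε := (abs_nonneg _).trans hgR
  have h9 : 0 ≤ ε * R ^ 2 := by positivity
  have h10 : E * R ^ 2 / 2 * R / 3 = E * R ^ 3 / 6 := by ring
  have h11 : ε * R * R / 6 = ε * R ^ 2 / 6 := by ring
  rw [h10] at h6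
  rw [h11] at h7
  linarith

end Vale.Agent.P146.Sh
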