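import Vale.Agent.P146.Sh.ShDefs
import Vale.Agent.P146.Sh.ShFb

/-!
# P146, Sh: the law of the first block (over the statements of `lawA` and `m1e`)
-/

open MeasureTheory ProbabilityTheory Filter Topology Set

namespace Vale.Agent.P146.Sh

open Vale.Agent.P157.Par
open Vale.Agent.P146.Gap
open Vale.Agent.P146.Pw2
open Vale.Agent.P146.Lb
open Vale.Agent.P367.Cl

/-- powers of `x` below `x √x` -/
theorem lawb_pow {x : ℝ} (hx : 0 < x) (hx1 : x ≤ 1) {k : ℕ} (hk : 2 ≤ k) : x ^ k ≤ x * √x := by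
  have h1 : x ^ k ≤ x ^ 2 := pow_le_pow_of_le_one hx.le hx1 hk
  have h2 : x ≤ √x := Real.le_sqrt_of_sq_le (by nlinarith)
  calc x ^ k ≤ x ^ 2 := h1
    _ = x * x := by ring
    _ ≤ x * √x := mul_le_mul_of_nonneg_left h2 hx.le

theorem lawb_sqrt {x D : ℝ} (hx : 0 ≤ x) (hD : 1 ≤ D) :
    (D * x) * √(D * x) ≤ D ^ 2 * (x * √x) := by
  have h1 : √(D * x) = √D * √x := Real.sqrt_mul (by linarith) x
  have h2 : √D ≤ D := by
    rw [Real.sqrt_le_left (by linarith)]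
    nlinarith
  rw [h1]
  have h3 : √D * √x ≤ D * √x := mul_le_mul_of_nonneg_right h2 (Real.sqrt_nonneg x)
  calc D * x * (√D * √x) ≤ D * x * (D * √x) :=
        mul_le_mul_of_nonneg_left h3 (by positivity)
    _ = D ^ 2 * (x * √x) := by ring

theorem lawB_of {b : ℝ} (hb : 1 < b)
    (hlawA : ∃ c C : ℝ, 0 < c ∧ 1 ≤ C ∧ ∀ (n d : ℕ) (r : ℕ → ℝ),
    1 ≤ d → d ≤ n → IsMinD b n d r → gm n d ≤ c → C ≤ gm n d ^ 40 * (n + 1) →
      c * gm n d ≤ r d ∧ r d ≤ C * gm n d ∧ 2 * C * gm n d ≤ r n ∧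
      ∀ l, d ≤ l → l < n → ∀ t ∈ Icc 0 (r (l + 1) - r l),
        |Mb n (gm n) r l t - 1 / b ^ 2| ≤ gm n d ^ 8)
    (hm1e : ∃ C : ℝ, 1 ≤ C ∧ ∀ (n : ℕ) (X : ℝ) (r : ℕ → ℝ), BPath b n r → 0 < X →
    X ≤ 1 → ∀ l < n, gm n (l + 1) ≤ X → ∀ t ∈ Icc 0 (r (l + 1) - r l), r l + t ≤ X →
      |M1b n (gm n) r l t - (kk n r ^ 2 * (r l + t) - 2 * gm n (l + 1) * vv n r ^ 3)| ≤
        C * (X * √X)) :
    ∃ c C : ℝ, 0 < c ∧ 1 ≤ C ∧ ∀ (n d : ℕ) (r : ℕ → ℝ),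
    1 ≤ d → d ≤ n → IsMinD b n d r → gm n d ≤ c → C ≤ gm n d ^ 40 * (n + 1) →
      |kk n r ^ 2 * r d - 3 * gm n d * vv n r ^ 3| ≤ C * (gm n d * √(gm n d)) ∧
      ∫ s in (0 : ℝ)..(r d), (Rb n (gm n) r (d - 1) s - s / b ^ 2) ≤
        kk n r ^ 2 * r d ^ 4 / 72 + C * (gm n d ^ 4 * √(gm n d)) := by
  obtain ⟨c₁, C₁, hc₁, hC₁, hA⟩ := hlawA
  obtain ⟨C₂, hC₂, hM⟩ := hm1e
  have hb2 : 0 < b ^ 2 := by positivity
  -- constants
  set E₀ := C₂ * C₁ ^ 2 with hE₀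
  have hE₀1 : 1 ≤ E₀ := by
    have : 1 ≤ C₁ ^ 2 := one_le_pow₀ hC₁
    nlinarith
  set Cf := 3 * E₀ + 3 / c₁ + E₀ * C₁ ^ 3 + C₁ ^ 2 + C₁ with hCf
  have hp1 : 0 < 3 / c₁ := by positivity
  have hp2 : 0 ≤ E₀ * C₁ ^ 3 := by positivity
  have hp3 : 0 ≤ C₁ ^ 2 := by positivity
  refine ⟨min c₁ (1 / C₁), Cf, by positivity, by rw [hCf]; linarith,
    fun n d r hd1 hdn hmin hx hC => ?_⟩
  set x := gm n d with hxdef
  have hx0 : 0 < x := grid_gm_pos hd1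
  have hxc : x ≤ c₁ := hx.trans (min_le_left _ _)
  have hxC : C₁ * x ≤ 1 := by
    have h1 : x ≤ 1 / C₁ := hx.trans (min_le_right _ _)
    rw [le_div_iff₀ (by linarith)] at h1
    linarith
  have hx1 : x ≤ 1 := by nlinarith
  have hr := hmin.1
  have hm := gm_exponents n
  have hC1x : C₁ ≤ x ^ 40 * (n + 1) := by
    refine le_trans ?_ hC
    rw [hCf]
    linarith
  obtain ⟨hA1, hA2, hA3, hA4⟩ := hA n d r hd1 hdn hmin hxc hC1x
  have hdn' : d < n := by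
    rcases hdn.lt_or_eq with h | h
    · exact h
    · exfalso
      have h' : r d = r n := by rw [h]
      rw [h'] at hA2
      have : 0 < C₁ * x := by positivity
      have h'' : 2 * C₁ * x = 2 * (C₁ * x) := by ring
      linarith
  obtain ⟨l, rfl⟩ : ∃ l, d = l + 1 := ⟨d - 1, by omega⟩
  have hln : l < n := by omega
  rw [Nat.add_sub_cancel]
  have hrl : r l = 0 := hmin.2.1 l (Nat.lt_succ_self l)
  set R := r (l + 1) with hRdef
  have eR : r (l + 1) - r l = R := by rw [hrl, sub_zero]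
  have hR0 : 0 < R := (by positivity : 0 < c₁ * x).trans_le hA1
  have hX0 : 0 < C₁ * x := by positivity
  -- data
  have hfc : ContinuousOn (fun s => Rb n (gm n) r l s - s / b ^ 2) (Icc 0 R) := by
    have := Rb_cont hm hr.2.1 hln
    rw [eR] at this
    exact this.sub (by fun_prop)
  have hgc : ContinuousOn (fun s => Mb n (gm n) r l s - 1 / b ^ 2) (Icc 0 R) := by
    have := Mb_cont hm hr.2.1 hln
    rw [eR] at this
    exact this.sub (by fun_prop)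
  have h1 : ∀ t ∈ Ioo 0 R, HasDerivAt (fun s => Rb n (gm n) r l s - s / b ^ 2)
      (Mb n (gm n) r l t - 1 / b ^ 2) t := fun t ht =>
    (Rb_deriv hm hr.2.1 hln (by rw [eR]; exact ht)).sub ((hasDerivAt_id t).div_const _)
  have h2 : ∀ t ∈ Ioo 0 R, HasDerivAt (fun s => Mb n (gm n) r l s - 1 / b ^ 2)
      (M1b n (gm n) r l t) t := fun t ht =>
    (Mb_deriv hm hr.2.1 hln (by rw [eR]; exact ht)).sub_const _
  have h3 : ∀ t ∈ Ioo 0 R, |M1b n (gm n) r l t - (kk n r ^ 2 * t - 2 * (x * vv n r ^ 3))| ≤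
      E₀ * (x * √x) := fun t ht => by
    have e1 := hM n (C₁ * x) r hr hX0 hxC l hln (by
        have : gm n (l + 1) = x := rfl
        rw [this]
        nlinarith) t (by rw [eR]; exact ⟨ht.1.le, ht.2.le⟩) (by
        rw [hrl, zero_add]
        linarith [ht.2])
    rw [hrl, zero_add] at e1
    have e2 : C₂ * (C₁ * x * √(C₁ * x)) ≤ C₂ * (C₁ ^ 2 * (x * √x)) :=
      mul_le_mul_of_nonneg_left (lawb_sqrt hx0.le hC₁) (by linarith)
    have e3 : C₂ * (C₁ ^ 2 * (x * √x)) = E₀ * (x * √x) := by rw [hE₀]; ring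
    have e4 : kk n r ^ 2 * t - 2 * (x * vv n r ^ 3) =
      kk n r ^ 2 * t - 2 * gm n (l + 1) * vv n r ^ 3 := by rw [hxdef]; ring
    rw [e4]
    linarith
  have hf0 : Rb n (gm n) r l 0 - 0 / b ^ 2 = 0 := by
    rw [Rb_zero hm hr.2.1 hln, spR_zero hm hr.2.1 hr.1 hln.le hrl]
    simp
  have hst := statD (by linarith) hmin (l + 1) hdn
  have hfR : Rb n (gm n) r l R - R / b ^ 2 = 0 := by
    have e1 := Rb_last hm hr.2.1 hln
    rw [eR] at e1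
    rw [e1, hRdef, hst]
    field_simp
    simp
  have hgR : |Mb n (gm n) r l R - 1 / b ^ 2| ≤ x ^ 8 := by
    have e1 := Mb_last hm hr.2.1 hln
    rw [eR] at e1
    rw [e1, ← Mb_zero hm hr.2.1 hdn']
    refine hA4 (l + 1) le_rfl hdn' 0 ⟨le_rfl, ?_⟩
    have := len_mono hr (Nat.le_succ (l + 1)) hdn'
    linarith
  have hxs : 0 ≤ x * √x := by positivity
  obtain ⟨hf1, hf2⟩ := fb_real (y := x * vv n r ^ 3) (K := kk n r ^ 2) (E := E₀ * (x * √x))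
    (ε := x ^ 8) hR0 (by positivity) hfc hgc h1 h2 h3 hf0 hfR hgR
  constructor
  · -- the law
    have e1 : kk n r ^ 2 * R ^ 3 / 3 - x * vv n r ^ 3 * R ^ 2 =
        (kk n r ^ 2 * R - 3 * x * vv n r ^ 3) * (R ^ 2 / 3) := by ring
    rw [e1, abs_mul, abs_of_nonneg (by positivity : (0 : ℝ) ≤ R ^ 2 / 3)] at hf1
    have e2 : |kk n r ^ 2 * R - 3 * x * vv n r ^ 3| ≤ 3 * (E₀ * (x * √x)) + 3 * (x ^ 8 / R) := by
      have e3 : E₀ * (x * √x) * R ^ 2 + x ^ 8 * R =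
          (3 * (E₀ * (x * √x)) + 3 * (x ^ 8 / R)) * (R ^ 2 / 3) := by
        field_simp
      rw [e3] at hf1
      exact le_of_mul_le_mul_right hf1 (by positivity)
    have e4 : x ^ 8 / R ≤ 1 / c₁ * (x * √x) := by
      have e5 : x ^ 8 / R ≤ x ^ 8 / (c₁ * x) :=
        div_le_div_of_nonneg_left (by positivity) (by positivity) hA1
      have e6 : x ^ 8 / (c₁ * x) = 1 / c₁ * x ^ 7 := by
        field_simp
      rw [e6] at e5
      exact e5.trans (mul_le_mul_of_nonneg_left (lawb_pow hx0 hx1 (by norm_num)) (by positivity))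
    have e7 : 3 * (E₀ * (x * √x)) + 3 * (1 / c₁ * (x * √x)) = (3 * E₀ + 3 / c₁) * (x * √x) := by
      ring
    have e8 : (3 * E₀ + 3 / c₁) * (x * √x) ≤ Cf * (x * √x) :=
      mul_le_mul_of_nonneg_right (by rw [hCf]; linarith) hxs
    linarith
  · -- the integral
    refine hf2.trans ?_
    have e1 : E₀ * (x * √x) * R ^ 3 ≤ E₀ * C₁ ^ 3 * (x ^ 4 * √x) := by
      have e2 : R ^ 3 ≤ (C₁ * x) ^ 3 := pow_le_pow_left₀ hR0.le hA2 3
      calc E₀ * (x * √x) * R ^ 3 ≤ E₀ * (x * √x) * (C₁ * x) ^ 3 :=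
            mul_le_mul_of_nonneg_left e2 (by positivity)
        _ = E₀ * C₁ ^ 3 * (x ^ 4 * √x) := by ring
    have e3 : x ^ 8 * R ^ 2 ≤ C₁ ^ 2 * (x ^ 4 * √x) := by
      have e4 : R ^ 2 ≤ (C₁ * x) ^ 2 := pow_le_pow_left₀ hR0.le hA2 2
      have e5 : x ^ 7 ≤ x * √x := lawb_pow hx0 hx1 (by norm_num)
      calc x ^ 8 * R ^ 2 ≤ x ^ 8 * (C₁ * x) ^ 2 :=
            mul_le_mul_of_nonneg_left e4 (by positivity)
        _ = C₁ ^ 2 * x ^ 3 * x ^ 7 := by ring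
        _ ≤ C₁ ^ 2 * x ^ 3 * (x * √x) := mul_le_mul_of_nonneg_left e5 (by positivity)
        _ = C₁ ^ 2 * (x ^ 4 * √x) := by ring
    have e6 : (E₀ * C₁ ^ 3 + C₁ ^ 2) * (x ^ 4 * √x) ≤ Cf * (x ^ 4 * √x) :=
      mul_le_mul_of_nonneg_right (by rw [hCf]; linarith) (by positivity)
    linarith

end Vale.Agent.P146.Sh
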