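import Vale.Agent.P146.Sh.ShLawC0
import Vale.Agent.P146.Sh.ShLawA
import Vale.Agent.P146.Sh.ShM1
import Vale.Agent.P146.Sh.ShLawB

/-!
# P146, Sh: the jump after the first block
-/

open MeasureTheory ProbabilityTheory Filter Topology Set

namespace Vale.Agent.P146.Sh

open Vale.Agent.P157.Par
open Vale.Agent.P146.Gap
open Vale.Agent.P146.Pw2
open Vale.Agent.P146.Lb
open Vale.Agent.P367.Cl

theorem lawC {b : ℝ} (hb : 1 < b) : ∃ c C : ℝ, 0 < c ∧ 1 ≤ C ∧ ∀ (n d : ℕ) (r : ℕ → ℝ),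
    1 ≤ d → d ≤ n → IsMinD b n d r → gm n d ≤ c → C ≤ gm n d ^ 40 * (n + 1) →
      ∃ L : ℕ, d < L ∧ L ≤ 2 * d ∧ L ≤ n ∧ r (L - 1) ≤ r d + gm n d ^ 4 ∧
        3 / 2 * gm n d - C * (gm n d * √(gm n d)) ≤ gm n L :=
  lawC_of (vk_bd b) (m1e b) (lawA hb) (lawB hb)

end Vale.Agent.P146.Sh
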