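import Mathlib

/-! # P146, Sh: the quartic -/

open MeasureTheory ProbabilityTheory Filter Topology Set

namespace Vale.Agent.P146.Sh

lemma quart_int (R a x : ℝ) : ∫ u in (0 : ℝ)..R, (x * (R - u) - a * (R ^ 2 - u ^ 2)) ^ 2 =
    (x - 2 * a * R) ^ 2 * R ^ 3 / 3 + (x - 2 * a * R) * a * R ^ 4 / 2 + a ^ 2 * R ^ 5 / 5 := by
  have h : ∀ u ∈ Set.uIcc 0 R, HasDerivAt (fun u : ℝ => -((x - 2 * a * R) ^ 2 * (R - u) ^ 3 / 3 +
      (x - 2 * a * R) * a * (R - u) ^ 4 / 2 + a ^ 2 * (R - u) ^ 5 / 5))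
      ((x * (R - u) - a * (R ^ 2 - u ^ 2)) ^ 2) u := by
    intro u _
    have h0 : HasDerivAt (fun u : ℝ => R - u) (-1) u := by
      simpa using (hasDerivAt_id u).const_sub R
    have h3 := (((h0.pow 3).const_mul ((x - 2 * a * R) ^ 2)).div_const 3)
    have h4 := (((h0.pow 4).const_mul ((x - 2 * a * R) * a)).div_const 2)
    have h5 := (((h0.pow 5).const_mul (a ^ 2)).div_const 5)
    refine ((h3.add h4).add h5).neg.congr_deriv ?_
    push_cast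
    ring
  rw [intervalIntegral.integral_eq_sub_of_hasDerivAt h]
  · simp
  · exact (by fun_prop : Continuous fun u : ℝ =>
      (x * (R - u) - a * (R ^ 2 - u ^ 2)) ^ 2).intervalIntegrable _ _

theorem quart {R a x : ℝ} (hx : 0 < x) (ha : 0 < a) (h : x / 2 ≤ a * R) :
    9 / 2560 * x ^ 5 / a ^ 3 ≤
      ∫ u in (0 : ℝ)..R, (x * (R - u) - a * (R ^ 2 - u ^ 2)) ^ 2 := by
  rw [quart_int]
  obtain ⟨y, hy⟩ : ∃ y, y = a * R / x := ⟨_, rfl⟩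
  have hR : R = x * y / a := by rw [hy]; field_simp
  have hy2 : 1 / 2 ≤ y := by
    rw [hy, le_div_iff₀ hx]
    linarith
  have e : (x - 2 * a * R) ^ 2 * R ^ 3 / 3 + (x - 2 * a * R) * a * R ^ 4 / 2 + a ^ 2 * R ^ 5 / 5 =
      x ^ 5 / a ^ 3 * (9 / 2560 + (y - 3 / 4) ^ 2 *
        (8 / 15 * y ^ 3 - y ^ 2 / 30 - y / 60 - 1 / 160)) := by
    rw [hR]
    field_simp
    ring
  have hq : 0 ≤ 8 / 15 * y ^ 3 - y ^ 2 / 30 - y / 60 - 1 / 160 := by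
    have h1 : 0 ≤ (y - 1 / 2) := by linarith
    have h2 : 8 / 15 * y ^ 3 - y ^ 2 / 30 - y / 60 - 1 / 160 = 8 / 15 * (y - 1 / 2) ^ 3 +
        (23 / 30) * (y - 1 / 2) ^ 2 + (7 / 20) * (y - 1 / 2) + 7 / 160 := by ring
    rw [h2]
    positivity
  rw [e]
  have h3 : 9 / 2560 * x ^ 5 / a ^ 3 = x ^ 5 / a ^ 3 * (9 / 2560) := by ring
  rw [h3]
  refine mul_le_mul_of_nonneg_left ?_ (by positivity)
  have : 0 ≤ (y - 3 / 4) ^ 2 * (8 / 15 * y ^ 3 - y ^ 2 / 30 - y / 60 - 1 / 160) := by positivity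
  linarith

end Vale.Agent.P146.Sh
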