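import Vale.Agent.P146.Sh.ShSeg
import Vale.Agent.P146.Sh.ShLawC
import Vale.Agent.P146.Sh.ShComp
import Vale.Agent.P146.Sh.ShQuart

/-!
# P146, Sh: the value decreases by at least `B x⁵` when the constraint is removed
-/

open MeasureTheory ProbabilityTheory Filter Topology Set

namespace Vale.Agent.P146.Sh

open Vale.Agent.P157.Par
open Vale.Agent.P146.Gap
open Vale.Agent.P146.Pw2
open Vale.Agent.P146.Lb
open Vale.Agent.P367.Cl

/-- The path made constant on the levels `[d, L)`. -/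
noncomputable def dnR (d L : ℕ) (R : ℝ) (r : ℕ → ℝ) (l : ℕ) : ℝ :=
  if l < d then 0 else if l < L then R else r l

/-- The competitor. -/
noncomputable def dnC (L : ℕ) (ρ r : ℕ → ℝ) (l : ℕ) : ℝ := if l < L then ρ l else r l

theorem dn_path {b R : ℝ} {n d L : ℕ} {r : ℕ → ℝ} (hr : BPath b n r) (hd : 1 ≤ d)
    (hLn : L ≤ n) (hR : 0 ≤ R) (hRL : R ≤ r L) : BPath b n (dnR d L R r) := by
  have h0 : dnR d L R r 0 = 0 := by simp [dnR, show 0 < d by omega]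
  refine ⟨h0, ⟨h0.ge, fun l hl => ?_⟩, ?_⟩
  · unfold dnR
    have h1 : 0 ≤ r (l + 1) := len_nonneg hr (by omega)
    split_ifs with h2 h3 h4 h5 h6 h7 <;> first | omega | exact le_rfl | exact hR | exact h1 | skip
    · have : l + 1 = L := by omega
      rw [this]; exact hRL
    · exact hr.2.1.2 l hl
  · unfold dnR
    have h1 : r n ≤ b ^ 2 := hr.2.2
    split_ifs with h2 h3
    · positivity
    · omega
    · exact h1

theorem dn_fam {b R : ℝ} {n d L : ℕ} {r : ℕ → ℝ} (hr : BPath b n r) (hd : 1 ≤ d) (hL : d < L)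
    (hLn : L ≤ n) (hR : 0 ≤ R) (hRL : R ≤ r L) :
    Fam b n L R (dnR d L R r) (dnR d L R r) := by
  refine ⟨dn_path hr hd hLn hR hRL, fun l hl => ?_, ?_, fun _ _ => rfl⟩
  · unfold dnR
    split_ifs
    · exact hR
    · exact le_rfl
  · unfold dnR
    rw [if_neg (by omega), if_neg (by omega)]
    exact hRL

theorem dn_famC {b R : ℝ} {n d L : ℕ} {r ρ : ℕ → ℝ} (hr : BPath b n r) (hL : d < L)
    (hLn : L ≤ n) (hRL : R ≤ r L) (h0 : ρ 0 = 0) (h1 : ∀ l, l + 1 < L → ρ l ≤ ρ (l + 1))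
    (h2 : ∀ l < L, 0 ≤ ρ l ∧ ρ l ≤ R) : Fam b n L R (dnR d L R r) (dnC L ρ r) := by
  refine ⟨⟨?_, ⟨?_, fun l hl => ?_⟩, ?_⟩, fun l hl => ?_, ?_, fun l hl => ?_⟩
  · unfold dnC
    rw [if_pos (by omega)]
    exact h0
  · unfold dnC
    rw [if_pos (by omega)]
    exact h0.ge
  · unfold dnC
    split_ifs with h3 h4 h5
    · exact h1 l h4
    · have : l + 1 = L := by omega
      rw [this]
      exact (h2 l h3).2.trans hRL
    · omega
    · exact hr.2.1.2 l hl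
  · unfold dnC
    rw [if_neg (by omega)]
    exact hr.2.2
  · unfold dnC
    rw [if_pos hl]
    exact (h2 l hl).2
  · unfold dnC
    rw [if_neg (lt_irrefl L)]
    exact hRL
  · unfold dnC dnR
    rw [if_neg (by omega), if_neg (by omega), if_neg (by omega)]

/-- The sum of the squares. -/
theorem dn_sq {d L : ℕ} (hL : d ≤ L) (R : ℝ) (r : ℕ → ℝ) :
    ∑ l ∈ Finset.range L, dnR d L R r l ^ 2 = ((L : ℝ) - d) * R ^ 2 := by
  obtain ⟨k, rfl⟩ := Nat.exists_eq_add_of_le hL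
  rw [Finset.sum_range_add (fun l => dnR d (d + k) R r l ^ 2) d k]
  have h1 : ∑ l ∈ Finset.range d, dnR d (d + k) R r l ^ 2 = 0 := by
    refine Finset.sum_eq_zero fun l hl => ?_
    unfold dnR
    rw [if_pos (Finset.mem_range.1 hl)]
    ring
  have h2 : ∑ l ∈ Finset.range k, dnR d (d + k) R r (d + l) ^ 2 = k * R ^ 2 := by
    rw [Finset.sum_congr rfl (g := fun _ => R ^ 2)]
    · simp
    · intro l hl
      have := Finset.mem_range.1 hl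
      unfold dnR
      rw [if_neg (by omega), if_pos (by omega)]
  rw [h1, h2]
  push_cast
  ring

/-- The integrated exponents of the path with one block. -/
theorem dn_Aw {n d L : ℕ} (hL : d ≤ L) {R u : ℝ} (r : ℕ → ℝ) (hu : 0 ≤ u) (huR : u ≤ R) :
    Aw n L R (dnR d L R r) u = gm n d * (R - u) := by
  unfold Aw
  obtain ⟨k, rfl⟩ := Nat.exists_eq_add_of_le hL
  rw [Finset.sum_range_add (fun l => 1 / ((n : ℝ) + 1) * (R - max u (dnR d (d + k) R r l))) d k]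
  have h1 : ∑ l ∈ Finset.range d, 1 / ((n : ℝ) + 1) * (R - max u (dnR d (d + k) R r l)) =
      gm n d * (R - u) := by
    rw [Finset.sum_congr rfl (g := fun _ => 1 / ((n : ℝ) + 1) * (R - u))]
    · simp only [Finset.sum_const, Finset.card_range, nsmul_eq_mul]
      unfold gm
      ring
    · intro l hl
      unfold dnR
      rw [if_pos (Finset.mem_range.1 hl), max_eq_left hu]
  have h2 : ∑ l ∈ Finset.range k, 1 / ((n : ℝ) + 1) *
      (R - max u (dnR d (d + k) R r (d + l))) = 0 := by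
    refine Finset.sum_eq_zero fun l hl => ?_
    have := Finset.mem_range.1 hl
    unfold dnR
    rw [if_neg (by omega), if_pos (by omega), max_eq_right huR]
    ring
  rw [h1, h2, add_zero]

/-- The value of a path near a stationary path. -/
theorem dn_near {b : ℝ} (hb : 0 < b) {n : ℕ} {r ρ : ℕ → ℝ} (hr : BPath b n r)
    (hρ : BPath b n ρ) (hst : ∀ l ≤ n, r l = b ^ 2 * spR n (gm n) r l) :
    SKr b n (gm n) ρ ≤ SKr b n (gm n) r +
      (∑ l ∈ Finset.range (n + 1), 1 / ((n : ℝ) + 1) * (ρ l - r l) ^ 2) / (4 * b ^ 2) := by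
  have h1 := tangent_path (gm_exponents n) hr.2.1 hρ.2.1
  have hstep : ∀ l : ℕ, gm n (l + 1) - gm n l = 1 / (n + 1) := fun l => by
    unfold gm
    push_cast
    ring
  have hb2 : (0 : ℝ) < b ^ 2 := by positivity
  have e : ∑ l ∈ Finset.range (n + 1), (gm n (l + 1) - gm n l) * spR n (gm n) r l * (ρ l - r l) =
      (∑ l ∈ Finset.range (n + 1), 1 / ((n : ℝ) + 1) * (r l * (ρ l - r l))) / b ^ 2 := by
    rw [Finset.sum_div]
    refine Finset.sum_congr rfl fun l hl => ?_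
    have h2 := hst l (by have := Finset.mem_range.1 hl; omega)
    have h3 : spR n (gm n) r l = r l / b ^ 2 := by
      rw [eq_div_iff hb2.ne']
      linarith
    rw [hstep, h3]
    ring
  rw [e] at h1
  unfold SKr
  have e2 : (∑ l ∈ Finset.range (n + 1), (gm n (l + 1) - gm n l) * ρ l ^ 2) =
      (∑ l ∈ Finset.range (n + 1), (gm n (l + 1) - gm n l) * r l ^ 2) +
      (∑ l ∈ Finset.range (n + 1), 1 / ((n : ℝ) + 1) * (ρ l - r l) ^ 2) +
      2 * (∑ l ∈ Finset.range (n + 1), 1 / ((n : ℝ) + 1) * (r l * (ρ l - r l))) := by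
    rw [Finset.mul_sum, ← Finset.sum_add_distrib, ← Finset.sum_add_distrib]
    refine Finset.sum_congr rfl fun l _ => ?_
    rw [hstep]
    ring
  rw [e2]
  set S1 := ∑ l ∈ Finset.range (n + 1), (gm n (l + 1) - gm n l) * r l ^ 2
  set S2 := ∑ l ∈ Finset.range (n + 1), 1 / ((n : ℝ) + 1) * (ρ l - r l) ^ 2
  set S3 := ∑ l ∈ Finset.range (n + 1), 1 / ((n : ℝ) + 1) * (r l * (ρ l - r l))
  have e3 : (S1 + S2 + 2 * S3) / (4 * b ^ 2) = S1 / (4 * b ^ 2) + S2 / (4 * b ^ 2) +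
      1 / 2 * (S3 / b ^ 2) := by
    field_simp
    ring
  rw [e3]
  linarith

/-- The path with one block is close to the minimiser. -/
theorem dn_first {b : ℝ} (hb : 1 < b) {n d L : ℕ} {r : ℕ → ℝ} (hr : BPath b n r)
    (hd : 1 ≤ d) (hL : d < L) (hLn : L ≤ n) (h0 : ∀ l < d, r l = 0)
    (hst : ∀ l ≤ n, r l = b ^ 2 * spR n (gm n) r l) {w : ℝ} (hw : r (L - 1) ≤ r d + w) :
    SKr b n (gm n) (dnR d L (r d) r) ≤ SKr b n (gm n) r + w ^ 2 := by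
  have hRL : r d ≤ r L := len_mono hr hL.le hLn
  have hR : 0 ≤ r d := len_nonneg hr (by omega)
  have h1 := dn_near (by linarith) hr (dn_path hr hd hLn hR hRL) hst
  have hw0 : 0 ≤ w := by
    have := len_mono hr (show d ≤ L - 1 by omega) (by omega)
    linarith
  have h2 : ∑ l ∈ Finset.range (n + 1), 1 / ((n : ℝ) + 1) * (dnR d L (r d) r l - r l) ^ 2 ≤
      ∑ l ∈ Finset.range (n + 1), 1 / ((n : ℝ) + 1) * w ^ 2 := by
    refine Finset.sum_le_sum fun l hl => ?_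
    refine mul_le_mul_of_nonneg_left ?_ (by positivity)
    have hl' := Finset.mem_range.1 hl
    unfold dnR
    split_ifs with h3 h4
    · rw [h0 l h3]
      simpa using sq_nonneg w
    · have a1 := len_mono hr (show d ≤ l by omega) (by omega)
      have a2 := len_mono hr (show l ≤ L - 1 by omega) (by omega)
      have a3 : r l - r d ≤ w := by linarith
      have a4 : 0 ≤ r l - r d := by linarith
      calc (r d - r l) ^ 2 = (r l - r d) ^ 2 := by ring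
        _ ≤ w ^ 2 := pow_le_pow_left₀ a4 a3 2
    · simpa using sq_nonneg w
  have h3 : ∑ l ∈ Finset.range (n + 1), 1 / ((n : ℝ) + 1) * w ^ 2 = w ^ 2 := by
    rw [Finset.sum_const, Finset.card_range, nsmul_eq_mul]
    push_cast
    field_simp
  rw [h3] at h2
  have h4 : (∑ l ∈ Finset.range (n + 1), 1 / ((n : ℝ) + 1) * (dnR d L (r d) r l - r l) ^ 2) /
      (4 * b ^ 2) ≤ w ^ 2 := by
    rw [div_le_iff₀ (by positivity)]
    have h5 : (1 : ℝ) ≤ 4 * b ^ 2 := by nlinarith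
    nlinarith [sq_nonneg w]
  linarith

/-- The model at the competitor. -/
theorem dn_model {n L : ℕ} {R v a e : ℝ} {ρ : ℕ → ℝ} (hR : 0 ≤ R) (hv : 0 ≤ v) (hv1 : v ≤ 1)
    (h : ∀ u ∈ Icc 0 R, |Aw n L R ρ u - a * (R ^ 2 - u ^ 2)| ≤ e) :
    Nw n L R v a ρ ≤ R * e ^ 2 := by
  unfold Nw
  have hc : Continuous (fun u => (Aw n L R ρ u - a * (R ^ 2 - u ^ 2)) ^ 2) := by
    unfold Aw
    fun_prop
  have h1 : ∫ u in (0 : ℝ)..R, (Aw n L R ρ u - a * (R ^ 2 - u ^ 2)) ^ 2 ≤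
      ∫ u in (0 : ℝ)..R, e ^ 2 := by
    refine intervalIntegral.integral_mono_on hR (hc.intervalIntegrable _ _)
      (continuous_const.intervalIntegrable _ _) fun u hu => ?_
    rw [← sq_abs]
    exact pow_le_pow_left₀ (abs_nonneg _) (h u hu) 2
  rw [intervalIntegral.integral_const, sub_zero, smul_eq_mul] at h1
  have h2 : v ^ 3 / 2 ≤ 1 := by
    have : v ^ 3 ≤ 1 := pow_le_one₀ hv hv1
    linarith
  have h3 : 0 ≤ ∫ u in (0 : ℝ)..R, (Aw n L R ρ u - a * (R ^ 2 - u ^ 2)) ^ 2 :=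
    intervalIntegral.integral_nonneg hR fun u _ => sq_nonneg _
  calc v ^ 3 / 2 * ∫ u in (0 : ℝ)..R, (Aw n L R ρ u - a * (R ^ 2 - u ^ 2)) ^ 2 ≤
      1 * ∫ u in (0 : ℝ)..R, (Aw n L R ρ u - a * (R ^ 2 - u ^ 2)) ^ 2 :=
        mul_le_mul_of_nonneg_right h2 h3
    _ ≤ R * e ^ 2 := by rw [one_mul]; exact h1

/-- The model at the path with one block. -/
theorem dn_block {n d L : ℕ} (hL : d ≤ L) {R v a : ℝ} (r : ℕ → ℝ) (hR : 0 ≤ R) (hv : 0 < v)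
    (ha : 0 < a) (hx : 0 < gm n d) (h : gm n d / 2 ≤ a * R) :
    9 / 5120 * v ^ 3 * gm n d ^ 5 / a ^ 3 ≤ Nw n L R v a (dnR d L R r) := by
  have h1 := quart hx ha h
  have h2 : ∫ u in (0 : ℝ)..R, (Aw n L R (dnR d L R r) u - a * (R ^ 2 - u ^ 2)) ^ 2 =
      ∫ u in (0 : ℝ)..R, (gm n d * (R - u) - a * (R ^ 2 - u ^ 2)) ^ 2 := by
    refine intervalIntegral.integral_congr fun u hu => ?_
    rw [uIcc_of_le hR] at hu
    show (Aw n L R (dnR d L R r) u - a * (R ^ 2 - u ^ 2)) ^ 2 = _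
    rw [dn_Aw hL r hu.1 hu.2]
  unfold Nw
  rw [h2]
  have h3 := mul_le_mul_of_nonneg_left h1 (by positivity : 0 ≤ v ^ 3 / 2)
  refine le_trans (le_of_eq ?_) h3
  ring

theorem dn_coef {v k x : ℝ} (hv : 0 < v) (hk : 0 < k) :
    9 / 5120 * v ^ 3 * x ^ 5 / (k ^ 2 / (4 * v ^ 3)) ^ 3 = 9 / 80 * v ^ 12 / k ^ 6 * x ^ 5 := by
  field_simp
  ring

theorem dn_gm {n d L : ℕ} (hL : L ≤ 2 * d) : gm n L ≤ 2 * gm n d := by
  unfold gm
  have h1 : (L : ℝ) ≤ 2 * d := by exact_mod_cast hL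
  calc (L : ℝ) / ((n : ℝ) + 1) ≤ 2 * d / (n + 1) := div_le_div_of_nonneg_right h1 (by positivity)
    _ = 2 * (d / (n + 1)) := by ring

theorem dn_dist {b R : ℝ} {n L : ℕ} {ρ ρ' q : ℕ → ℝ} (h1 : Fam b n L R q ρ)
    (h2 : Fam b n L R q ρ') (hLn : L ≤ n) :
    1 / ((n : ℝ) + 1) * ∑ l ∈ Finset.range L, |ρ' l - ρ l| ≤ gm n L * R := by
  have h3 : ∑ l ∈ Finset.range L, |ρ' l - ρ l| ≤ ∑ l ∈ Finset.range L, R := by
    refine Finset.sum_le_sum fun l hl => ?_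
    have hl' := Finset.mem_range.1 hl
    have a1 := h1.le l hl'
    have a2 := h2.le l hl'
    have a3 := len_nonneg h1.path (show l ≤ n by omega)
    have a4 := len_nonneg h2.path (show l ≤ n by omega)
    rw [abs_le]
    constructor <;> linarith
  rw [Finset.sum_const, Finset.card_range, nsmul_eq_mul] at h3
  have h4 := mul_le_mul_of_nonneg_left h3 (show 0 ≤ 1 / ((n : ℝ) + 1) by positivity)
  refine h4.trans (le_of_eq ?_)
  unfold gm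
  ring

/-- The parameters. -/
theorem dn_par {c0 K CB D x v k R : ℝ} (hc0 : 0 < c0) (hCB : 1 ≤ CB)
    (hD1 : 4 / c0 ^ 2 ≤ D) (hD2 : K ^ 2 / c0 ^ 3 ≤ D) (hD3 : CB / c0 ^ 3 ≤ D) (hx0 : 0 < x)
    (xK : x ≤ (c0 ^ 3 / CB) ^ 2) (hv0 : c0 ≤ v) (hv1 : v ≤ 1) (hk0 : c0 ≤ k) (hk1 : k ≤ K)
    (hlaw : |k ^ 2 * R - 3 * x * v ^ 3| ≤ CB * (x * √x)) {a : ℝ} (ha : a = k ^ 2 / (4 * v ^ 3)) :
    1 / D ≤ a ∧ a ≤ D ∧ |a * R - 3 / 4 * x| ≤ D * (x * √x) ∧ x / 2 ≤ a * R := by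
  have hvp : 0 < v := by linarith
  have hkp : 0 < k := by linarith
  have hv3 : c0 ^ 3 ≤ v ^ 3 := pow_le_pow_left₀ hc0.le hv0 3
  have hv31 : v ^ 3 ≤ 1 := pow_le_one₀ hvp.le hv1
  have hv3p : 0 < v ^ 3 := by positivity
  have hap : 0 < a := by rw [ha]; positivity
  have hk2 : c0 ^ 2 ≤ k ^ 2 := pow_le_pow_left₀ hc0.le hk0 2
  have hk2' : k ^ 2 ≤ K ^ 2 := pow_le_pow_left₀ hkp.le hk1 2
  have hDp : 0 < D := lt_of_lt_of_le (by positivity) hD1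
  have hsx0 : 0 < √x := Real.sqrt_pos.2 hx0
  have hlaw' : |a * R - 3 / 4 * x| ≤ CB / c0 ^ 3 / 4 * (x * √x) := by
    have h1 : a * R - 3 / 4 * x = (k ^ 2 * R - 3 * x * v ^ 3) / (4 * v ^ 3) := by
      rw [ha]
      field_simp
    rw [h1, abs_div, abs_of_pos (show 0 < 4 * v ^ 3 by positivity),
      div_le_iff₀ (by positivity)]
    refine hlaw.trans ?_
    have h2 : CB / c0 ^ 3 / 4 * (x * √x) * (4 * v ^ 3) = CB * (x * √x) * (v ^ 3 / c0 ^ 3) := by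
      ring
    rw [h2]
    refine le_mul_of_one_le_right (by positivity) ?_
    rw [one_le_div (by positivity)]
    exact hv3
  refine ⟨?_, ?_, ?_, ?_⟩
  · rw [div_le_iff₀ hDp]
    have h2 : c0 ^ 2 / 4 ≤ a := by
      rw [ha, div_le_div_iff₀ (by norm_num) (by positivity)]
      have h3 : c0 ^ 2 * v ^ 3 ≤ k ^ 2 * 1 := mul_le_mul hk2 hv31 hv3p.le (sq_nonneg k)
      linarith
    calc (1 : ℝ) = c0 ^ 2 / 4 * (4 / c0 ^ 2) := by field_simp
      _ ≤ a * D := mul_le_mul h2 hD1 (by positivity) hap.le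
  · refine le_trans ?_ hD2
    rw [ha, div_le_div_iff₀ (by positivity) (by positivity)]
    have h2 : k ^ 2 * c0 ^ 3 ≤ K ^ 2 * v ^ 3 := mul_le_mul hk2' hv3 (by positivity) (by positivity)
    have h3 : 0 ≤ K ^ 2 * v ^ 3 := by positivity
    linarith
  · refine hlaw'.trans (mul_le_mul_of_nonneg_right ?_ (by positivity))
    have : 0 < CB / c0 ^ 3 := by positivity
    linarith
  · have h1 := (abs_le.1 hlaw').1
    have h2 : √x ≤ c0 ^ 3 / CB := Real.sqrt_le_left (by positivity) |>.2 xK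
    have h3 : CB / c0 ^ 3 / 4 * (x * √x) ≤ x / 4 := by
      calc CB / c0 ^ 3 / 4 * (x * √x) = x / 4 * (CB / c0 ^ 3) * √x := by ring
        _ ≤ x / 4 * (CB / c0 ^ 3) * (c0 ^ 3 / CB) := mul_le_mul_of_nonneg_left h2 (by positivity)
        _ = x / 4 := by field_simp
    linarith

/-- The sum of the errors. -/
theorem dn_sum {S0 S1 S2 N1 N2 x R CA CE CS Cx X T P : ℝ} (hx0 : 0 < x) (hx1 : x ≤ 1)
    (hCA : 0 ≤ CA) (hCS : 0 ≤ CS) (hCx : 0 ≤ Cx) (h1 : S1 ≤ S0 + (x ^ 4) ^ 2)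
    (h2 : S2 ≤ S1 + (N2 - N1) + CS * (X ^ 3 * √X) * T) (h3 : N2 ≤ R * (CE * (x ^ 2 * √x)) ^ 2)
    (h4 : P ≤ N1) (h5 : T ≤ X * X) (h6 : R ≤ CA * x) (hX : X = Cx * x) :
    S2 + P ≤ S0 + (1 + CS * Cx ^ 5 * √Cx + CA * CE ^ 2) * (x ^ 5 * √x) := by
  have hX0 : 0 ≤ X := by rw [hX]; positivity
  have t5 : CS * (X ^ 3 * √X) * T ≤ CS * Cx ^ 5 * √Cx * (x ^ 5 * √x) := by
    refine (mul_le_mul_of_nonneg_left h5 (by positivity)).trans (le_of_eq ?_)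
    rw [hX, Real.sqrt_mul hCx]
    ring
  have hxs : x ≤ √x := by
    rw [Real.le_sqrt hx0.le hx0.le]
    nlinarith
  have t6 : (x ^ 4) ^ 2 ≤ x ^ 5 * √x := by
    have h1 : x ^ 3 ≤ √x := by
      refine le_trans ?_ hxs
      calc x ^ 3 ≤ x ^ 1 := pow_le_pow_of_le_one hx0.le hx1 (by norm_num)
        _ = x := pow_one x
    calc (x ^ 4) ^ 2 = x ^ 5 * x ^ 3 := by ring
      _ ≤ x ^ 5 * √x := mul_le_mul_of_nonneg_left h1 (by positivity)
  have t7 : R * (CE * (x ^ 2 * √x)) ^ 2 ≤ CA * CE ^ 2 * (x ^ 5 * √x) := by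
    have h1 : (CE * (x ^ 2 * √x)) ^ 2 = CE ^ 2 * x ^ 4 * x := by
      rw [mul_pow, mul_pow, Real.sq_sqrt hx0.le]
      ring
    rw [h1]
    calc R * (CE ^ 2 * x ^ 4 * x) ≤ CA * x * (CE ^ 2 * x ^ 4 * √x) :=
          mul_le_mul h6 (mul_le_mul_of_nonneg_left hxs (by positivity)) (by positivity)
            (by positivity)
      _ = CA * CE ^ 2 * (x ^ 5 * √x) := by ring
  linarith

/-- The constants of the path with one block. -/
theorem dn_const {Ck K X s v k v' k' a D : ℝ} (hCk : 1 ≤ Ck) (hK : 1 ≤ K) (hX0 : 0 < X)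
    (hX1 : X ≤ 1) (hsX : s ≤ X) (hD : Ck + 2 * K * Ck ≤ D) (h1 : |v' - v| ≤ Ck * s)
    (h2 : |k' - k| ≤ Ck * √s) (hk0 : 0 < k) (hk1 : k ≤ K) (hk0' : 0 < k') (hk1' : k' ≤ K)
    (ha : 4 * v ^ 3 * a = k ^ 2) :
    |v - v'| ≤ D * √X ∧ |4 * v ^ 3 * a - k' ^ 2| ≤ D * √X := by
  have hsqX : X ≤ √X := by
    rw [Real.le_sqrt hX0.le hX0.le]
    nlinarith
  have hKC : 0 < K * Ck := by positivity
  constructor
  · rw [abs_sub_comm]
    refine h1.trans ?_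
    have h3 : Ck * s ≤ Ck * √X := mul_le_mul_of_nonneg_left (hsX.trans hsqX) (by linarith)
    have h4 : Ck * √X ≤ D * √X :=
      mul_le_mul_of_nonneg_right (by linarith) (Real.sqrt_nonneg _)
    exact h3.trans h4
  · rw [ha, show k ^ 2 - k' ^ 2 = (k' - k) * (-(k' + k)) by ring, abs_mul, abs_neg,
      abs_of_pos (show 0 < k' + k by linarith)]
    have h3 : |k' - k| ≤ Ck * √X := h2.trans
      (mul_le_mul_of_nonneg_left (Real.sqrt_le_sqrt hsX) (by linarith))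
    have h4 : |k' - k| * (k' + k) ≤ Ck * √X * (2 * K) :=
      mul_le_mul h3 (by linarith) (by linarith) (by positivity)
    have h5 : Ck * √X * (2 * K) ≤ D * √X := by
      calc Ck * √X * (2 * K) = 2 * K * Ck * √X := by ring
        _ ≤ D * √X := mul_le_mul_of_nonneg_right (by linarith) (Real.sqrt_nonneg _)
    exact h4.trans h5

theorem dn_AwC {n L : ℕ} {R u : ℝ} (ρ r : ℕ → ℝ) :
    Aw n L R (dnC L ρ r) u = Aw n L R ρ u := by
  unfold Aw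
  refine Finset.sum_congr rfl fun l hl => ?_
  unfold dnC
  rw [if_pos (Finset.mem_range.1 hl)]

theorem dn_sqC {L : ℕ} (ρ r : ℕ → ℝ) :
    ∑ l ∈ Finset.range L, dnC L ρ r l ^ 2 = ∑ l ∈ Finset.range L, ρ l ^ 2 := by
  refine Finset.sum_congr rfl fun l hl => ?_
  unfold dnC
  rw [if_pos (Finset.mem_range.1 hl)]

/-- The comparison, for given data. -/
theorem dn_main {b : ℝ} (hb : 1 < b) {CA CE CS Cx Ck K D x R v k a : ℝ} {n d L : ℕ}
    {r ρ : ℕ → ℝ} (hd1 : 1 ≤ d) (hdn : d ≤ n) (hmin : IsMinD b n d r) (hdL : d < L)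
    (hL2 : L ≤ 2 * d) (hLn : L ≤ n) (hCA : 1 ≤ CA) (hCS : 1 ≤ CS) (hCx : Cx = CA + 2)
    (hxe : x = gm n d) (hRe : R = r d) (hx0 : 0 < x) (hXx : Cx * x ≤ 1)
    (hRC : R ≤ CA * x) (hrL : r (L - 1) ≤ R + x ^ 4) (hv0 : 0 < v) (hv1 : v ≤ 1) (hk : 0 < k)
    (ha : 4 * v ^ 3 * a = k ^ 2) (hap : 0 < a) (haD : a ≤ D)
    (hRx : x / 2 ≤ a * R) (hCk : 1 ≤ Ck) (hK : 1 ≤ K) (hkK : k ≤ K)
    (hD : Ck + 2 * K * Ck ≤ D)
    (hkv1 : |vv n (dnR d L R r) - v| ≤ Ck * r (L - 1))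
    (hkv2 : |kk n (dnR d L R r) - k| ≤ Ck * √(r (L - 1)))
    (hk' : 0 < kk n (dnR d L R r)) (hk1' : kk n (dnR d L R r) ≤ K)
    (hS : ∀ (n L : ℕ) (R X v a : ℝ)
    (ρ ρ' : ℕ → ℝ), Fam b n L R ρ ρ → Fam b n L R ρ ρ' → 1 ≤ L → L ≤ n → 0 < X → X ≤ 1 → R ≤ X →
    gm n L ≤ X → 0 ≤ v → v ≤ 1 → 0 ≤ a → a ≤ D → |v - vv n ρ| ≤ D * √X →
    |4 * v ^ 3 * a - kk n ρ ^ 2| ≤ D * √X →
    ∑ l ∈ Finset.range L, ρ' l ^ 2 = ∑ l ∈ Finset.range L, ρ l ^ 2 →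
    SKr b n (gm n) ρ' ≤ SKr b n (gm n) ρ + (Nw n L R v a ρ' - Nw n L R v a ρ) +
      CS * (X ^ 3 * √X) * (1 / ((n : ℝ) + 1) * ∑ l ∈ Finset.range L, |ρ' l - ρ l|))
    (hρ0 : ρ 0 = 0) (hρ1 : ∀ l, l + 1 < L → ρ l ≤ ρ (l + 1))
    (hρ2 : ∀ l < L, 0 ≤ ρ l ∧ ρ l ≤ R)
    (hρ3 : ∑ l ∈ Finset.range L, ρ l ^ 2 = ((L : ℝ) - d) * R ^ 2)
    (hρ4 : ∀ u ∈ Icc 0 R, |Aw n L R ρ u - a * (R ^ 2 - u ^ 2)| ≤ CE * (x ^ 2 * √x)) :
    ∃ r', BPath b n r' ∧ SKr b n (gm n) r' + 9 / 80 * v ^ 12 / k ^ 6 * x ^ 5 ≤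
        SKr b n (gm n) r + (1 + CS * Cx ^ 5 * √Cx + CA * CE ^ 2) * (x ^ 5 * √x) := by
  have hr := hmin.1
  have hCx1 : 1 ≤ Cx := by rw [hCx]; linarith
  have hCx0 : 0 < Cx := by linarith
  have hx1 : x ≤ 1 := by
    have := mul_le_mul_of_nonneg_right hCx1 hx0.le
    linarith
  have hR0 : 0 ≤ R := hRe ▸ len_nonneg hr hdn
  have hRL : R ≤ r L := hRe ▸ len_mono hr hdL.le hLn
  have f1 : Fam b n L R (dnR d L R r) (dnR d L R r) := dn_fam hr hd1 hdL hLn hR0 hRL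
  have f2 : Fam b n L R (dnR d L R r) (dnC L ρ r) := dn_famC hr hdL hLn hRL hρ0 hρ1 hρ2
  obtain ⟨X, hX⟩ : ∃ X, X = Cx * x := ⟨_, rfl⟩
  have hX0 : 0 < X := by rw [hX]; positivity
  have hX1 : X ≤ 1 := by rw [hX]; exact hXx
  have hx4 : x ^ 4 ≤ x := by
    calc x ^ 4 ≤ x ^ 1 := pow_le_pow_of_le_one hx0.le hx1 (by norm_num)
      _ = x := pow_one x
  have hRX : R ≤ X := by
    rw [hX, hCx]
    linarith
  have hsX : r (L - 1) ≤ X := by
    rw [hX, hCx]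
    linarith
  have hLX : gm n L ≤ X := by
    have h1 := dn_gm (n := n) hL2
    rw [← hxe] at h1
    rw [hX, hCx]
    have : 0 ≤ CA * x := by positivity
    linarith
  obtain ⟨g1, g2⟩ := dn_const hCk hK hX0 hX1 hsX hD hkv1 hkv2 hk hkK hk' hk1' ha
  have hseg := hS n L R X v a (dnR d L R r) (dnC L ρ r) f1 f2 (by omega) hLn hX0 hX1 hRX hLX hv0.le
    hv1 hap.le haD g1 g2 (by rw [dn_sq hdL.le, dn_sqC, hρ3])
  have t1 := dn_first hb hr hd1 hdL hLn hmin.2.1 (statD (by linarith) hmin) (w := x ^ 4) (by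
    rw [← hRe]; exact hrL)
  rw [← hRe] at t1
  have t2 : Nw n L R v a (dnC L ρ r) ≤ R * (CE * (x ^ 2 * √x)) ^ 2 := by
    refine dn_model hR0 hv0.le hv1 fun u hu => ?_
    rw [dn_AwC]
    exact hρ4 u hu
  have t3 := dn_block hdL.le (n := n) (v := v) (a := a) r hR0 hv0 hap (hxe ▸ hx0) (by
    rw [← hxe]; exact hRx)
  have ha' : a = k ^ 2 / (4 * v ^ 3) := by
    rw [← ha]
    field_simp
  rw [← hxe] at t3
  have t3' : 9 / 80 * v ^ 12 / k ^ 6 * x ^ 5 ≤ Nw n L R v a (dnR d L R r) := by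
    rw [← dn_coef hv0 hk, ← ha']
    exact t3
  have t4 := dn_dist f1 f2 hLn
  refine ⟨dnC L ρ r, f2.path, ?_⟩
  exact dn_sum hx0 hx1 (by linarith) (by linarith) hCx0.le t1 hseg t2 t3'
    (t4.trans (mul_le_mul hLX hRX hR0 hX0.le)) hRC hX

/-- **Removing the constraint.** -/
theorem down {b : ℝ} (hb : 1 < b) : ∃ c C : ℝ, 0 < c ∧ 1 ≤ C ∧ ∀ (n d : ℕ) (r : ℕ → ℝ),
    1 ≤ d → d ≤ n → IsMinD b n d r → gm n d ≤ c → C ≤ gm n d ^ 40 * (n + 1) →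
      ∃ r', BPath b n r' ∧ SKr b n (gm n) r' + 9 / 80 * vv n r ^ 12 / kk n r ^ 6 * gm n d ^ 5 ≤
        SKr b n (gm n) r + C * (gm n d ^ 5 * √(gm n d)) := by
  have hb0 : 0 < b := by linarith
  obtain ⟨c0, K, hc0, hK, hbd⟩ := vk_bd b
  obtain ⟨cA, CA, hcA, hCA, hA⟩ := lawA hb
  obtain ⟨cB, CB, hcB, hCB, hB⟩ := lawB hb
  obtain ⟨cC, CC, hcC, hCC, hC⟩ := lawC hb
  obtain ⟨Ck, hCk, hkvc⟩ := kvc b
  -- the constants
  obtain ⟨D, hD⟩ : ∃ D : ℝ, D = 4 / c0 ^ 2 + K ^ 2 / c0 ^ 3 + CB / c0 ^ 3 + CC + 1 +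
    (Ck + 2 * K * Ck) := ⟨_, rfl⟩
  have d1 : 0 < 4 / c0 ^ 2 := by positivity
  have d2 : 0 < K ^ 2 / c0 ^ 3 := by positivity
  have d3 : 0 < CB / c0 ^ 3 := by positivity
  have d4 : 0 < Ck + 2 * K * Ck := by positivity
  have hD1 : 1 ≤ D := by rw [hD]; linarith
  obtain ⟨cE, CE, hcE, hCE, hE⟩ := comp hD1
  obtain ⟨Cx, hCx⟩ : ∃ Cx : ℝ, Cx = CA + 2 := ⟨_, rfl⟩
  have hCx0 : 0 < Cx := by rw [hCx]; linarith
  obtain ⟨CS, hCS, hS⟩ := seg hb0 D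
  refine ⟨min (min (min cA cB) (min cC cE)) (min (1 / Cx) ((c0 ^ 3 / CB) ^ 2)),
    max (max (max CA CB) (max CC CE)) (1 + CS * Cx ^ 5 * √Cx + CA * CE ^ 2), by positivity,
    le_max_of_le_left (le_max_of_le_left (le_max_of_le_left hCA)),
    fun n d r hd1 hdn hmin hx hCn => ?_⟩
  obtain ⟨x, hxe⟩ : ∃ x, x = gm n d := ⟨_, rfl⟩
  have hx0 : 0 < x := hxe ▸ grid_gm_pos hd1
  rw [← hxe] at hx hCn ⊢
  simp only [le_min_iff] at hx
  simp only [max_le_iff] at hCn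
  obtain ⟨⟨⟨xA, xB⟩, xC, xE⟩, xX, xK⟩ := hx
  obtain ⟨⟨⟨nA, nB⟩, nC, nE⟩, -⟩ := hCn
  have hXx : Cx * x ≤ 1 := by
    rw [le_div_iff₀ hCx0] at xX
    linarith
  have hr := hmin.1
  obtain ⟨-, hRC, -, -⟩ := hA n d r hd1 hdn hmin (hxe ▸ xA) (hxe ▸ nA)
  obtain ⟨hlaw, -⟩ := hB n d r hd1 hdn hmin (hxe ▸ xB) (hxe ▸ nB)
  obtain ⟨L, hdL, hL2, hLn, hrL, hjump⟩ := hC n d r hd1 hdn hmin (hxe ▸ xC) (hxe ▸ nC)
  obtain ⟨hv0, hv1, hk0, hk1⟩ := hbd n r hr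
  rw [← hxe] at hRC hlaw hrL hjump
  obtain ⟨a, ha⟩ : ∃ a : ℝ, a = kk n r ^ 2 / (4 * vv n r ^ 3) := ⟨_, rfl⟩
  have hvp : 0 < vv n r := by linarith
  have hkp : 0 < kk n r := by linarith
  have hap : 0 < a := by rw [ha]; positivity
  obtain ⟨p1, p2, p3, p4⟩ := dn_par hc0 hCB (D := D) (by rw [hD]; linarith) (by rw [hD]; linarith)
    (by rw [hD]; linarith) hx0 xK hv0 hv1 hk0 hk1 hlaw ha
  have hR0 : 0 ≤ r d := len_nonneg hr hdn
  have hR0' : 0 < r d := by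
    by_contra h
    push Not at h
    have : a * r d ≤ 0 := mul_nonpos_of_nonneg_of_nonpos hap.le h
    linarith
  obtain ⟨ρ, hρ0, hρ1, hρ2, hρ3, hρ4⟩ := hE n d L (r d) a x hxe hd1 hdL hL2 hR0' p1 p2 xE nE p3 (by
    have h1 : 3 / 2 * x - CC * (x * √x) ≤ (L : ℝ) / ((n : ℝ) + 1) := hjump
    have h2 : CC * (x * √x) ≤ D * (x * √x) := by
      refine mul_le_mul_of_nonneg_right ?_ (by positivity)
      rw [hD]
      linarith
    linarith)
  have hRL : r d ≤ r L := len_mono hr hdL.le hLn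
  have f1 := dn_path (R := r d) hr hd1 hLn hR0 hRL
  obtain ⟨kv1, kv2⟩ := hkvc n L (r (L - 1)) r (dnR d L (r d) r) hr f1 (by omega) hLn (fun l hl => by
    unfold dnR
    rw [if_neg (by omega), if_neg (by omega)]) le_rfl (by
      unfold dnR
      rw [if_neg (by omega), if_pos (by omega)]
      exact len_mono hr (by omega) (by omega)) (len_mono hr (by omega) hLn)
  obtain ⟨-, -, hk0', hk1'⟩ := hbd n (dnR d L (r d) r) f1
  obtain ⟨r', h1, h2⟩ := dn_main hb hd1 hdn hmin hdL hL2 hLn hCA hCS hCx hxe rfl hx0 hXx hRC hrL hvp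
    hv1 hkp (a := a) (by rw [ha]; field_simp) hap p2 p4 hCk hK hk1 (by rw [hD]; linarith) kv1 kv2
    (by linarith) hk1' hS hρ0 hρ1 hρ2 hρ3 hρ4
  refine ⟨r', h1, h2.trans ?_⟩
  have t8 : (1 + CS * Cx ^ 5 * √Cx + CA * CE ^ 2) * (x ^ 5 * √x) ≤
      max (max (max CA CB) (max CC CE)) (1 + CS * Cx ^ 5 * √Cx + CA * CE ^ 2) * (x ^ 5 * √x) :=
    mul_le_mul_of_nonneg_right (le_max_right _ _) (by positivity)
  linarith

end Vale.Agent.P146.Sh
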