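import Vale.Agent.P146.Sh.ShDefs
import Vale.Agent.P146.Sx.Fin5
import Vale.Agent.P146.Pw2.T1Grid

/-!
# P146, Sh: the grid and the constrained Parisi values
-/

open MeasureTheory ProbabilityTheory Filter Topology Set

namespace Vale.Agent.P146.Sh

open Vale.Agent.P157.Par
open Vale.Agent.P146.Gap
open Vale.Agent.P146.Pw2
open Vale.Agent.P146.Lb
open Vale.Agent.P367.Cl

/-- `grid_path` with the explicit path. -/
private theorem sg_grid_path (b : ℝ) (n : ℕ) {k : ℕ} {μ p : ℕ → ℝ} (hμ : Exponents k μ)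
    (hp : Path k p) (hp1 : p k ≤ 1) : Path n (fun l => p (gJ n k μ l)) ∧ p (gJ n k μ n) ≤ 1 ∧
      SKpar b n (gm n) (fun l => p (gJ n k μ l)) ≤ SKpar b k μ p + b ^ 2 / (2 * (n + 1)) := by
  have hn : (0 : ℝ) < (n : ℝ) + 1 := by positivity
  have hp0 : ∀ l ≤ k, 0 ≤ p l := fun l hl => hp.1.trans (grid_path_mono hp (Nat.zero_le l) hl)
  refine ⟨⟨hp0 _ (gJ_le _ _ _ _), fun l _ =>
    grid_path_mono hp (gJ_mono hμ (Nat.le_succ l)) (gJ_le _ _ _ _)⟩,
    (grid_path_mono hp (gJ_le _ _ _ _) le_rfl).trans hp1, ?_⟩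
  have hJ : ∀ l, min k (gJ n k μ l) = gJ n k μ l := fun l => min_eq_right (gJ_le _ _ _ _)
  -- the sums
  have hs := grid_sum (n := n) (f := fun l => p l ^ 2) hμ (fun l hl =>
    pow_le_pow_left₀ (hp0 l hl.le) (hp.2 l hl) 2) k le_rfl
  have hs2 : ∑ l ∈ Finset.range (k + 1), (μ (l + 1) - μ l) * p (min k l) ^ 2 =
      ∑ l ∈ Finset.range (k + 1), (μ (l + 1) - μ l) * p l ^ 2 := by
    refine Finset.sum_congr rfl fun l hl => ?_
    rw [min_eq_right (by have := Finset.mem_range.1 hl; omega)]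
  simp only [hJ] at hs
  rw [hs2] at hs
  -- the cascades
  have hc := grid_casc (b := b) (n := n) hμ hp k le_rfl 2 lc adm_lc
  simp only [hJ] at hc
  have hv : 0 ≤ b ^ 2 * p k - b ^ 2 * p (gJ n k μ n) := by
    have := mul_le_mul_of_nonneg_left (grid_path_mono hp (gJ_le n k μ n) le_rfl) (sq_nonneg b)
    linarith
  have h2 : ∀ x, cascade (gm n) (fun l => b ^ 2 * p (gJ n k μ l)) (n + 1) lc x =
      cascade (gm n) (fun l => b ^ 2 * p (gJ n k μ l)) n lc x +
        (b ^ 2 * p k - b ^ 2 * p (gJ n k μ n)) / 2 := by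
    intro x
    rw [cascade_succ_def, grid_gm_top, gJ_top hμ, minb_lc_step hv,
      minb_cascade_const (fun l a _ => grid_gm_pos a) (fun l _ c => by
        rw [← grid_gm_top n]; exact grid_gm_mono (by omega)) (fun l _ =>
        mul_le_mul_of_nonneg_left (grid_path_mono hp (gJ_mono hμ (Nat.le_succ l)) (gJ_le _ _ _ _))
          (sq_nonneg b)) adm_lc]
  have hL : ∀ (m r : ℕ → ℝ) (c : ℕ), (∀ l, 1 ≤ l → l ≤ c → 0 < m l) →
      Integrable (fun z => cascade m r c lc (√(r 0) * z)) (gaussianReal 0 1) := fun m r c h =>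
    comp_int_lip (comp_casc_lip (F := lc) c lc (grid_adm_lip adm_lc) h) (r 0)
  have hspin : spinPart n (gm n) (fun l => b ^ 2 * p (gJ n k μ l)) ≤
      spinPart k μ (fun l => b ^ 2 * p l) + b ^ 2 / (2 * (n + 1)) := by
    have hl : spinPart n (gm n) (fun l => b ^ 2 * p (gJ n k μ l)) =
        ∫ z, cascade (gm n) (fun l => b ^ 2 * p (gJ n k μ l)) n lc (√(b ^ 2 * p 0) * z)
          ∂(gaussianReal 0 1) - b ^ 2 * p (gJ n k μ n) / 2 := by
      unfold spinPart
      simp only [gJ_zero hμ]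
      rfl
    have hr : spinPart k μ (fun l => b ^ 2 * p l) =
        ∫ z, cascade μ (fun l => b ^ 2 * p l) k lc (√(b ^ 2 * p 0) * z)
          ∂(gaussianReal 0 1) - b ^ 2 * p k / 2 := rfl
    have hi1 := hL (gm n) (fun l => b ^ 2 * p (gJ n k μ l)) n (fun l a _ => grid_gm_pos a)
    simp only [gJ_zero hμ] at hi1
    have hi2 := hL μ (fun l => b ^ 2 * p l) k (fun l a c => by
      have h1 := hμ.2.2 0 (Nat.zero_le k)
      rw [hμ.1] at h1
      exact h1.trans_le (grid_exp_mono hμ a (by omega)))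
    have hkey : ∀ x, cascade (gm n) (fun l => b ^ 2 * p (gJ n k μ l)) n lc x ≤
        cascade μ (fun l => b ^ 2 * p l) k lc x + (b ^ 2 / (2 * (n + 1)) -
          (b ^ 2 * p k - b ^ 2 * p (gJ n k μ n)) / 2) := by
      intro x
      have h3 := hc x
      rw [h2 x] at h3
      have h4 : b ^ 2 * (p k - p 0) / (2 * ((n : ℝ) + 1)) ≤ b ^ 2 / (2 * (n + 1)) := by
        refine div_le_div_of_nonneg_right ?_ (by positivity)
        refine mul_le_of_le_one_right (sq_nonneg b) ?_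
        linarith [hp0 0 (Nat.zero_le k)]
      linarith
    have hint := integral_mono hi1 (hi2.add (integrable_const
      (b ^ 2 / (2 * (n + 1)) - (b ^ 2 * p k - b ^ 2 * p (gJ n k μ n)) / 2)))
      (fun z => hkey (√(b ^ 2 * p 0) * z))
    rw [integral_add' hi2 (integrable_const _)] at hint
    simp only [integral_const, probReal_univ, one_smul] at hint
    rw [hl, hr]
    linarith
  unfold SKpar
  have h5 : b ^ 2 / 4 * (1 + ∑ l ∈ Finset.range (n + 1), (gm n (l + 1) - gm n l) *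
      p (gJ n k μ l) ^ 2) ≤ b ^ 2 / 4 * (1 + ∑ l ∈ Finset.range (k + 1), (μ (l + 1) - μ l) *
      p l ^ 2) := mul_le_mul_of_nonneg_left (by linarith) (by positivity)
  linarith

/-- The functional is bounded below. -/
private theorem sg_bdd {b : ℝ} (hb : 1 < b) : ∃ B : ℝ, ∀ (K : ℕ) (m q : ℕ → ℝ), Exponents K m →
    Path K q → q K ≤ 1 → B ≤ SKpar b K m q := by
  obtain ⟨C₁, hC₁, h1⟩ := Sx.fin_moment5 hb.le
  refine ⟨_, fun K m q hm hq hq1 => h1 1 le_rfl 1 one_pos le_rfl K m q hm hq hq1⟩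

private theorem sg_bdd_V {b : ℝ} (hb : 1 < b) (x : ℝ) :
    BddBelow {y | ∃ (K : ℕ) (m q : ℕ → ℝ), Exponents K m ∧ Path K q ∧ q 0 = 0 ∧ q K ≤ 1 ∧
      x ≤ m 1 ∧ y = SKpar b K m q} := by
  obtain ⟨B, hB⟩ := sg_bdd hb
  refine ⟨B, ?_⟩
  rintro y ⟨K, m, q, h1, h2, h3, h4, h5, rfl⟩
  exact hB K m q h1 h2 h4

private theorem sg_bdd_P {b : ℝ} (hb : 1 < b) :
    BddBelow {y | ∃ (K : ℕ) (m q : ℕ → ℝ), Exponents K m ∧ Path K q ∧ q K ≤ 1 ∧
      y = SKpar b K m q} := by
  obtain ⟨B, hB⟩ := sg_bdd hb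
  refine ⟨B, ?_⟩
  rintro y ⟨K, m, q, h1, h2, h4, rfl⟩
  exact hB K m q h1 h2 h4

private theorem sg_exp0 : Exponents 0 (fun l => if l = 0 then 0 else 1) := by
  refine ⟨if_pos rfl, ?_, ?_⟩
  · simp
  · intro l hl
    have : l = 0 := by omega
    subst this
    simp

private theorem sg_ne_V (b : ℝ) {x : ℝ} (hx : x ≤ 1) :
    {y | ∃ (K : ℕ) (m q : ℕ → ℝ), Exponents K m ∧ Path K q ∧ q 0 = 0 ∧ q K ≤ 1 ∧
      x ≤ m 1 ∧ y = SKpar b K m q}.Nonempty := by
  refine ⟨_, 0, fun l => if l = 0 then 0 else 1, fun _ => 0, sg_exp0,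
    ⟨le_rfl, fun _ _ => le_rfl⟩, rfl, zero_le_one, ?_, rfl⟩
  simpa using hx

private theorem sg_ne_P (b : ℝ) :
    {y | ∃ (K : ℕ) (m q : ℕ → ℝ), Exponents K m ∧ Path K q ∧ q K ≤ 1 ∧
      y = SKpar b K m q}.Nonempty := by
  refine ⟨_, 0, fun l => if l = 0 then 0 else 1, fun _ => 0, sg_exp0,
    ⟨le_rfl, fun _ _ => le_rfl⟩, zero_le_one, rfl⟩

theorem vx_le {b : ℝ} (hb : 1 < b) {n d : ℕ} (hd : 1 ≤ d) (hdn : d ≤ n) {r : ℕ → ℝ}
    (hr : BPath b n r) (h0 : ∀ l < d, r l = 0) : Vx b (gm n d) ≤ SKr b n (gm n) r := by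
  have hb0 : 0 < b := by linarith
  obtain ⟨e, rfl⟩ : ∃ e, d = e + 1 := ⟨d - 1, by omega⟩
  obtain ⟨K, rfl⟩ : ∃ K, n = e + K := ⟨n - e, by omega⟩
  set m' : ℕ → ℝ := fun j => if j = 0 then 0 else gm (e + K) (e + j) with hm'
  set r' : ℕ → ℝ := fun j => r (e + j) with hr'
  have hexp : Exponents K m' := by
    refine ⟨by simp [hm'], ?_, fun l hl => ?_⟩
    · have h1 : m' (K + 1) = gm (e + K) (e + (K + 1)) := by simp [hm']
      rw [h1]
      exact grid_gm_top (e + K)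
    · have h1 : m' (l + 1) = gm (e + K) (e + (l + 1)) := by simp [hm']
      rw [h1]
      by_cases hl0 : l = 0
      · subst hl0
        have h2 : m' 0 = 0 := by simp [hm']
        rw [h2]
        exact grid_gm_pos (by omega)
      · have h2 : m' l = gm (e + K) (e + l) := by simp [hm', hl0]
        rw [h2]
        exact (gm_exponents (e + K)).2.2 (e + l) (by omega)
  have hr0 : r' 0 = 0 := h0 e (by omega)
  have hpath : Path K r' := ⟨hr0.symm.le, fun l hl => hr.2.1.2 (e + l) (by omega)⟩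
  have hend : r' K ≤ b ^ 2 := hr.2.2
  -- the functional
  have hcas : cascade (gm (e + K)) r (e + K) lc = cascade m' r' K lc := by
    rw [minb_split, minb_flat (fun l h1 h2 => (grid_gm_pos h1).ne')
      (fun l hl => by rw [h0 l (by omega), h0 0 (by omega)])]
    refine minb_congr (fun l h1 h2 => ?_) (fun l hl => rfl) lc
    have : l ≠ 0 := by omega
    simp [hm', this]
  have hspin : spinPart K m' r' = spinPart (e + K) (gm (e + K)) r := by
    unfold spinPart
    have h1 : cascade m' r' K (fun x => Real.log (Real.cosh x)) =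
        cascade (gm (e + K)) r (e + K) (fun x => Real.log (Real.cosh x)) := hcas.symm
    rw [h1, hr0, h0 0 (by omega)]
  have hsum : ∑ l ∈ Finset.range (K + 1), (m' (l + 1) - m' l) * r' l ^ 2 =
      ∑ l ∈ Finset.range (e + K + 1), (gm (e + K) (l + 1) - gm (e + K) l) * r l ^ 2 := by
    have h1 : e + K + 1 = e + (K + 1) := by ring
    rw [h1, Finset.sum_range_add _ e (K + 1)]
    have h2 : ∑ l ∈ Finset.range e, (gm (e + K) (l + 1) - gm (e + K) l) * r l ^ 2 = 0 := by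
      refine Finset.sum_eq_zero fun l hl => ?_
      have := Finset.mem_range.1 hl
      rw [h0 l (by omega)]
      ring
    rw [h2, zero_add]
    refine Finset.sum_congr rfl fun l hl => ?_
    by_cases hl0 : l = 0
    · subst hl0
      have h3 : r (e + 0) = 0 := h0 e (by omega)
      rw [hr0, h3]
      ring
    · have h3 : m' l = gm (e + K) (e + l) := by simp [hm', hl0]
      have h4 : m' (l + 1) = gm (e + K) (e + (l + 1)) := by simp [hm']
      rw [h3, h4]
      rfl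
  have hSK : SKr b K m' r' = SKr b (e + K) (gm (e + K)) r := by
    unfold SKr
    rw [hspin, hsum]
  rw [← hSK, ← gap2_SKr_eq hb0]
  refine csInf_le (sg_bdd_V hb _) ⟨K, m', fun l => r' l / b ^ 2, hexp, ⟨?_, fun l hl => ?_⟩, ?_,
    ?_, ?_, rfl⟩
  · exact div_nonneg hpath.1 (by positivity)
  · exact div_le_div_of_nonneg_right (hpath.2 l hl) (by positivity)
  · simp only [hr0, zero_div]
  · simp only []
    rw [div_le_one (by positivity)]
    exact hend
  · have h1 : m' 1 = gm (e + K) (e + 1) := by simp [hm']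
    rw [h1]

theorem vx_ge {b : ℝ} (hb : 1 < b) {n d : ℕ} (hd : 1 ≤ d) (hdn : d ≤ n) {x : ℝ} (hx : 0 < x)
    (hx1 : x ≤ 1) (hdx : gm n (d - 1) < x) {r : ℕ → ℝ} (hr : IsMinD b n d r) :
    SKr b n (gm n) r ≤ Vx b x + 2 * b ^ 2 / (n + 1) := by
  have hb0 : 0 < b := by linarith
  have hn : (0 : ℝ) < (n : ℝ) + 1 := by positivity
  have key : SKr b n (gm n) r - 2 * b ^ 2 / (n + 1) ≤ Vx b x := by
    refine le_csInf (sg_ne_V b hx1) ?_
    rintro y ⟨K, μ, p, hμ, hp, hp0, hp1, hxμ, rfl⟩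
    obtain ⟨h1, h2, h3⟩ := sg_grid_path b n hμ hp hp1
    set q : ℕ → ℝ := fun l => p (gJ n K μ l) with hq
    have hq0 : ∀ l < d, q l = 0 := by
      intro l hl
      have h4 : gJ n K μ l = 0 := by
        by_contra hne
        have h5 : 1 ≤ gJ n K μ l := Nat.one_le_iff_ne_zero.2 hne
        have h6 : gm n l < μ 1 := by
          have h7 : gm n l ≤ gm n (d - 1) := grid_gm_mono (by omega)
          linarith
        have h8 : 1 ≤ K := h5.trans (gJ_le n K μ l)
        have h9 := gJ_lt (n := n) hμ h8 h6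
        omega
      simp only [hq, h4, hp0]
    have hB : BPath b n (fun l => b ^ 2 * q l) := by
      refine ⟨?_, ⟨?_, fun l hl => ?_⟩, ?_⟩
      · simp only [hq0 0 (by omega), mul_zero]
      · exact mul_nonneg (sq_nonneg b) h1.1
      · exact mul_le_mul_of_nonneg_left (h1.2 l hl) (sq_nonneg b)
      · have := mul_le_mul_of_nonneg_left h2 (sq_nonneg b)
        rw [mul_one] at this
        exact this
    have h4 := hr.2.2 _ hB (fun l hl => by simp only [hq0 l hl, mul_zero])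
    have h5 : SKr b n (gm n) (fun l => b ^ 2 * q l) = SKpar b n (gm n) q := by
      rw [← gap2_SKr_eq hb0]
      congr 1
      funext l
      field_simp
    rw [h5] at h4
    have h6 : b ^ 2 / (2 * ((n : ℝ) + 1)) ≤ 2 * b ^ 2 / (n + 1) := by
      rw [div_le_div_iff₀ (by positivity) (by positivity)]
      nlinarith [mul_nonneg (sq_nonneg b) hn.le]
    linarith
  linarith

theorem p0_le {b : ℝ} (hb : 1 < b) {n : ℕ} {r : ℕ → ℝ} (hr : BPath b n r) :
    P0 b ≤ SKr b n (gm n) r := by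
  have hb0 : 0 < b := by linarith
  rw [← gap2_SKr_eq hb0]
  refine csInf_le (sg_bdd_P hb) ⟨n, gm n, fun l => r l / b ^ 2, gm_exponents n,
    ⟨?_, fun l hl => ?_⟩, ?_, rfl⟩
  · exact div_nonneg hr.2.1.1 (by positivity)
  · exact div_le_div_of_nonneg_right (hr.2.1.2 l hl) (by positivity)
  · simp only []
    rw [div_le_one (by positivity)]
    exact hr.2.2

theorem p0_ge {b : ℝ} (hb : 1 < b) {n : ℕ} {r : ℕ → ℝ} (hr : IsMinD b n 0 r) :
    SKr b n (gm n) r ≤ P0 b + 2 * b ^ 2 / (n + 1) := by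
  have hb0 : 0 < b := by linarith
  have key : SKr b n (gm n) r - 2 * b ^ 2 / (n + 1) ≤ P0 b := by
    refine le_csInf (sg_ne_P b) ?_
    rintro y ⟨K, μ, p, hμ, hp, hp1, rfl⟩
    obtain ⟨r', hr', h1⟩ := grid_bpath hb0 n hμ hp hp1
    have h2 := hr.2.2 r' hr' (fun l hl => absurd hl (Nat.not_lt_zero l))
    linarith
  linarith

/-- upper bound (`exp_ge5_par`) -/
theorem vx_up {b : ℝ} (hb : 1 < b) : ∃ C : ℝ, 1 ≤ C ∧ ∀ x : ℝ, 0 < x → x ≤ 1 →
    Vx b x ≤ P0 b + C * x ^ 5 := by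
  obtain ⟨C, hC, h⟩ := exp_ge5_par hb.le
  refine ⟨C + 1, by linarith, fun x hx hx1 => ?_⟩
  have key : Vx b x - C * x ^ 5 ≤ P0 b := by
    refine le_csInf (sg_ne_P b) ?_
    rintro y ⟨K, m, q, hm, hq, hq1, rfl⟩
    have h1 : Vx b x ≤ SKpar b K m q + C * x ^ 5 := by
      refine le_of_forall_pos_le_add fun e he => ?_
      obtain ⟨k', m', q', h1, h2, h3, h4, h5, h6⟩ := h x hx hx1 K m q hm hq hq1 e he
      exact (csInf_le (sg_bdd_V hb x) ⟨k', m', q', h1, h3, h4, h5, h2, rfl⟩).trans h6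
    linarith
  have h2 : 0 ≤ x ^ 5 := by positivity
  nlinarith

end Vale.Agent.P146.Sh
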