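import Vale.Agent.P146.Sh.ShIter
import Vale.Agent.P146.Sh.ShGrid
import Vale.Agent.P146.Ld.Cor1

/-!
# P146, Sh: the limit of `(V(x) - V(0)) / x⁵`
-/

open MeasureTheory ProbabilityTheory Filter Topology Set

namespace Vale.Agent.P146.Sh

open Vale.Agent.P157.Par
open Vale.Agent.P146.Gap
open Vale.Agent.P146.Pw2
open Vale.Agent.P146.Lb
open Vale.Agent.P367.Cl

/-- A bounded function which is almost decreasing has a limit at the origin. -/
theorem shlim_real {G : ℝ → ℝ} {c C K κ : ℝ} (hc : 0 < c) (hC : 0 ≤ C)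
    (h1 : ∀ x₁ x₂, 0 < x₁ → x₁ < x₂ → x₂ < c → G x₂ ≤ G x₁ + C * √x₂)
    (h2 : ∀ x, 0 < x → x < c → G x ≤ K) (h3 : ∀ x, 0 < x → x < c → κ ≤ G x) :
    ∃ A : ℝ, κ ≤ A ∧ Tendsto G (𝓝[>] 0) (𝓝 A) := by
  set S : Set ℝ := (fun x => G x - C * √x) '' Ioo 0 c with hS
  have hne : S.Nonempty := ⟨_, c / 2, ⟨by positivity, by linarith⟩, rfl⟩
  have hbd : BddAbove S := by
    refine ⟨K, ?_⟩
    rintro _ ⟨x, hx, rfl⟩
    have := h2 x hx.1 hx.2
    have h4 : 0 ≤ C * √x := by positivity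
    simp only
    linarith
  have hup : ∀ x ∈ Ioo 0 c, G x ≤ sSup S + C * √x := by
    intro x hx
    have := le_csSup hbd ⟨x, hx, rfl⟩
    simp only at this
    linarith
  have hlim : Tendsto G (𝓝[>] 0) (𝓝 (sSup S)) := by
    rw [tendsto_order]
    constructor
    · intro a ha
      obtain ⟨_, ⟨y, hy, rfl⟩, hay⟩ := exists_lt_of_lt_csSup hne ha
      have h5 : ∀ᶠ x in 𝓝[>] (0 : ℝ), x ∈ Ioo 0 y := Ioo_mem_nhdsGT hy.1
      filter_upwards [h5] with x hx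
      have := h1 x y hx.1 hx.2 hy.2
      simp only at hay
      linarith
    · intro a ha
      have h6 : Tendsto (fun x : ℝ => sSup S + C * √x) (𝓝[>] 0) (𝓝 (sSup S)) := by
        have h7 : Tendsto (fun x : ℝ => sSup S + C * √x) (𝓝 0) (𝓝 (sSup S + C * √0)) :=
          (Continuous.tendsto (by fun_prop) 0)
        rw [Real.sqrt_zero, mul_zero, add_zero] at h7
        exact h7.mono_left nhdsWithin_le_nhds
      have h8 : ∀ᶠ x in 𝓝[>] (0 : ℝ), x ∈ Ioo 0 c := Ioo_mem_nhdsGT hc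
      filter_upwards [h6.eventually (gt_mem_nhds ha), h8] with x hx hx2
      exact (hup x hx2).trans_lt hx
  refine ⟨sSup S, ?_, hlim⟩
  refine ge_of_tendsto hlim ?_
  have h8 : ∀ᶠ x in 𝓝[>] (0 : ℝ), x ∈ Ioo 0 c := Ioo_mem_nhdsGT hc
  filter_upwards [h8] with x hx
  exact h3 x hx.1 hx.2

/-- the level above `x` -/
noncomputable def shlimd (x : ℝ) (n : ℕ) : ℕ := ⌈x * ((n : ℝ) + 1)⌉₊

theorem shlim_ge (x : ℝ) (n : ℕ) : x ≤ gm n (shlimd x n) := by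
  unfold gm shlimd
  rw [le_div_iff₀ (by positivity)]
  exact Nat.le_ceil _

theorem shlim_one {x : ℝ} (hx : 0 < x) (n : ℕ) : 1 ≤ shlimd x n := by
  unfold shlimd
  rw [Nat.one_le_ceil_iff]
  positivity

theorem shlim_lt {x : ℝ} (hx : 0 < x) (n : ℕ) : gm n (shlimd x n - 1) < x := by
  have h1 := shlim_one hx n
  unfold gm
  rw [div_lt_iff₀ (by positivity), Nat.cast_sub h1, Nat.cast_one]
  have h2 := Nat.ceil_lt_add_one (a := x * ((n : ℝ) + 1)) (by positivity)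
  unfold shlimd
  linarith

theorem shlim_mono {x y : ℝ} (h : x ≤ y) (n : ℕ) : shlimd x n ≤ shlimd y n := by
  unfold shlimd
  exact Nat.ceil_le_ceil (mul_le_mul_of_nonneg_right h (by positivity))

theorem shlim_n1 : Tendsto (fun n : ℕ => (n : ℝ) + 1) atTop atTop :=
  tendsto_atTop_add_const_right _ _ tendsto_natCast_atTop_atTop

theorem shlim_td {x : ℝ} (hx : 0 < x) : Tendsto (fun n => gm n (shlimd x n)) atTop (𝓝 x) := by
  have h1 := (tendsto_nat_ceil_mul_div_atTop (R := ℝ) hx.le).comp shlim_n1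
  exact h1

theorem shlim_le {x : ℝ} (hx : x < 1) : ∀ᶠ n : ℕ in atTop, shlimd x n ≤ n := by
  have h1 : Tendsto (fun n : ℕ => (1 - x) * ((n : ℝ) + 1)) atTop atTop :=
    shlim_n1.const_mul_atTop (by linarith)
  filter_upwards [h1.eventually_ge_atTop 1] with n hn
  unfold shlimd
  rw [Nat.ceil_le]
  linarith

theorem shlim_big {x : ℝ} (hx : 0 < x) (C : ℝ) (k : ℕ) :
    ∀ᶠ n : ℕ in atTop, C ≤ gm n (shlimd x n) ^ k * ((n : ℝ) + 1) := by
  have h1 : Tendsto (fun n : ℕ => x ^ k * ((n : ℝ) + 1)) atTop atTop :=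
    shlim_n1.const_mul_atTop (by positivity)
  filter_upwards [h1.eventually_ge_atTop C] with n hn
  refine hn.trans (mul_le_mul_of_nonneg_right ?_ (by positivity))
  exact pow_le_pow_left₀ hx.le (shlim_ge x n) k

theorem shlim_bdd {b : ℝ} (hb : 1 < b) (x : ℝ) :
    BddBelow {y | ∃ (K : ℕ) (m q : ℕ → ℝ), Exponents K m ∧ Path K q ∧ q 0 = 0 ∧ q K ≤ 1 ∧
      x ≤ m 1 ∧ y = SKpar b K m q} := by
  refine (Ld.cor_bdd hb.le).mono ?_
  rintro y ⟨K, m, q, h1, h2, -, h3, -, rfl⟩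
  exact ⟨K, m, q, h1, h2, h3, rfl⟩

theorem shlim_Vx {b : ℝ} (hb : 1 < b) {x y : ℝ} (hxy : x ≤ y) (hy : y ≤ 1) : Vx b x ≤ Vx b y := by
  refine csInf_le_csInf (shlim_bdd hb x) ?_ ?_
  · refine ⟨_, 0, fun l => if l = 0 then 0 else 1, fun _ => 0, ⟨if_pos rfl, ?_, ?_⟩,
      ⟨le_rfl, fun _ _ => le_rfl⟩, rfl, zero_le_one, ?_, rfl⟩
    · simp
    · intro l hl
      have : l = 0 := by omega
      subst this
      simp
    · simpa using hy
  · rintro z ⟨K, m, q, h1, h2, h3, h4, h5, rfl⟩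
    exact ⟨K, m, q, h1, h2, h3, h4, hxy.trans h5, rfl⟩

theorem lim_A_of {b : ℝ} (hb : 1 < b)
    (hiter : ∃ c C : ℝ, 0 < c ∧ 1 ≤ C ∧ ∀ (n d₁ d₂ : ℕ)
      (r₀ r₁ r₂ : ℕ → ℝ), 1 ≤ d₁ → d₁ ≤ d₂ → d₂ ≤ n → IsMinD b n 0 r₀ → IsMinD b n d₁ r₁ →
      IsMinD b n d₂ r₂ → gm n d₂ ≤ c → C ≤ gm n d₁ ^ 40 * (n + 1) →
        (SKr b n (gm n) r₂ - SKr b n (gm n) r₀) / gm n d₂ ^ 5 ≤
          (SKr b n (gm n) r₁ - SKr b n (gm n) r₀) / gm n d₁ ^ 5 + C * √(gm n d₂))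
    (hle : ∀ {n d : ℕ}, 1 ≤ d → d ≤ n → ∀ {r : ℕ → ℝ}, BPath b n r → (∀ l < d, r l = 0) →
      Vx b (gm n d) ≤ SKr b n (gm n) r)
    (hge : ∀ {n d : ℕ}, 1 ≤ d → d ≤ n → ∀ {x : ℝ}, 0 < x → x ≤ 1 → gm n (d - 1) < x →
      ∀ {r : ℕ → ℝ}, IsMinD b n d r → SKr b n (gm n) r ≤ Vx b x + 2 * b ^ 2 / (n + 1))
    (hp0 : ∀ {n : ℕ} {r : ℕ → ℝ}, IsMinD b n 0 r →
      SKr b n (gm n) r ≤ P0 b + 2 * b ^ 2 / (n + 1))
    (hup : ∃ C : ℝ, 1 ≤ C ∧ ∀ x : ℝ, 0 < x → x ≤ 1 → Vx b x ≤ P0 b + C * x ^ 5) :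
    ∃ A : ℝ, 0 < A ∧ Tendsto (fun x => (Vx b x - P0 b) / x ^ 5) (𝓝[>] 0) (𝓝 A) := by
  obtain ⟨c, C, hc, hC, hit⟩ := hiter
  obtain ⟨c₁, C₁, hc₁, hC₁, hl⟩ := l1 hb
  obtain ⟨K, hK, hu⟩ := hup
  have hb0 : 0 < b := by linarith
  have hP : ∀ {n : ℕ} {r : ℕ → ℝ}, BPath b n r → P0 b ≤ SKr b n (gm n) r :=
    fun hr => Ld.cor_sInf_le hb.le hr
  have hinv : Tendsto (fun n : ℕ => 2 * b ^ 2 / ((n : ℝ) + 1)) atTop (𝓝 0) :=
    tendsto_const_nhds.div_atTop shlim_n1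
  set c' := min (min c c₁) 1 with hc'
  have hc'0 : 0 < c' := by positivity
  have hex : ∃ A : ℝ, c₁ ≤ A ∧ Tendsto (fun x => (Vx b x - P0 b) / x ^ 5) (𝓝[>] 0) (𝓝 A) := by
    refine shlim_real (c := c') (C := C) (K := K) hc'0 (by linarith) ?_ ?_ ?_
    · intro x₁ x₂ hx₁ hx hx₂
      have hx₂0 : 0 < x₂ := hx₁.trans hx
      have hxc : x₂ < c := hx₂.trans_le ((min_le_left _ _).trans (min_le_left _ _))
      have hx1 : x₂ < 1 := hx₂.trans_le (min_le_right _ _)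
      have t1 := shlim_td hx₁
      have t2 := shlim_td hx₂0
      have hL : Tendsto (fun n : ℕ => (Vx b x₂ - (P0 b + 2 * b ^ 2 / ((n : ℝ) + 1))) /
          gm n (shlimd x₂ n) ^ 5) atTop (𝓝 ((Vx b x₂ - P0 b) / x₂ ^ 5)) := by
        have h1 : Tendsto (fun n : ℕ => Vx b x₂ - (P0 b + 2 * b ^ 2 / ((n : ℝ) + 1))) atTop
            (𝓝 (Vx b x₂ - (P0 b + 0))) := (hinv.const_add (P0 b)).const_sub (Vx b x₂)
        rw [add_zero] at h1
        exact h1.div (t2.pow 5) (by positivity)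
      have hR : Tendsto (fun n : ℕ => (Vx b x₁ + 2 * b ^ 2 / ((n : ℝ) + 1) - P0 b) /
          gm n (shlimd x₁ n) ^ 5 + C * √(gm n (shlimd x₂ n))) atTop
          (𝓝 ((Vx b x₁ - P0 b) / x₁ ^ 5 + C * √x₂)) := by
        have h1 : Tendsto (fun n : ℕ => Vx b x₁ + 2 * b ^ 2 / ((n : ℝ) + 1) - P0 b) atTop
            (𝓝 (Vx b x₁ + 0 - P0 b)) := (hinv.const_add (Vx b x₁)).sub_const (P0 b)
        rw [add_zero] at h1
        exact (h1.div (t1.pow 5) (by positivity)).add ((t2.sqrt).const_mul C)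
      refine le_of_tendsto_of_tendsto hL hR ?_
      filter_upwards [shlim_le hx1, shlim_big hx₁ C 40, t2.eventually (gt_mem_nhds hxc)]
        with n h1 h2 h3
      obtain ⟨r₀, hr₀⟩ := exists_minD (n := n) (d := 0) hb0 (Nat.zero_le _)
      have hd := shlim_mono hx.le n
      obtain ⟨r₁, hr₁⟩ := exists_minD (n := n) (d := shlimd x₁ n) hb0 (hd.trans h1)
      obtain ⟨r₂, hr₂⟩ := exists_minD (n := n) (d := shlimd x₂ n) hb0 h1
      have h4 := hit n _ _ r₀ r₁ r₂ (shlim_one hx₁ n) hd h1 hr₀ hr₁ hr₂ h3.le h2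
      have g1 : 0 < gm n (shlimd x₁ n) := hx₁.trans_le (shlim_ge _ _)
      have g2 : 0 < gm n (shlimd x₂ n) := hx₂0.trans_le (shlim_ge _ _)
      have g2' : gm n (shlimd x₂ n) ≤ 1 := by
        unfold gm
        rw [div_le_one (by positivity)]
        have : ((shlimd x₂ n : ℕ) : ℝ) ≤ n := by exact_mod_cast h1
        linarith
      have e1 : Vx b x₂ ≤ SKr b n (gm n) r₂ :=
        (shlim_Vx hb (shlim_ge x₂ n) g2').trans (hle (shlim_one hx₂0 n) h1 hr₂.1 hr₂.2.1)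
      have e2 := hge (shlim_one hx₁ n) (hd.trans h1) hx₁ (hx.trans hx1).le (shlim_lt hx₁ n) hr₁
      have e3 := hp0 hr₀
      have e4 := hP hr₀.1
      have e5 : (Vx b x₂ - (P0 b + 2 * b ^ 2 / ((n : ℝ) + 1))) / gm n (shlimd x₂ n) ^ 5 ≤
          (SKr b n (gm n) r₂ - SKr b n (gm n) r₀) / gm n (shlimd x₂ n) ^ 5 := by
        refine div_le_div_of_nonneg_right ?_ (by positivity)
        linarith
      have e6 : (SKr b n (gm n) r₁ - SKr b n (gm n) r₀) / gm n (shlimd x₁ n) ^ 5 ≤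
          (Vx b x₁ + 2 * b ^ 2 / ((n : ℝ) + 1) - P0 b) / gm n (shlimd x₁ n) ^ 5 := by
        refine div_le_div_of_nonneg_right ?_ (by positivity)
        linarith
      linarith
    · intro x hx hxc
      have hx1 : x < 1 := hxc.trans_le (min_le_right _ _)
      rw [div_le_iff₀ (by positivity)]
      linarith [hu x hx hx1.le]
    · intro x hx hxc
      have hx1 : x < 1 := hxc.trans_le (min_le_right _ _)
      have hxc₁ : x < c₁ := hxc.trans_le ((min_le_left _ _).trans (min_le_right _ _))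
      rw [le_div_iff₀ (by positivity)]
      have t := shlim_td hx
      have hL : Tendsto (fun n : ℕ => P0 b + c₁ * gm n (shlimd x n) ^ 5) atTop
          (𝓝 (P0 b + c₁ * x ^ 5)) := ((t.pow 5).const_mul c₁).const_add _
      have hR : Tendsto (fun n : ℕ => Vx b x + 2 * b ^ 2 / ((n : ℝ) + 1)) atTop (𝓝 (Vx b x)) := by
        have := hinv.const_add (Vx b x)
        rwa [add_zero] at this
      have h5 : P0 b + c₁ * x ^ 5 ≤ Vx b x := by
        refine le_of_tendsto_of_tendsto hL hR ?_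
        filter_upwards [shlim_le hx1, shlim_big hx C₁ 8, t.eventually (gt_mem_nhds hxc₁)]
          with n h1 h2 h3
        obtain ⟨r', hr', hq⟩ := hl n _ (shlim_one hx n) h1 h3.le h2
        obtain ⟨r, hr⟩ := exists_minD (n := n) (d := shlimd x n) hb0 h1
        have h4 := hq (fun l => r l / b ^ 2) ⟨by
          have := hr.1.1
          simp only [this, zero_div, le_refl], fun l hl' => by
          exact div_le_div_of_nonneg_right (hr.1.2.1.2 l hl') (by positivity)⟩ (by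
          rw [div_le_one (by positivity)]
          exact hr.1.2.2) (fun l hl' => by simp only [hr.2.1 l hl', zero_div])
        rw [gap2_SKr_eq hb0] at h4
        have h6 := hge (shlim_one hx n) h1 hx hx1.le (shlim_lt hx n) hr
        have h7 := hP hr'
        linarith
      linarith
  obtain ⟨A, hA, hlim⟩ := hex
  exact ⟨A, hc₁.trans_le hA, hlim⟩

theorem lim_A {b : ℝ} (hb : 1 < b) : ∃ A : ℝ, 0 < A ∧
    Tendsto (fun x => (Vx b x - P0 b) / x ^ 5) (𝓝[>] 0) (𝓝 A) :=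
  lim_A_of hb (iter hb) (fun h1 h2 _ h3 h4 => vx_le hb h1 h2 h3 h4)
    (fun h1 h2 _ h3 h4 h5 _ h6 => vx_ge hb h1 h2 h3 h4 h5 h6) (fun h => p0_ge hb h) (vx_up hb)

end Vale.Agent.P146.Sh
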