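import Vale.Agent.P146.Sh.ShUp0
import Vale.Agent.P146.Sh.ShLawB
import Vale.Agent.P146.Sh.ShBd

/-!
# P146, Sh: increasing the first exponent by one step, final form
-/

open MeasureTheory ProbabilityTheory Filter Topology Set

namespace Vale.Agent.P146.Sh

open Vale.Agent.P157.Par
open Vale.Agent.P146.Gap
open Vale.Agent.P146.Pw2
open Vale.Agent.P146.Lb
open Vale.Agent.P367.Cl

theorem up {b : ℝ} (hb : 1 < b) : ∃ c C : ℝ, 0 < c ∧ 1 ≤ C ∧ ∀ (n d : ℕ) (r : ℕ → ℝ),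
    1 ≤ d → d < n → IsMinD b n d r → gm n d ≤ c → C ≤ gm n d ^ 40 * (n + 1) →
      ∃ r', BPath b n r' ∧ (∀ l < d + 1, r' l = 0) ∧ SKr b n (gm n) r' ≤ SKr b n (gm n) r +
        1 / ((n : ℝ) + 1) * (9 / 16 * vv n r ^ 12 / kk n r ^ 6 * gm n d ^ 4 +
          C * (gm n d ^ 4 * √(gm n d))) :=
  up_of (lawB hb) (vk_bd b)

end Vale.Agent.P146.Sh
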