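import Vale.Agent.P146.Sh.ShTc1
import Vale.Agent.P146.Sh.ShDown
import Vale.Agent.P146.Sh.ShUp
import Vale.Agent.P146.Sh.ShGrid
import Vale.Agent.P146.Sh.ShLim

/-!
# P146, Sh: the constant near the critical temperature
-/

open MeasureTheory ProbabilityTheory Filter Topology Set

namespace Vale.Agent.P146.Sh

open Vale.Agent.P157.Par
open Vale.Agent.P146.Gap
open Vale.Agent.P146.Pw2
open Vale.Agent.P146.Lb
open Vale.Agent.P367.Cl

/-- The constant of `V(x) - V(0) ≈ A x⁵`, with its limit at the critical temperature. -/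
theorem lim_Lam : ∃ Λ : ℝ → ℝ, Tendsto Λ (𝓝[>] 1) (𝓝 (9 / 5120)) ∧ ∀ b : ℝ, 1 < b → 0 < Λ b ∧
    Tendsto (fun x => (Vx b x - P0 b) / x ^ 5) (𝓝[>] 0) (𝓝 (Λ b)) := by
  obtain ⟨C₀, -, h⟩ := tc_of (vk_bd 2)
  exact tc_Lam_of (C₀ := C₀) (fun b hb => lim_A hb) fun b hb hb2 A hA =>
    h b hb hb2 (lawA hb) (down hb) (up hb) (fun hd hdn _ hr h0 => vx_le hb hd hdn hr h0)
      (fun hd hdn _ hx hx1 hdx _ hr => vx_ge hb hd hdn hx hx1 hdx hr) A hA

end Vale.Agent.P146.Sh
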