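import Vale.Agent.P146.Sh.ShLdp0

/-!
# P146, Sh: the sharp upper tail, uniformly down to a power of `n` (moderate deviations)
-/

open MeasureTheory ProbabilityTheory Filter Topology Set

namespace Vale.Agent.P146.Sh

section asymU

variable {Ω : ℕ → Type*} [∀ n, MeasurableSpace (Ω n)] {μ : ∀ n, Measure (Ω n)}
  [∀ n, IsProbabilityMeasure (μ n)] {X : ∀ n, Ω n → ℝ}

theorem ldpu_pow {a : ℝ} (ha6 : 6 * a < 1) (M : ℝ) :
    ∃ N : ℕ, 1 ≤ N ∧ ∀ n : ℕ, N ≤ n → ∀ t : ℝ, (n : ℝ) ^ (-a) ≤ t → M ≤ n * t ^ 6 := by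
  have h1 : Tendsto (fun n : ℕ => (n : ℝ) ^ (1 - 6 * a)) atTop atTop :=
    (tendsto_rpow_atTop (by linarith)).comp tendsto_natCast_atTop_atTop
  obtain ⟨N, hN⟩ := eventually_atTop.1 (h1.eventually_ge_atTop M)
  refine ⟨max N 1, le_max_right _ _, fun n hn t ht => ?_⟩
  have hn1 : 1 ≤ n := (le_max_right _ _).trans hn
  have hn0 : (0 : ℝ) < n := by exact_mod_cast hn1
  have h2 := hN n ((le_max_left _ _).trans hn)
  have h3 : (n : ℝ) ^ (1 - 6 * a) = n * ((n : ℝ) ^ (-a)) ^ 6 := by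
    rw [← Real.rpow_natCast ((n : ℝ) ^ (-a)) 6, ← Real.rpow_mul hn0.le,
      show (1 : ℝ) - 6 * a = 1 + (-a) * ((6 : ℕ) : ℝ) by push_cast; ring,
      Real.rpow_add hn0, Real.rpow_one]
  have h4 : ((n : ℝ) ^ (-a)) ^ 6 ≤ t ^ 6 := pow_le_pow_left₀ (by positivity) ht 6
  calc M ≤ (n : ℝ) ^ (1 - 6 * a) := h2
    _ = n * ((n : ℝ) ^ (-a)) ^ 6 := h3
    _ ≤ n * t ^ 6 := mul_le_mul_of_nonneg_left h4 hn0.le

theorem ldp_t_u (hm : ∀ n, Measurable (X n))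
    (hX : ∀ (n : ℕ) (x : ℝ), Integrable (fun ω => Real.exp (x * X n ω)) (μ n)) {p A a : ℝ}
    (hA : 0 < A) (ha6 : 6 * a < 1)
    (H : ∀ ε : ℝ, 0 < ε → ∃ x₀ : ℝ, 0 < x₀ ∧ ∃ N : ℕ, ∀ n : ℕ, N ≤ n → ∀ x : ℝ,
      (n : ℝ) ^ (-a) ≤ x → x ≤ x₀ →
      |Real.log (∫ ω, Real.exp (x * X n ω) ∂(μ n)) - x * (n * p) - A * n * x ^ 6| ≤
        ε * n * x ^ 6) {ε : ℝ} (hε : 0 < ε) :
    ∃ t₀ : ℝ, 0 < t₀ ∧ ∃ N : ℕ, ∀ n : ℕ, N ≤ n → ∀ t : ℝ, 2 * (n : ℝ) ^ (-a) ≤ t → t ≤ t₀ →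
      |Real.log ((μ n).real {ω | n * (p + 6 * A * t ^ 5) ≤ X n ω}) + 5 * A * n * t ^ 6| ≤
        ε * n * t ^ 6 := by
  obtain ⟨δ, h0, h1, hδ⟩ : ∃ δ : ℝ, 0 < δ ∧ δ ≤ 1 / 10 ∧ 138 * A * δ ≤ ε / 4 := by
    refine ⟨min (1 / 10) (ε / (552 * A)), by positivity, min_le_left _ _, ?_⟩
    have h2 : min (1 / 10) (ε / (552 * A)) ≤ ε / (552 * A) := min_le_right _ _
    calc 138 * A * min (1 / 10) (ε / (552 * A)) ≤ 138 * A * (ε / (552 * A)) :=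
          mul_le_mul_of_nonneg_left h2 (by positivity)
      _ = ε / 4 := by field_simp; norm_num
  obtain ⟨e, he, he1, he2⟩ : ∃ e : ℝ, 0 < e ∧ 5 * e ≤ A * δ ^ 2 ∧ 2 * e ≤ ε / 4 := by
    refine ⟨min (A * δ ^ 2 / 5) (ε / 8), by positivity, ?_, ?_⟩
    · have := min_le_left (A * δ ^ 2 / 5) (ε / 8)
      linarith
    · have := min_le_right (A * δ ^ 2 / 5) (ε / 8)
      linarith
  obtain ⟨x₀, hx₀, N0, hH⟩ := H e he
  obtain ⟨N1, hN1, hM1⟩ := ldpu_pow ha6 (2 / (5 * A * δ ^ 2))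
  obtain ⟨N2, hN2, hM2⟩ := ldpu_pow ha6 (4 / ε)
  refine ⟨x₀ / 2, by positivity, max N0 (max N1 N2), fun n hn t htn ht0 => ?_⟩
  have m0 : N0 ≤ n := (le_max_left _ _).trans hn
  have m1 : N1 ≤ n := ((le_max_left _ _).trans (le_max_right _ _)).trans hn
  have m2 : N2 ≤ n := ((le_max_right _ _).trans (le_max_right _ _)).trans hn
  have hn0 : (0 : ℝ) < n := by exact_mod_cast hN1.trans m1
  have hna : 0 < (n : ℝ) ^ (-a) := Real.rpow_pos_of_pos hn0 _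
  have ht : 0 < t := by linarith
  have c1 : (n : ℝ) ^ (-a) ≤ (1 + δ) * t := by nlinarith
  have c2 : (1 + δ) * t ≤ x₀ := by nlinarith
  have c3 : (n : ℝ) ^ (-a) ≤ (1 + δ) * t - δ * ((1 + δ) * t) := by
    have e1 : (1 + δ) * t - δ * ((1 + δ) * t) = t * (1 - δ ^ 2) := by ring
    have e2 : 1 / 2 ≤ 1 - δ ^ 2 := by nlinarith
    rw [e1]
    nlinarith
  have c4 : (1 + δ) * t - δ * ((1 + δ) * t) ≤ x₀ := by nlinarith
  have c5 : (n : ℝ) ^ (-a) ≤ (1 + δ) * t + δ * ((1 + δ) * t) := by nlinarith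
  have c6 : (1 + δ) * t + δ * ((1 + δ) * t) ≤ x₀ := by
    have : (1 + δ) * t + δ * ((1 + δ) * t) = (1 + δ) ^ 2 * t := by ring
    rw [this]
    have h2 : (1 + δ) ^ 2 ≤ 2 := by nlinarith
    nlinarith
  have ct : (n : ℝ) ^ (-a) ≤ t := by linarith
  have k0 := hH n m0 t ct (by linarith)
  have k1 := hH n m0 _ c1 c2
  have k2 := hH n m0 _ c3 c4
  have k3 := hH n m0 _ c5 c6
  have k4 : 2 ≤ (n : ℝ) * (5 * A * δ ^ 2 * t ^ 6) := by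
    have h2 := hM1 n m1 t ct
    rw [div_le_iff₀ (by positivity)] at h2
    linarith
  have k5 : 1 ≤ (n : ℝ) * (ε / 4 * t ^ 6) := by
    have h2 := hM2 n m2 t ct
    rw [div_le_iff₀ hε] at h2
    linarith
  have hn' : (0 : ℝ) ≤ n := hn0.le
  obtain ⟨hP, hlow⟩ := ldp_low (hm n) (hX n) hA h0 h1 he.le he1 ht hn' k1 k2 k3 k4
  have hup := ldp_up (hX n) ht k0 hP
  have hnt : 0 ≤ (n : ℝ) * t ^ 6 := by positivity
  have d1 : (138 * A * δ + 2 * e) * ((n : ℝ) * t ^ 6) ≤ (ε / 4 + ε / 4) * (n * t ^ 6) :=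
    mul_le_mul_of_nonneg_right (add_le_add hδ he2) hnt
  have d2 : e * n * t ^ 6 ≤ ε * n * t ^ 6 := by
    have : e ≤ ε := by linarith
    rw [mul_assoc, mul_assoc]
    exact mul_le_mul_of_nonneg_right this hnt
  have d3 : ε * n * t ^ 6 = (ε / 4 + ε / 4) * (n * t ^ 6) + n * (ε / 4 * t ^ 6) +
      n * (ε / 4 * t ^ 6) := by ring
  rw [abs_le]
  constructor
  · rw [d3]
    linarith
  · linarith

/-- from moments to the tail, uniformly for `n ^ (-b) ≤ s ≤ s₀` -/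
theorem ldp_abs_u (hm : ∀ n, Measurable (X n))
    (hX : ∀ (n : ℕ) (x : ℝ), Integrable (fun ω => Real.exp (x * X n ω)) (μ n)) {p A a b : ℝ}
    (hA : 0 < A) (ha6 : 6 * a < 1) (hb : b < 5 * a)
    (H : ∀ ε : ℝ, 0 < ε → ∃ x₀ : ℝ, 0 < x₀ ∧ ∃ N : ℕ, ∀ n : ℕ, N ≤ n → ∀ x : ℝ,
      (n : ℝ) ^ (-a) ≤ x → x ≤ x₀ →
      |Real.log (∫ ω, Real.exp (x * X n ω) ∂(μ n)) - x * (n * p) - A * n * x ^ 6| ≤
        ε * n * x ^ 6) :
    ∀ ε : ℝ, 0 < ε → ∃ s₀ : ℝ, 0 < s₀ ∧ ∃ N : ℕ, ∀ n : ℕ, N ≤ n →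
    ∀ s : ℝ, (n : ℝ) ^ (-b) ≤ s → s ≤ s₀ →
      |Real.log ((μ n).real {ω | n * (p + s) ≤ X n ω}) +
        5 / 6 * (6 * A) ^ (-(1 / 5) : ℝ) * n * s ^ (6 / 5 : ℝ)| ≤ ε * n * s ^ (6 / 5 : ℝ) := by
  have hA6 : 0 < 6 * A := by positivity
  intro ε hε
  set κ : ℝ := (6 * A) ^ (6 / 5 : ℝ) with hκ
  have hκ0 : 0 < κ := by positivity
  obtain ⟨t₀, ht₀, N0, h⟩ := ldp_t_u hm hX hA ha6 H (show 0 < ε * κ by positivity)
  -- `2 n^(-a) ≤ (s/(6A))^(1/5)` for large `n`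
  have h1 : Tendsto (fun n : ℕ => (n : ℝ) ^ (5 * a - b)) atTop atTop :=
    (tendsto_rpow_atTop (by linarith)).comp tendsto_natCast_atTop_atTop
  obtain ⟨N1, hN1⟩ := eventually_atTop.1 (h1.eventually_ge_atTop (6 * A * 32))
  refine ⟨6 * A * t₀ ^ 5, by positivity, max N0 (max N1 1), fun n hn s hsn hs0 => ?_⟩
  have m0 : N0 ≤ n := (le_max_left _ _).trans hn
  have m1 : N1 ≤ n := ((le_max_left _ _).trans (le_max_right _ _)).trans hn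
  have m2 : 1 ≤ n := ((le_max_right _ _).trans (le_max_right _ _)).trans hn
  have hn0 : (0 : ℝ) < n := by exact_mod_cast m2
  have hs : 0 < s := (Real.rpow_pos_of_pos hn0 _).trans_le hsn
  obtain ⟨t, ht, hst, hst2⟩ : ∃ t : ℝ, 0 < t ∧ s = 6 * A * t ^ 5 ∧
      s ^ (6 / 5 : ℝ) = κ * t ^ 6 := by
    refine ⟨(s / (6 * A)) ^ (1 / 5 : ℝ), by positivity, ?_, ?_⟩
    · rw [← Real.rpow_natCast, ← Real.rpow_mul (by positivity)]
      norm_num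
      field_simp
    · rw [← Real.rpow_natCast, ← Real.rpow_mul (by positivity)]
      rw [show (1 / 5 : ℝ) * ((6 : ℕ) : ℝ) = 6 / 5 by norm_num, hκ,
        ← Real.mul_rpow (by positivity) (by positivity)]
      congr 1
      field_simp
  have htt : t ≤ t₀ := by
    rw [hst] at hs0
    exact le_of_pow_le_pow_left₀ (by norm_num) ht₀.le (le_of_mul_le_mul_left hs0 hA6)
  have htn : 2 * (n : ℝ) ^ (-a) ≤ t := by
    have q1 := hN1 n m1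
    have q2 : (2 * (n : ℝ) ^ (-a)) ^ 5 * (6 * A) ≤ t ^ 5 * (6 * A) := by
      calc (2 * (n : ℝ) ^ (-a)) ^ 5 * (6 * A) = (6 * A * 32) * ((n : ℝ) ^ (-a)) ^ 5 := by ring
        _ ≤ (n : ℝ) ^ (5 * a - b) * ((n : ℝ) ^ (-a)) ^ 5 :=
            mul_le_mul_of_nonneg_right q1 (by positivity)
        _ = (n : ℝ) ^ (-b) := by
            rw [← Real.rpow_natCast ((n : ℝ) ^ (-a)) 5, ← Real.rpow_mul hn0.le,
              ← Real.rpow_add hn0]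
            congr 1
            push_cast
            ring
        _ ≤ s := hsn
        _ = t ^ 5 * (6 * A) := by rw [hst]; ring
    exact le_of_pow_le_pow_left₀ (by norm_num) ht.le (le_of_mul_le_mul_right q2 hA6)
  have hfin := h n m0 t htn htt
  have eJ : 5 / 6 * (6 * A) ^ (-(1 / 5) : ℝ) * κ = 5 * A := by
    rw [hκ, mul_assoc, ← Real.rpow_add hA6]
    norm_num
    ring
  rw [hst2, hst]
  have e1 : 5 / 6 * (6 * A) ^ (-(1 / 5) : ℝ) * n * (κ * t ^ 6) = 5 * A * n * t ^ 6 := by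
    rw [← eJ]
    ring
  have e2 : ε * n * (κ * t ^ 6) = ε * κ * n * t ^ 6 := by ring
  rw [e1, e2]
  exact hfin

end asymU

end Vale.Agent.P146.Sh
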