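import Vale.Agent.P146.Sh.ShFin

/-!
# P146, Sh: the sharp constant of the exponential moments, uniformly down to a power of `n`
-/

open MeasureTheory ProbabilityTheory Filter Topology Set

namespace Vale.Agent.P146.Sh

open Vale.Agent.P157.Par
open Vale.Agent.P146.Gap
open Vale.Agent.P146.Pw2
open Vale.Agent.P146.Lb
open Vale.Agent.P367.Cl

/-- a point of the grid just below `x` -/
theorem shfu_pt {z x : ℝ} (hz : 2 ≤ z) (hx : 1 / z ^ 9 ≤ x) (hx2 : x ≤ 1 / 2) :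
    ∃ K d : ℕ, 1 ≤ d ∧ d ≤ K ∧ ((K : ℝ) + 1) ≤ z ^ 100 ∧ z ^ 100 / 2 ≤ (K : ℝ) + 1 ∧
      x * (1 - 2 / z) ≤ gm K d ∧ gm K d ≤ x := by
  have hz0 : 0 < z := by linarith
  have hz1 : 1 ≤ z := by linarith
  have hx0 : 0 < x := lt_of_lt_of_le (by positivity) hx
  obtain ⟨k, hk⟩ : ∃ k : ℕ, k = ⌊z ^ 100⌋₊ := ⟨_, rfl⟩
  have hZ2 : 2 ≤ z ^ 100 := hz.trans (le_self_pow₀ hz1 (by norm_num))
  have hk1 : (k : ℝ) ≤ z ^ 100 := by rw [hk]; exact Nat.floor_le (by positivity)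
  have hk2 : z ^ 100 / 2 ≤ k := by
    have := Nat.lt_floor_add_one (z ^ 100)
    rw [← hk] at this
    linarith
  have hk0 : 1 ≤ k := by
    have : (0 : ℝ) < k := by linarith
    exact_mod_cast this
  have hxk0 : z / 2 ≤ x * k := by
    have h1 : 1 / z ^ 9 * (z ^ 100 / 2) ≤ x * k :=
      mul_le_mul hx hk2 (by positivity) hx0.le
    have h2 : 1 / z ^ 9 * (z ^ 100 / 2) = z ^ 91 / 2 := by field_simp
    have h3 : z ≤ z ^ 91 := le_self_pow₀ hz1 (by norm_num)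
    rw [h2] at h1
    linarith
  have hxk : 1 ≤ x * k := by linarith
  obtain ⟨d, hd⟩ : ∃ d : ℕ, d = ⌊x * k⌋₊ := ⟨_, rfl⟩
  have hd1 : (d : ℝ) ≤ x * k := by rw [hd]; exact Nat.floor_le (by positivity)
  have hd0 : 1 ≤ d := by rw [hd]; exact Nat.le_floor (by exact_mod_cast hxk)
  have hd2 : x * k - 1 ≤ d := by
    have h1 := Nat.lt_floor_add_one (x * k)
    rw [← hd] at h1
    linarith
  have hk0' : (0 : ℝ) < k := by exact_mod_cast hk0
  have hdk : d < k := by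
    have : (d : ℝ) < k := by nlinarith
    exact_mod_cast this
  have hK : ((k - 1 : ℕ) : ℝ) + 1 = k := by
    rw [Nat.cast_sub hk0]; simp
  refine ⟨k - 1, d, hd0, by omega, by rw [hK]; exact hk1, by rw [hK]; exact hk2, ?_, ?_⟩
  · unfold gm
    rw [hK, le_div_iff₀ hk0']
    have h1 : 1 ≤ 2 / z * (x * k) := by
      have h2 : 2 / z * (z / 2) ≤ 2 / z * (x * k) :=
        mul_le_mul_of_nonneg_left hxk0 (by positivity)
      have h3 : 2 / z * (z / 2) = 1 := by field_simp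
      linarith
    have h2 : x * (1 - 2 / z) * k = x * k - 2 / z * (x * k) := by ring
    rw [h2]
    linarith
  · unfold gm
    rw [hK, div_le_iff₀ hk0']
    exact hd1

/-- **The sharp constant of the exponential moments, uniformly in `x ≥ n ^ (-1/200)`.** -/
theorem sharp_moment_u_of {β : ℝ} (hβ : 1 < β) {A : ℝ} (hA : 0 < A)
    (hlim : Tendsto (fun x => (Vx β x - P0 β) / x ^ 5) (𝓝[>] 0) (𝓝 A)) {ε : ℝ} (hε : 0 < ε) :
    ∃ x₀ : ℝ, 0 < x₀ ∧ ∃ N : ℕ, ∀ n ≥ N, ∀ x : ℝ, (n : ℝ) ^ (-(1 / 200) : ℝ) ≤ x → x ≤ x₀ →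
      |Real.log (∫ g, Real.exp (x * freeEnergy n β g) ∂(disorder n)) - x * (n * Sx.pv β) -
        A * n * x ^ 6| ≤ ε * n * x ^ 6 := by
  obtain ⟨C, hC, hdn⟩ := shfin_dn hβ
  have h1 : ∀ᶠ x in 𝓝[>] (0 : ℝ), |(Vx β x - P0 β) / x ^ 5 - A| < ε / 4 := by
    have := hlim.eventually (Metric.ball_mem_nhds A (by positivity : 0 < ε / 4))
    simpa [Real.dist_eq] using this
  obtain ⟨u, hu, h2⟩ := mem_nhdsGT_iff_exists_Ioo_subset.1 h1
  have hu0 : 0 < u := hu
  have hV : ∀ x, 0 < x → x < u → |Vx β x - P0 β - A * x ^ 5| ≤ ε / 4 * x ^ 5 := by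
    intro x hx hxu
    have h3 : |(Vx β x - P0 β) / x ^ 5 - A| < ε / 4 := h2 ⟨hx, hxu⟩
    have hx5 : 0 < x ^ 5 := by positivity
    have e : Vx β x - P0 β - A * x ^ 5 = ((Vx β x - P0 β) / x ^ 5 - A) * x ^ 5 := by
      field_simp
    rw [e, abs_mul, abs_of_pos hx5]
    exact mul_le_mul_of_nonneg_right h3.le hx5.le
  have ht : Tendsto (fun n : ℕ => (n : ℝ) ^ (1 / 1800 : ℝ)) atTop atTop :=
    (tendsto_rpow_atTop (by norm_num)).comp tendsto_natCast_atTop_atTop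
  obtain ⟨M, hM⟩ : ∃ M : ℝ, M = 2 + 40 * A / ε + 8 * C / ε := ⟨_, rfl⟩
  have hM1 : 0 ≤ 40 * A / ε := by positivity
  have hM2 : 0 ≤ 8 * C / ε := by positivity
  obtain ⟨N, hN⟩ := eventually_atTop.1 ((ht.eventually_ge_atTop M).and (eventually_ge_atTop 1))
  refine ⟨min (u / 2) (1 / 2), lt_min (by positivity) (by norm_num), N,
    fun n hn x hx hxx => ?_⟩
  obtain ⟨hzM, hn1⟩ := hN n hn
  have hn0 : (0 : ℝ) < n := by exact_mod_cast (by omega : 0 < n)
  obtain ⟨z, hz⟩ : ∃ z : ℝ, z = (n : ℝ) ^ (1 / 1800 : ℝ) := ⟨_, rfl⟩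
  rw [← hz] at hzM
  have hz2 : 2 ≤ z := by linarith
  have hz1 : 1 ≤ z := by linarith
  have hz0 : 0 < z := by linarith
  have hzn : z ^ 1800 = n := by
    rw [hz, ← Real.rpow_natCast, ← Real.rpow_mul hn0.le]
    norm_num
  have hz9 : (n : ℝ) ^ (-(1 / 200) : ℝ) = 1 / z ^ 9 := by
    have e : (1 / 1800 : ℝ) * ((9 : ℕ) : ℝ) = 1 / 200 := by norm_num
    rw [Real.rpow_neg hn0.le, hz, ← Real.rpow_natCast, ← Real.rpow_mul hn0.le, e,
      ← one_div ((n : ℝ) ^ (1 / 200 : ℝ))]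
  rw [hz9] at hx
  have hxu : x < u := by
    have := hxx.trans (min_le_left _ _)
    linarith
  have hx2 : x ≤ 1 / 2 := hxx.trans (min_le_right _ _)
  have hx0 : 0 < x := lt_of_lt_of_le (by positivity) hx
  have hx5 : 0 < x ^ 5 := by positivity
  have hup := shfin_up (by linarith : 0 < β) hn1 hx0 (by linarith)
  have hVx := abs_le.1 (hV x hx0 hxu)
  rw [shfin_pv, abs_le]
  constructor
  · -- the lower bound
    obtain ⟨K, d, hd1, hdK, hK1, hK2, hdx5, hdx⟩ := shfu_pt hz2 hx hx2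
    have hK0 : (0 : ℝ) < (K : ℝ) + 1 := by positivity
    have hpow : (K + 1) ^ 18 ≤ n := by
      have h1 : ((K : ℝ) + 1) ^ 18 ≤ (z ^ 100) ^ 18 := pow_le_pow_left₀ hK0.le hK1 18
      have h2 : (z ^ 100) ^ 18 = n := by rw [← hzn, ← pow_mul]
      rw [h2] at h1
      exact_mod_cast h1
    have h3 := hdn K d hd1 hdK n hpow
    have hd0 : 0 < gm K d := by
      have : (0 : ℝ) < d := by exact_mod_cast hd1
      unfold gm
      positivity
    obtain ⟨y, hy⟩ : ∃ y : ℝ, y = gm K d := ⟨_, rfl⟩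
    rw [← hy] at h3 hdx hd0 hdx5
    have hVy := (abs_le.1 (hV y hd0 (lt_of_le_of_lt hdx hxu))).1
    have hmono := Ld.cor_mono (μ := disorder n) (X := freeEnergy n β)
      (fun x => Sx.integrable_exp n β x) hd0 hdx
    have hy5 : y ^ 5 ≤ x ^ 5 := pow_le_pow_left₀ hd0.le hdx 5
    have hz21 : 2 / z ≤ 1 := by
      rw [div_le_one hz0]
      exact hz2
    have hA5 : A * x ^ 5 - ε / 4 * x ^ 5 ≤ A * y ^ 5 := by
      have h4 : (x * (1 - 2 / z)) ^ 5 ≤ y ^ 5 :=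
        pow_le_pow_left₀ (mul_nonneg hx0.le (by linarith)) hdx5 5
      have h5 : 1 + ((5 : ℕ) : ℝ) * (-(2 / z)) ≤ (1 + -(2 / z)) ^ 5 :=
        one_add_mul_le_pow (by linarith) 5
      have h6 : x ^ 5 * (1 - 10 / z) ≤ y ^ 5 := by
        refine le_trans ?_ h4
        rw [mul_pow]
        refine mul_le_mul_of_nonneg_left ?_ hx5.le
        have e1 : 1 + ((5 : ℕ) : ℝ) * (-(2 / z)) = 1 - 10 / z := by push_cast; ring
        have e2 : (1 + -(2 / z)) ^ 5 = (1 - 2 / z) ^ 5 := by ring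
        rw [e1, e2] at h5
        exact h5
      have h7 : A * (10 / z) ≤ ε / 4 := by
        have h8 : 40 * A / ε ≤ z := by linarith
        rw [div_le_iff₀ hε] at h8
        rw [mul_div_assoc', div_le_iff₀ hz0]
        linarith
      have h8 := mul_le_mul_of_nonneg_left h6 hA.le
      have h9 := mul_le_mul_of_nonneg_right h7 hx5.le
      have e : A * (x ^ 5 * (1 - 10 / z)) = A * x ^ 5 - A * (10 / z) * x ^ 5 := by ring
      rw [e] at h8
      linarith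
    have hε5 : ε / 4 * y ^ 5 ≤ ε / 4 * x ^ 5 := mul_le_mul_of_nonneg_left hy5 (by positivity)
    have herr : C * (n / √((K : ℝ) + 1)) ≤ ε / 4 * x ^ 5 * n := by
      have h2 : z ^ 50 / 2 ≤ √((K : ℝ) + 1) := by
        rw [Real.le_sqrt (by positivity) hK0.le]
        have h3 : (z ^ 50 / 2) ^ 2 = z ^ 100 / 4 := by ring
        have h4 : 0 < z ^ 100 := by positivity
        rw [h3]
        linarith
      have h3 : n / √((K : ℝ) + 1) ≤ n / (z ^ 50 / 2) :=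
        div_le_div_of_nonneg_left hn0.le (by positivity) h2
      have h4 : C * (n / (z ^ 50 / 2)) ≤ ε / 4 * (1 / z ^ 9) ^ 5 * n := by
        have h5 : ε / 4 * (1 / z ^ 9) ^ 5 * n = n / z ^ 50 * (ε / 4 * z ^ 5) := by
          field_simp
        have h6 : C * (n / (z ^ 50 / 2)) = n / z ^ 50 * (2 * C) := by
          field_simp
        rw [h5, h6]
        refine mul_le_mul_of_nonneg_left ?_ (by positivity)
        have h7 : z ≤ z ^ 5 := le_self_pow₀ hz1 (by norm_num)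
        have h8 : 8 * C / ε ≤ z ^ 5 := by linarith
        rw [div_le_iff₀ hε] at h8
        linarith
      have h5 : ε / 4 * (1 / z ^ 9) ^ 5 * n ≤ ε / 4 * x ^ 5 * n := by
        have h6 : (1 / z ^ 9) ^ 5 ≤ x ^ 5 := pow_le_pow_left₀ (by positivity) hx 5
        gcongr
      exact (mul_le_mul_of_nonneg_left h3 hC).trans (h4.trans h5)
    have h6 : (n : ℝ) * (Real.log 2 + P0 β) + n * (A * x ^ 5) - n * (3 / 4 * ε * x ^ 5) ≤
        1 / x * Real.log (∫ g, Real.exp (x * freeEnergy n β g) ∂(disorder n)) := by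
      have h7 : (n : ℝ) * (P0 β + A * x ^ 5 - ε / 2 * x ^ 5) ≤ n * Vx β y :=
        mul_le_mul_of_nonneg_left (by linarith) hn0.le
      have h8 : (n : ℝ) * (Real.log 2 + Vx β y) = n * Real.log 2 + n * Vx β y := by ring
      rw [h8] at h3
      nlinarith
    have h9 := mul_le_mul_of_nonneg_left h6 hx0.le
    have e1 : x * (1 / x * Real.log (∫ g, Real.exp (x * freeEnergy n β g) ∂(disorder n))) =
        Real.log (∫ g, Real.exp (x * freeEnergy n β g) ∂(disorder n)) := by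
      field_simp
    rw [e1] at h9
    have h10 : 0 ≤ ε * n * x ^ 6 := by positivity
    have e2 : x * (n * (Real.log 2 + P0 β) + n * (A * x ^ 5) - n * (3 / 4 * ε * x ^ 5)) =
        x * (n * (Real.log 2 + P0 β)) + A * n * x ^ 6 - 3 / 4 * (ε * n * x ^ 6) := by ring
    rw [e2] at h9
    linarith
  · -- the upper bound
    have h3 : x * n * (Real.log 2 + Vx β x) ≤
        x * n * (Real.log 2 + (P0 β + A * x ^ 5 + ε / 4 * x ^ 5)) :=
      mul_le_mul_of_nonneg_left (by linarith) (by positivity)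
    have h10 : 0 ≤ ε * n * x ^ 6 := by positivity
    have e2 : x * n * (Real.log 2 + (P0 β + A * x ^ 5 + ε / 4 * x ^ 5)) =
        x * (n * (Real.log 2 + P0 β)) + A * n * x ^ 6 + 1 / 4 * (ε * n * x ^ 6) := by ring
    rw [e2] at h3
    linarith

/-- **The sharp constant of the exponential moments, uniformly in `x ≥ n ^ (-1/200)`.** -/
theorem sharp_moment_u {β : ℝ} (hβ : 1 < β) : ∃ A : ℝ, 0 < A ∧ ∀ ε : ℝ, 0 < ε → ∃ x₀ : ℝ,
    0 < x₀ ∧ ∃ N : ℕ, ∀ n ≥ N, ∀ x : ℝ, (n : ℝ) ^ (-(1 / 200) : ℝ) ≤ x → x ≤ x₀ →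
      |Real.log (∫ g, Real.exp (x * freeEnergy n β g) ∂(disorder n)) - x * (n * Sx.pv β) -
        A * n * x ^ 6| ≤ ε * n * x ^ 6 := by
  obtain ⟨A, hA, hlim⟩ := lim_A hβ
  exact ⟨A, hA, fun ε hε => sharp_moment_u_of hβ hA hlim hε⟩

end Vale.Agent.P146.Sh
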