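import Vale.Agent.P146.Ld.Cor1
import Vale.Agent.P146.Sh.ShLdpU0

/-!
# P146, Sh: the sharp upper tail of the free energy, uniformly for `n ^ (-1/50) ≤ s ≤ s₀`
-/

open MeasureTheory ProbabilityTheory Filter Topology Set

namespace Vale.Agent.P146.Sh

theorem sharp_ldp_u_of {β A : ℝ} (hA : 0 < A)
    (H : ∀ ε : ℝ, 0 < ε → ∃ x₀ : ℝ, 0 < x₀ ∧ ∃ N : ℕ, ∀ n : ℕ, N ≤ n → ∀ x : ℝ,
      (n : ℝ) ^ (-(1 / 200) : ℝ) ≤ x → x ≤ x₀ →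
      |Real.log (∫ g, Real.exp (x * freeEnergy n β g) ∂(disorder n)) - x * (n * Sx.pv β) -
        A * n * x ^ 6| ≤ ε * n * x ^ 6) :
    ∀ ε : ℝ, 0 < ε → ∃ s₀ : ℝ, 0 < s₀ ∧ ∃ N : ℕ, ∀ n : ℕ, N ≤ n → ∀ s : ℝ,
      (n : ℝ) ^ (-(1 / 50) : ℝ) ≤ s → s ≤ s₀ →
      |Real.log ((disorder n).real {g | n * (Sx.pv β + s) ≤ freeEnergy n β g}) +
        5 / 6 * (6 * A) ^ (-(1 / 5) : ℝ) * n * s ^ (6 / 5 : ℝ)| ≤
          ε * n * s ^ (6 / 5 : ℝ) :=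
  ldp_abs_u (μ := fun n => disorder n) (X := fun n g => freeEnergy n β g) (a := 1 / 200)
    (b := 1 / 50) (fun _ => Ub.measurable_free β) (fun n x => Sx.integrable_exp n β x) hA
    (by norm_num) (by norm_num) H

end Vale.Agent.P146.Sh
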