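import Vale.Agent.P146.Sh.ShCompB0

/-!
# P146, Sh: the competitor (second version)

`ρ l = c g l`, `g` between `(1 - θ) min K l` and `min K ((1 + θ) l)`, `c = 1 / (2 a (n + 1))`,
`K = R / c`, `θ = O(√x)`.
-/

open MeasureTheory ProbabilityTheory Filter Topology Set

namespace Vale.Agent.P146.Sh

open Vale.Agent.P157.Par
open Vale.Agent.P146.Gap
open Vale.Agent.P146.Pw2
open Vale.Agent.P146.Lb
open Vale.Agent.P367.Cl

theorem compB_aw (n L : ℕ) {k : ℝ} (hk : 0 ≤ k) (K U : ℝ) (g : ℕ → ℝ) :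
    Aw n L (k * K) (fun l => k * g l) (k * U) =
      k / ((n : ℝ) + 1) * ∑ j ∈ Finset.range L, (K - max U (g j)) := by
  rw [Aw, Finset.mul_sum]
  refine Finset.sum_congr rfl fun j _ => ?_
  rw [← mul_max_of_nonneg _ _ hk]
  ring

theorem compB_err {K U F T : ℝ} {L : ℕ} {g : ℕ → ℝ} (hU : 0 ≤ U) (hUK : U ≤ K) (hF : 1 ≤ F)
    (hL : K - F ≤ L) (hg : ∀ l : ℕ, |g l - min K (l : ℝ)| ≤ T) :
    |(∑ j ∈ Finset.range L, (K - max U (g j))) - (K ^ 2 - U ^ 2) / 2| ≤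
      L * T + (F ^ 2 + L / 2) := by
  have h1 := compB_base hU hUK hF hL
  have h2 : |(∑ j ∈ Finset.range L, (K - max U (g j))) -
      ∑ j ∈ Finset.range L, (K - max U (min K (j : ℝ)))| ≤ L * T := by
    rw [← Finset.sum_sub_distrib]
    refine (Finset.abs_sum_le_sum_abs _ _).trans ?_
    have h3 : ∀ j ∈ Finset.range L,
        |K - max U (g j) - (K - max U (min K (j : ℝ)))| ≤ T := by
      intro j _
      rw [show K - max U (g j) - (K - max U (min K (j : ℝ))) =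
        -(max U (g j) - max U (min K (j : ℝ))) by ring, abs_neg]
      refine (abs_max_sub_max_le_max U (g j) U (min K (j : ℝ))).trans ?_
      rw [sub_self, abs_zero]
      exact max_le ((abs_nonneg _).trans (hg j)) (hg j)
    refine (Finset.sum_le_card_nsmul _ _ _ h3).trans ?_
    rw [Finset.card_range, nsmul_eq_mul]
  calc _ ≤ |(∑ j ∈ Finset.range L, (K - max U (g j))) -
      ∑ j ∈ Finset.range L, (K - max U (min K (j : ℝ)))| +
      |(∑ j ∈ Finset.range L, (K - max U (min K (j : ℝ)))) - (K ^ 2 - U ^ 2) / 2| :=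
        abs_sub_le _ _ _
    _ ≤ _ := add_le_add h2 h1

/-- the arithmetic of the error -/
theorem compB_arith {D N a R x s Lr θ F k : ℝ} (hD : 1 ≤ D) (hN : 0 < N) (ha : 1 / D ≤ a)
    (hx : 0 < x) (hs : 0 < s) (hsx : s ^ 2 = x) (hDs : 200 * (D * s) ≤ 1)
    (hN2 : 1 / N ≤ x ^ 2) (hk : k = 1 / (2 * a * N)) (hLr0 : 0 ≤ Lr) (hLr : Lr ≤ 2 * x * N)
    (hθ : θ = 30 * (D * s)) (hF : F = N * (D * (x * s))) (hR : a * R ≤ x) (hR0 : 0 ≤ R) :
    k / N * (Lr * (θ * (R / k)) + ((3 * F) ^ 2 + Lr / 2)) ≤ 70 * D ^ 3 * (x ^ 2 * s) := by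
  have hD0 : 0 < D := by linarith
  have ha0 : 0 < a := lt_of_lt_of_le (by positivity) ha
  have hk0 : 0 < k := by rw [hk]; positivity
  have haD : 1 / a ≤ D := by
    rw [div_le_iff₀ ha0]
    rw [div_le_iff₀ hD0] at ha
    linarith
  have hRD : R ≤ D * x := by
    have h1 : R = 1 / a * (a * R) := by field_simp
    rw [h1]
    exact mul_le_mul haD hR (by positivity) hD0.le
  have hs1 : s ≤ 1 := by nlinarith
  have hx1 : x ≤ s := by nlinarith
  have e : k / N * (Lr * (θ * (R / k)) + ((3 * F) ^ 2 + Lr / 2)) =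
      Lr / N * (θ * R) + 9 / 2 * (1 / a) * (D ^ 2 * (x ^ 2 * s ^ 2)) +
        1 / 4 * (1 / a) * (Lr / N * (1 / N)) := by
    rw [hF]
    have h1 : k / N * (Lr * (θ * (R / k))) = Lr / N * (θ * R) := by
      field_simp
    rw [mul_add, h1, hk]
    field_simp
    ring
  have hLN : Lr / N ≤ 2 * x := by rwa [div_le_iff₀ hN]
  have hLN0 : 0 ≤ Lr / N := div_nonneg hLr0 hN.le
  have t1 : Lr / N * (θ * R) ≤ 60 * D ^ 2 * (x ^ 2 * s) := by
    calc Lr / N * (θ * R) ≤ 2 * x * (30 * (D * s) * (D * x)) := by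
          rw [hθ]
          gcongr
      _ = _ := by ring
  have t2 : 9 / 2 * (1 / a) * (D ^ 2 * (x ^ 2 * s ^ 2)) ≤ 9 / 2 * D ^ 3 * (x ^ 2 * s) := by
    have h1 : s ^ 2 ≤ s := by nlinarith
    calc 9 / 2 * (1 / a) * (D ^ 2 * (x ^ 2 * s ^ 2)) ≤ 9 / 2 * D * (D ^ 2 * (x ^ 2 * s)) := by
          gcongr
      _ = _ := by ring
  have t3 : 1 / 4 * (1 / a) * (Lr / N * (1 / N)) ≤ D * (x ^ 2 * s) := by
    calc 1 / 4 * (1 / a) * (Lr / N * (1 / N)) ≤ 1 / 4 * D * (2 * x * x ^ 2) := by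
          gcongr
      _ = 1 / 2 * (D * (x ^ 2 * x)) := by ring
      _ ≤ 1 / 2 * (D * (x ^ 2 * s)) := by gcongr
      _ ≤ _ := by
        have : 0 ≤ D * (x ^ 2 * s) := by positivity
        linarith
  have hD3 : D ^ 2 ≤ D ^ 3 := pow_le_pow_right₀ hD (by norm_num)
  have hD1 : D ≤ D ^ 3 := by
    calc D = D ^ 1 := (pow_one D).symm
      _ ≤ D ^ 3 := pow_le_pow_right₀ hD (by norm_num)
  have hp : 0 ≤ x ^ 2 * s := by positivity
  have h1 := mul_le_mul_of_nonneg_right hD3 hp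
  have h2 := mul_le_mul_of_nonneg_right hD1 hp
  have h3 : 0 ≤ D ^ 3 * (x ^ 2 * s) := by positivity
  rw [e]
  linarith

theorem comp {D : ℝ} (hD : 1 ≤ D) : ∃ c C : ℝ, 0 < c ∧ 1 ≤ C ∧ ∀ (n d L : ℕ) (R a x : ℝ),
    x = (d : ℝ) / ((n : ℝ) + 1) → 1 ≤ d → d < L → L ≤ 2 * d → 0 < R → 1 / D ≤ a → a ≤ D →
    x ≤ c → C ≤ x ^ 40 * ((n : ℝ) + 1) → |a * R - 3 / 4 * x| ≤ D * (x * √x) →
    3 / 2 * x - D * (x * √x) ≤ (L : ℝ) / ((n : ℝ) + 1) →
    ∃ ρ : ℕ → ℝ, ρ 0 = 0 ∧ (∀ l, l + 1 < L → ρ l ≤ ρ (l + 1)) ∧ (∀ l < L, 0 ≤ ρ l ∧ ρ l ≤ R) ∧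
      ∑ l ∈ Finset.range L, ρ l ^ 2 = ((L : ℝ) - d) * R ^ 2 ∧
      ∀ u ∈ Icc 0 R, |Aw n L R ρ u - a * (R ^ 2 - u ^ 2)| ≤ C * (x ^ 2 * √x) := by
  have hD0 : 0 < D := by linarith
  have hD3 : 1 ≤ D ^ 3 := one_le_pow₀ hD
  refine ⟨1 / (40000 * D ^ 2), 70 * D ^ 3, by positivity, by linarith, ?_⟩
  intro n d L R a x hx hd hdL hL2 hR ha1 ha2 hxc hC haR hLx
  have hN : 0 < (n : ℝ) + 1 := by positivity
  obtain ⟨N, hNe⟩ : ∃ N : ℝ, N = (n : ℝ) + 1 := ⟨_, rfl⟩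
  obtain ⟨s, hse⟩ : ∃ s : ℝ, s = √x := ⟨_, rfl⟩
  rw [← hse] at haR hLx ⊢
  rw [← hNe] at hx hC hLx hN
  have hd0 : (0 : ℝ) < d := by exact_mod_cast hd
  have hx0 : 0 < x := by rw [hx]; positivity
  have hs0 : 0 < s := by rw [hse]; exact Real.sqrt_pos.2 hx0
  have hsx : s ^ 2 = x := by rw [hse]; exact Real.sq_sqrt hx0.le
  have hdx : (d : ℝ) = x * N := by rw [hx]; field_simp
  have hDs : 200 * (D * s) ≤ 1 := by
    have h1 : (200 * (D * s)) ^ 2 ≤ 1 := by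
      calc (200 * (D * s)) ^ 2 = 40000 * D ^ 2 * s ^ 2 := by ring
        _ ≤ 40000 * D ^ 2 * (1 / (40000 * D ^ 2)) := by
          rw [hsx]
          exact mul_le_mul_of_nonneg_left hxc (by positivity)
        _ = 1 := by field_simp
    exact (sq_le_one_iff₀ (by positivity)).1 h1
  have hs1 : s ≤ 1 := by nlinarith
  have hx1 : x ≤ 1 := by nlinarith
  have ha0 : 0 < a := lt_of_lt_of_le (by positivity) ha1
  have hxN : 70 ≤ x ^ 40 * N := by linarith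
  have hx2N : 70 ≤ x ^ 2 * N :=
    hxN.trans (mul_le_mul_of_nonneg_right (pow_le_pow_of_le_one hx0.le hx1 (by norm_num)) hN.le)
  have hx1N : 70 ≤ x * N := by
    refine hx2N.trans (mul_le_mul_of_nonneg_right ?_ hN.le)
    nlinarith
  have hxsN : 70 ≤ x * s * N := by
    refine hx2N.trans (mul_le_mul_of_nonneg_right ?_ hN.le)
    nlinarith
  have hd6 : 6 ≤ d := by
    have : (6 : ℝ) ≤ d := by linarith
    exact_mod_cast this
  obtain ⟨F, hF⟩ : ∃ F : ℝ, F = N * (D * (x * s)) := ⟨_, rfl⟩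
  have hF1 : 1 ≤ F := by
    have h1 : 1 * (x * s * N) ≤ D * (x * s * N) := mul_le_mul_of_nonneg_right hD (by positivity)
    rw [hF]
    linarith
  have hFd : 200 * F ≤ d := by
    have h1 := mul_le_mul_of_nonneg_right hDs (show 0 ≤ x * N by positivity)
    rw [hF, hdx]
    linarith
  have hLF : 3 / 2 * (d : ℝ) - F ≤ L := by
    rw [le_div_iff₀ hN] at hLx
    rw [hF, hdx]
    linarith
  obtain ⟨k, hk⟩ : ∃ k : ℝ, k = 1 / (2 * a * N) := ⟨_, rfl⟩
  have hk0 : 0 < k := by rw [hk]; positivity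
  have hRk : R / k = 2 * a * N * R := by
    rw [hk]
    field_simp
  have hK : |R / k - 3 / 2 * (d : ℝ)| ≤ 2 * F := by
    rw [hRk, hdx, hF, show 2 * a * N * R - 3 / 2 * (x * N) = 2 * N * (a * R - 3 / 4 * x) by ring,
      abs_mul, abs_of_pos (show 0 < 2 * N by positivity)]
    calc 2 * N * |a * R - 3 / 4 * x| ≤ 2 * N * (D * (x * s)) :=
          mul_le_mul_of_nonneg_left haR (by positivity)
      _ = _ := by ring
  have hθd : 30 * (D * s) * (d : ℝ) = 30 * F := by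
    rw [hF, hdx]
    ring
  obtain ⟨g, g0, g1, g2, g3, g4⟩ := compB_scaled (θ := 30 * (D * s)) hd6 hF1 hFd hdL hLF hK hθd
    (by linarith) (by positivity)
  have hkR : k * (R / k) = R := by field_simp
  have hLr : (L : ℝ) ≤ 2 * x * N := by
    have h1 : (L : ℝ) ≤ 2 * d := by exact_mod_cast hL2
    linarith
  have hR1 : a * R ≤ x := by
    have h1 := (abs_le.1 haR).2
    have h2 := mul_le_mul_of_nonneg_right hDs hx0.le
    linarith
  refine ⟨fun l => k * g l, ?_, fun l _ => mul_le_mul_of_nonneg_left (g1 l) hk0.le,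
    fun l _ => ⟨mul_nonneg hk0.le (g2 l).1, ?_⟩, ?_, ?_⟩
  · simp only [g0, mul_zero]
  · calc k * g l ≤ k * (R / k) := mul_le_mul_of_nonneg_left (g2 l).2 hk0.le
      _ = R := hkR
  · calc ∑ l ∈ Finset.range L, (k * g l) ^ 2 = k ^ 2 * ∑ l ∈ Finset.range L, g l ^ 2 := by
          rw [Finset.mul_sum]
          exact Finset.sum_congr rfl fun l _ => by ring
      _ = ((L : ℝ) - d) * (k * (R / k)) ^ 2 := by rw [g3]; ring
      _ = _ := by rw [hkR]
  · rintro u ⟨hu0, huR⟩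
    have hkU : k * (u / k) = u := by field_simp
    have hUK : u / k ≤ R / k := div_le_div_of_nonneg_right huR hk0.le
    have hU0 : 0 ≤ u / k := div_nonneg hu0 hk0.le
    have h1 := compB_aw n L hk0.le (R / k) (u / k) g
    rw [hkR, hkU, ← hNe] at h1
    have h2 : a * (R ^ 2 - u ^ 2) = k / N * (((R / k) ^ 2 - (u / k) ^ 2) / 2) := by
      have h3 : a * k = 1 / (2 * N) := by
        rw [hk]
        field_simp
      calc a * (R ^ 2 - u ^ 2) = a * ((k * (R / k)) ^ 2 - (k * (u / k)) ^ 2) := by rw [hkR, hkU]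
        _ = a * k * (k * ((R / k) ^ 2 - (u / k) ^ 2)) := by ring
        _ = _ := by rw [h3]; field_simp
    rw [h1, h2, ← mul_sub, abs_mul, abs_of_pos (show 0 < k / N by positivity)]
    have hb := (abs_le.1 hK).2
    refine (mul_le_mul_of_nonneg_left (compB_err (F := 3 * F) hU0 hUK (by linarith)
      (by linarith) g4) (show 0 ≤ k / N by positivity)).trans ?_
    refine compB_arith hD hN ha1 hx0 hs0 hsx hDs ?_ hk (Nat.cast_nonneg L) hLr rfl hF hR1 hR.le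
    rw [div_le_iff₀ hN]
    linarith

end Vale.Agent.P146.Sh
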