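import Vale.Agent.P146.Sh.ShDefs

/-!
# P146, Sh: the competitor (second version), scaled form

`ρ l = c g l`, `g` between `(1 - θ) min K l` and `min K ((1 + θ) l)`, `c = 1 / (2 a (n + 1))`,
`K = R / c`, `θ = O(√x)`.
-/

open MeasureTheory ProbabilityTheory Filter Topology Set

namespace Vale.Agent.P146.Sh

open Vale.Agent.P157.Par
open Vale.Agent.P146.Gap
open Vale.Agent.P146.Pw2
open Vale.Agent.P146.Lb
open Vale.Agent.P367.Cl

theorem compB_sum1 (k : ℕ) : ∑ j ∈ Finset.range k, (j : ℝ) = (k : ℝ) * (k - 1) / 2 := by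
  induction k with
  | zero => simp
  | succ k ih =>
    rw [Finset.sum_range_succ, ih]
    push_cast
    ring

theorem compB_sum2 (k : ℕ) :
    ∑ j ∈ Finset.range k, (j : ℝ) ^ 2 = (k : ℝ) * (k - 1) * (2 * k - 1) / 6 := by
  induction k with
  | zero => simp
  | succ k ih =>
    rw [Finset.sum_range_succ, ih]
    push_cast
    ring

/-- the number of levels below `U` -/
theorem compB_cut {L : ℕ} (U : ℝ) (hU : 0 ≤ U) {F : ℝ} (hF : 1 ≤ F) (hL : U - F ≤ L) :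
    ∃ i : ℕ, i ≤ L ∧ (∀ j < i, (j : ℝ) < U) ∧ (∀ j, i ≤ j → j < L → U ≤ j) ∧
      (i : ℝ) ≤ U + 1 ∧ U - F ≤ i := by
  refine ⟨min L ⌈U⌉₊, min_le_left _ _, fun j hj => Nat.lt_ceil.1 (hj.trans_le (min_le_right _ _)),
    fun j hj hjL => ?_, ?_, ?_⟩
  · by_contra h
    rw [not_le] at h
    have h1 := Nat.lt_ceil.2 h
    have h2 : j < min L ⌈U⌉₊ := lt_min hjL h1
    omega
  · exact (Nat.cast_le.2 (min_le_right _ _)).trans (Nat.ceil_lt_add_one hU).le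
  · rw [Nat.cast_min]
    exact le_min hL (by linarith [Nat.le_ceil U])

theorem compB_base {K U F : ℝ} {L : ℕ} (hU : 0 ≤ U) (hUK : U ≤ K) (hF : 1 ≤ F)
    (hL : K - F ≤ L) :
    |(∑ j ∈ Finset.range L, (K - max U (min K (j : ℝ)))) - (K ^ 2 - U ^ 2) / 2| ≤
      F ^ 2 + L / 2 := by
  obtain ⟨k, hkL, k1, k2, k3, k4⟩ := compB_cut (L := L) K (hU.trans hUK) hF hL
  obtain ⟨i, hiL, i1, i2, i3, i4⟩ := compB_cut (L := L) U hU hF (by linarith)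
  have hik : i ≤ k := by
    by_contra h
    rw [not_le] at h
    have h1 := i1 k h
    have h2 := k2 k le_rfl (by omega)
    linarith
  have hsum : ∑ j ∈ Finset.range L, (K - max U (min K (j : ℝ))) = (i : ℝ) * (K - U) +
      (∑ j ∈ Finset.range k, (K - (j : ℝ)) - ∑ j ∈ Finset.range i, (K - (j : ℝ))) := by
    rw [← Finset.sum_range_add_sum_Ico _ hkL, ← Finset.sum_range_add_sum_Ico _ hik]
    have e1 : ∑ j ∈ Finset.range i, (K - max U (min K (j : ℝ))) = (i : ℝ) * (K - U) := by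
      rw [Finset.sum_congr rfl (g := fun _ => K - U)]
      · rw [Finset.sum_const, Finset.card_range, nsmul_eq_mul]
      · intro j hj
        have := i1 j (Finset.mem_range.1 hj)
        rw [min_eq_right (by linarith), max_eq_left (by linarith)]
    have e2 : ∑ j ∈ Finset.Ico i k, (K - max U (min K (j : ℝ))) =
        ∑ j ∈ Finset.range k, (K - (j : ℝ)) - ∑ j ∈ Finset.range i, (K - (j : ℝ)) := by
      rw [← Finset.sum_range_add_sum_Ico (fun j : ℕ => K - (j : ℝ)) hik, add_sub_cancel_left]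
      refine Finset.sum_congr rfl fun j hj => ?_
      rw [Finset.mem_Ico] at hj
      have h1 := i2 j hj.1 (by omega)
      have h2 := k1 j hj.2
      rw [min_eq_right h2.le, max_eq_right h1]
    have e3 : ∑ j ∈ Finset.Ico k L, (K - max U (min K (j : ℝ))) = 0 := by
      refine Finset.sum_eq_zero fun j hj => ?_
      rw [Finset.mem_Ico] at hj
      have h1 := k2 j hj.1 hj.2
      rw [min_eq_left h1, max_eq_right hUK, sub_self]
    rw [e1, e2, e3, add_zero]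
  have hs1 : ∀ k : ℕ, ∑ j ∈ Finset.range k, (K - (j : ℝ)) = k * K - (k : ℝ) * (k - 1) / 2 := by
    intro k
    rw [Finset.sum_sub_distrib, compB_sum1]
    simp
  have e : (∑ j ∈ Finset.range L, (K - max U (min K (j : ℝ)))) - (K ^ 2 - U ^ 2) / 2 =
      -((k : ℝ) - K) ^ 2 / 2 + ((i : ℝ) - U) ^ 2 / 2 + ((k : ℝ) - i) / 2 := by
    rw [hsum, hs1, hs1]
    ring
  have h1 : ((k : ℝ) - K) ^ 2 ≤ F ^ 2 := sq_le_sq' (by linarith) (by linarith)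
  have h2 : ((i : ℝ) - U) ^ 2 ≤ F ^ 2 := sq_le_sq' (by linarith) (by linarith)
  have h3 : (i : ℝ) ≤ k := Nat.cast_le.2 hik
  have h4 : (k : ℝ) ≤ L := Nat.cast_le.2 hkL
  have h5 : (0 : ℝ) ≤ i := Nat.cast_nonneg i
  have h6 := sq_nonneg ((k : ℝ) - K)
  have h7 := sq_nonneg ((i : ℝ) - U)
  rw [e, abs_le]
  constructor <;> linarith

theorem compB_sq {K F : ℝ} {L : ℕ} (hF : 1 ≤ F) (hK : 10 * F ≤ K) (hL : K - F ≤ L) :
    |(∑ j ∈ Finset.range L, (min K (j : ℝ)) ^ 2) - (L - 2 * K / 3) * K ^ 2| ≤ F * K ^ 2 := by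
  obtain ⟨k, hkL, k1, k2, k3, k4⟩ := compB_cut (L := L) K (by linarith) hF hL
  have hsum : ∑ j ∈ Finset.range L, (min K (j : ℝ)) ^ 2 =
      (k : ℝ) * (k - 1) * (2 * k - 1) / 6 + (L - k) * K ^ 2 := by
    rw [← Finset.sum_range_add_sum_Ico _ hkL, ← compB_sum2]
    congr 1
    · refine Finset.sum_congr rfl fun j hj => ?_
      have := k1 j (Finset.mem_range.1 hj)
      rw [min_eq_right this.le]
    · rw [Finset.sum_congr rfl (g := fun _ => K ^ 2)]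
      · rw [Finset.sum_const, Nat.card_Ico, nsmul_eq_mul, Nat.cast_sub hkL]
      · intro j hj
        rw [Finset.mem_Ico] at hj
        rw [min_eq_left (k2 j hj.1 hj.2)]
  obtain ⟨e, he⟩ : ∃ e : ℝ, e = (k : ℝ) - K := ⟨_, rfl⟩
  have hke : (k : ℝ) = K + e := by linarith
  have e1 : (∑ j ∈ Finset.range L, (min K (j : ℝ)) ^ 2) - (L - 2 * K / 3) * K ^ 2 =
      K * e ^ 2 + e ^ 3 / 3 - (K + e) ^ 2 / 2 + (K + e) / 6 := by
    rw [hsum, hke]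
    ring
  have hK0 : 0 < K := by linarith
  have he1 : -F ≤ e := by linarith
  have he2 : e ≤ 1 := by linarith
  have hea : |e| ≤ F := abs_le.2 ⟨he1, by linarith⟩
  have h1 : K * e ^ 2 ≤ K * F ^ 2 := by
    have : e ^ 2 ≤ F ^ 2 := sq_le_sq' he1 (by linarith)
    exact mul_le_mul_of_nonneg_left this hK0.le
  have h2 : |e ^ 3| ≤ F ^ 3 := by
    rw [abs_pow]
    exact pow_le_pow_left₀ (abs_nonneg _) hea 3
  have h3 : K * F ^ 2 ≤ F * K ^ 2 / 10 := by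
    have : F * K * (K - 10 * F) ≥ 0 := by
      have := sub_nonneg.2 hK
      positivity
    nlinarith
  have h4 : F ^ 3 ≤ F * K ^ 2 / 100 := by
    have h5 : (10 * F) ^ 2 ≤ K ^ 2 := pow_le_pow_left₀ (by linarith) hK 2
    have h6 := mul_le_mul_of_nonneg_left h5 (show 0 ≤ F by linarith)
    nlinarith
  have h5 : (K + e) ^ 2 ≤ (K + 1) ^ 2 := pow_le_pow_left₀ (by linarith) (by linarith) 2
  have h6 : (K + 1) ^ 2 ≤ 121 / 100 * K ^ 2 := by nlinarith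
  have h7 : K ^ 2 ≤ F * K ^ 2 := le_mul_of_one_le_left (by positivity) hF
  have h8 : K + e ≤ K ^ 2 := by nlinarith
  have h9 : 0 ≤ K * e ^ 2 := by positivity
  have h10 := abs_le.1 h2
  have h11 := sq_nonneg (K + e)
  rw [e1, abs_le]
  constructor <;> linarith

theorem compB_mix {A1 A2 T : ℝ} (h1 : A1 ≤ T) (h2 : T ≤ A2) :
    ∃ τ : ℝ, 0 ≤ τ ∧ τ ≤ 1 ∧ (1 - τ) * A1 + τ * A2 = T := by
  rcases (h1.trans h2).eq_or_lt with h | h
  · exact ⟨0, le_rfl, zero_le_one, by linarith⟩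
  · have h3 : 0 < A2 - A1 := by linarith
    refine ⟨(T - A1) / (A2 - A1), div_nonneg (by linarith) h3.le, (div_le_one h3).2 (by linarith),
      ?_⟩
    field_simp
    ring

theorem compB_bd {d L : ℕ} {K F : ℝ} (hF : 1 ≤ F) (hFd : 200 * F ≤ d)
    (hL : 3 / 2 * d - F ≤ L) (hK : |K - 3 / 2 * d| ≤ 2 * F) :
    (∑ j ∈ Finset.range L, (min K (j : ℝ)) ^ 2) ≤ ((L : ℝ) - d + 5 * F) * K ^ 2 ∧
      ((L : ℝ) - d - 5 * F) * K ^ 2 ≤ ∑ j ∈ Finset.range L, (min K (j : ℝ)) ^ 2 := by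
  obtain ⟨hK1, hK2⟩ := abs_le.1 hK
  have hK0 : 0 < K := by linarith
  have hsq := compB_sq (K := K) (F := 3 * F) (L := L) (by linarith) (by linarith) (by linarith)
  obtain ⟨b1, b2⟩ := abs_le.1 hsq
  have hKK : 0 < K ^ 2 := by positivity
  have hFK : 0 < F * K ^ 2 := by positivity
  have e1 : ((d : ℝ) - 2 * K / 3) * K ^ 2 ≤ 4 / 3 * F * K ^ 2 :=
    mul_le_mul_of_nonneg_right (by linarith) hKK.le
  have e2 : -(4 / 3 * F) * K ^ 2 ≤ ((d : ℝ) - 2 * K / 3) * K ^ 2 :=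
    mul_le_mul_of_nonneg_right (by linarith) hKK.le
  constructor
  · calc _ ≤ ((L : ℝ) - 2 * K / 3) * K ^ 2 + 3 * F * K ^ 2 := by linarith
      _ = ((L : ℝ) - d) * K ^ 2 + ((d : ℝ) - 2 * K / 3) * K ^ 2 + 3 * (F * K ^ 2) := by ring
      _ ≤ ((L : ℝ) - d) * K ^ 2 + 4 / 3 * F * K ^ 2 + 3 * (F * K ^ 2) := by linarith
      _ = ((L : ℝ) - d + 13 / 3 * F) * K ^ 2 := by ring
      _ ≤ _ := mul_le_mul_of_nonneg_right (by linarith) hKK.le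
  · calc ((L : ℝ) - d - 5 * F) * K ^ 2 ≤ ((L : ℝ) - d - 13 / 3 * F) * K ^ 2 :=
          mul_le_mul_of_nonneg_right (by linarith) hKK.le
      _ = ((L : ℝ) - d) * K ^ 2 + -(4 / 3 * F) * K ^ 2 - 3 * (F * K ^ 2) := by ring
      _ ≤ ((L : ℝ) - d) * K ^ 2 + ((d : ℝ) - 2 * K / 3) * K ^ 2 - 3 * (F * K ^ 2) := by linarith
      _ = ((L : ℝ) - 2 * K / 3) * K ^ 2 - 3 * F * K ^ 2 := by ring
      _ ≤ _ := by linarith

theorem compB_P {d L : ℕ} {K F θ : ℝ} (hF : 1 ≤ F) (hFd : 200 * F ≤ d)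
    (hL : 3 / 2 * d - F ≤ L) (hK : |K - 3 / 2 * d| ≤ 2 * F)
    (hθ : θ * d = 30 * F) (hθ1 : θ ≤ 3 / 20) (hθ0 : 0 ≤ θ) :
    ∑ l ∈ Finset.range L, ((1 - θ) * min K (l : ℝ)) ^ 2 ≤ ((L : ℝ) - d) * K ^ 2 := by
  obtain ⟨b3, -⟩ := compB_bd hF hFd hL hK
  have hKK : 0 ≤ K ^ 2 := sq_nonneg K
  have e : ∑ l ∈ Finset.range L, ((1 - θ) * min K (l : ℝ)) ^ 2 =
      (1 - θ) ^ 2 * ∑ j ∈ Finset.range L, (min K (j : ℝ)) ^ 2 := by
    rw [Finset.mul_sum]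
    refine Finset.sum_congr rfl fun l _ => ?_
    ring
  have hB0 : 0 ≤ ∑ j ∈ Finset.range L, (min K (j : ℝ)) ^ 2 :=
    Finset.sum_nonneg fun j _ => sq_nonneg _
  have h1 : (1 - θ) ^ 2 ≤ 1 - θ := by
    have : 0 ≤ θ * (1 - θ) := mul_nonneg hθ0 (by linarith)
    linarith [show (1 - θ) ^ 2 = 1 - θ - θ * (1 - θ) by ring]
  have h3 : (1 - θ) * ((L : ℝ) - d + 5 * F) ≤ (L : ℝ) - d := by
    have h4 : 49 / 100 * (d : ℝ) ≤ (L : ℝ) - d := by linarith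
    have h5 := mul_le_mul_of_nonneg_left h4 hθ0
    have h6 : 0 ≤ θ * F := mul_nonneg hθ0 (by linarith)
    have h7 : θ * (49 / 100 * (d : ℝ)) = 49 / 100 * (30 * F) := by rw [← hθ]; ring
    have h8 : (1 - θ) * ((L : ℝ) - d + 5 * F) =
      (L : ℝ) - d + 5 * F - θ * ((L : ℝ) - d) - 5 * (θ * F) := by ring
    rw [h8]
    linarith
  rw [e]
  calc _ ≤ (1 - θ) * (((L : ℝ) - d + 5 * F) * K ^ 2) :=
        (mul_le_mul_of_nonneg_right h1 hB0).trans (mul_le_mul_of_nonneg_left b3 (by linarith))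
    _ = (1 - θ) * ((L : ℝ) - d + 5 * F) * K ^ 2 := by ring
    _ ≤ _ := mul_le_mul_of_nonneg_right h3 hKK

theorem compB_Q1 {d L : ℕ} {K θ : ℝ} (hK0 : 0 ≤ K) (hdL : d < L) (hθ0 : 0 ≤ θ)
    (hdK : (1 + θ) * d ≤ K) :
    (∑ j ∈ Finset.range L, (min K (j : ℝ)) ^ 2) + 2 * θ * ∑ j ∈ Finset.range d, (j : ℝ) ^ 2 ≤
      ∑ l ∈ Finset.range L, (min K ((1 + θ) * (l : ℝ))) ^ 2 := by
  rw [← Finset.sum_range_add_sum_Ico _ hdL.le, ← Finset.sum_range_add_sum_Ico _ hdL.le,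
    Finset.mul_sum]
  have e1 : ∑ j ∈ Finset.range d, (min K (j : ℝ)) ^ 2 +
      ∑ j ∈ Finset.range d, 2 * θ * (j : ℝ) ^ 2 ≤
      ∑ l ∈ Finset.range d, (min K ((1 + θ) * (l : ℝ))) ^ 2 := by
    rw [← Finset.sum_add_distrib]
    refine Finset.sum_le_sum fun j hj => ?_
    have hj' : (j : ℝ) ≤ d := by exact_mod_cast (Finset.mem_range.1 hj).le
    have hj0 : (0 : ℝ) ≤ j := Nat.cast_nonneg j
    have h2 : (1 + θ) * (j : ℝ) ≤ K :=
      (mul_le_mul_of_nonneg_left hj' (by linarith)).trans hdK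
    have h4 : 0 ≤ θ * (j : ℝ) := mul_nonneg hθ0 hj0
    have h3 : (j : ℝ) ≤ K := by linarith
    rw [min_eq_right h2, min_eq_right h3]
    have h5 : 0 ≤ θ ^ 2 * (j : ℝ) ^ 2 := by positivity
    linarith [show ((1 + θ) * (j : ℝ)) ^ 2 = (j : ℝ) ^ 2 + 2 * θ * (j : ℝ) ^ 2 +
      θ ^ 2 * (j : ℝ) ^ 2 by ring]
  have e2 : ∑ j ∈ Finset.Ico d L, (min K (j : ℝ)) ^ 2 ≤
      ∑ l ∈ Finset.Ico d L, (min K ((1 + θ) * (l : ℝ))) ^ 2 := by
    refine Finset.sum_le_sum fun j _ => ?_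
    have hj0 : (0 : ℝ) ≤ j := Nat.cast_nonneg j
    have h4 : 0 ≤ θ * (j : ℝ) := mul_nonneg hθ0 hj0
    exact pow_le_pow_left₀ (le_min hK0 hj0) (min_le_min_left _ (by linarith)) 2
  linarith

theorem compB_Q {d L : ℕ} {K F θ : ℝ} (hd : 6 ≤ d) (hF : 1 ≤ F) (hFd : 200 * F ≤ d)
    (hdL : d < L) (hL : 3 / 2 * d - F ≤ L) (hK : |K - 3 / 2 * d| ≤ 2 * F)
    (hθ : θ * d = 30 * F) (hθ0 : 0 ≤ θ) :
    ((L : ℝ) - d) * K ^ 2 ≤ ∑ l ∈ Finset.range L, (min K ((1 + θ) * (l : ℝ))) ^ 2 := by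
  obtain ⟨-, b4⟩ := compB_bd hF hFd hL hK
  obtain ⟨hK1, hK2⟩ := abs_le.1 hK
  have hd' : (6 : ℝ) ≤ d := by exact_mod_cast hd
  have hK0 : 0 < K := by linarith
  have h1 := compB_Q1 (d := d) (L := L) hK0.le hdL hθ0 (by
    rw [add_mul, hθ]
    linarith)
  rw [compB_sum2] at h1
  have h2 : (d : ℝ) ^ 3 / 4 ≤ (d : ℝ) * (d - 1) * (2 * d - 1) / 6 := by
    have h3 : 0 ≤ (d : ℝ) * ((d : ℝ) * (d - 6) + 2) := by
      have := sub_nonneg.2 hd'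
      positivity
    linarith [show (d : ℝ) * (d - 1) * (2 * d - 1) / 6 = (d : ℝ) ^ 3 / 4 +
      (d : ℝ) * ((d : ℝ) * (d - 6) + 2) / 12 by ring]
  have h3 := mul_le_mul_of_nonneg_left h2 (show 0 ≤ 2 * θ by linarith)
  have h4 : 2 * θ * ((d : ℝ) ^ 3 / 4) = 15 * F * (d : ℝ) ^ 2 := by
    calc 2 * θ * ((d : ℝ) ^ 3 / 4) = (θ * d) * (d : ℝ) ^ 2 / 2 := by ring
      _ = _ := by rw [hθ]; ring
  have h5 : K ^ 2 ≤ 3 * (d : ℝ) ^ 2 := by
    have : K ^ 2 ≤ (152 / 100 * (d : ℝ)) ^ 2 := pow_le_pow_left₀ hK0.le (by linarith) 2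
    linarith [sq_nonneg (d : ℝ), show (152 / 100 * (d : ℝ)) ^ 2 = 3 * (d : ℝ) ^ 2 -
      (3 - (152 / 100) ^ 2) * (d : ℝ) ^ 2 by ring]
  have h6 := mul_le_mul_of_nonneg_left h5 (show 0 ≤ 5 * F by linarith)
  linarith [show ((L : ℝ) - d - 5 * F) * K ^ 2 = ((L : ℝ) - d) * K ^ 2 - 5 * F * K ^ 2 by ring]

theorem compB_mix2 {P Q : ℕ → ℝ} {L : ℕ} {T : ℝ} (hP0 : ∀ l, 0 ≤ P l) (hPQ : ∀ l, P l ≤ Q l)
    (hPm : ∀ l, P l ≤ P (l + 1)) (hQm : ∀ l, Q l ≤ Q (l + 1))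
    (h1 : ∑ l ∈ Finset.range L, P l ^ 2 ≤ T) (h2 : T ≤ ∑ l ∈ Finset.range L, Q l ^ 2) :
    ∃ g : ℕ → ℝ, (∀ l, g l ≤ g (l + 1)) ∧ (∀ l, P l ≤ g l ∧ g l ≤ Q l) ∧
      ∑ l ∈ Finset.range L, g l ^ 2 = T := by
  obtain ⟨τ, hτ0, hτ1, hτ⟩ := compB_mix h1 h2
  have hsq0 : ∀ l, 0 ≤ (1 - τ) * P l ^ 2 + τ * Q l ^ 2 := fun l => by
    have := sub_nonneg.2 hτ1
    positivity
  have hPQ2 : ∀ l, P l ^ 2 ≤ Q l ^ 2 := fun l => pow_le_pow_left₀ (hP0 l) (hPQ l) 2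
  refine ⟨fun l => √((1 - τ) * P l ^ 2 + τ * Q l ^ 2), fun l => ?_, fun l => ⟨?_, ?_⟩, ?_⟩
  · refine Real.sqrt_le_sqrt (add_le_add ?_ ?_)
    · exact mul_le_mul_of_nonneg_left (pow_le_pow_left₀ (hP0 l) (hPm l) 2) (sub_nonneg.2 hτ1)
    · exact mul_le_mul_of_nonneg_left
        (pow_le_pow_left₀ ((hP0 l).trans (hPQ l)) (hQm l) 2) hτ0
  · refine Real.le_sqrt_of_sq_le ?_
    linarith [mul_le_mul_of_nonneg_left (hPQ2 l) hτ0]
  · refine Real.sqrt_le_iff.2 ⟨(hP0 l).trans (hPQ l), ?_⟩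
    linarith [mul_le_mul_of_nonneg_left (hPQ2 l) (sub_nonneg.2 hτ1)]
  · rw [Finset.sum_congr rfl (fun l _ => Real.sq_sqrt (hsq0 l)), Finset.sum_add_distrib,
      ← Finset.mul_sum, ← Finset.mul_sum]
    exact hτ

theorem compB_scaled {d L : ℕ} {K F θ : ℝ} (hd : 6 ≤ d) (hF : 1 ≤ F) (hFd : 200 * F ≤ d)
    (hdL : d < L) (hL : 3 / 2 * d - F ≤ L) (hK : |K - 3 / 2 * d| ≤ 2 * F)
    (hθ : θ * d = 30 * F) (hθ1 : θ ≤ 3 / 20) (hθ0 : 0 ≤ θ) :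
    ∃ g : ℕ → ℝ, g 0 = 0 ∧ (∀ l, g l ≤ g (l + 1)) ∧ (∀ l, 0 ≤ g l ∧ g l ≤ K) ∧
      ∑ l ∈ Finset.range L, g l ^ 2 = ((L : ℝ) - d) * K ^ 2 ∧
      ∀ l : ℕ, |g l - min K (l : ℝ)| ≤ θ * K := by
  obtain ⟨hK1, hK2⟩ := abs_le.1 hK
  have hK0 : 0 < K := by linarith
  have hmn : ∀ l : ℕ, 0 ≤ min K (l : ℝ) := fun l => le_min hK0.le (Nat.cast_nonneg l)
  have hl0 : ∀ l : ℕ, 0 ≤ θ * (l : ℝ) := fun l => mul_nonneg hθ0 (Nat.cast_nonneg l)
  have hP0 : ∀ l : ℕ, 0 ≤ (1 - θ) * min K (l : ℝ) := fun l => mul_nonneg (by linarith) (hmn l)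
  have hmQ : ∀ l : ℕ, min K (l : ℝ) ≤ min K ((1 + θ) * (l : ℝ)) := fun l =>
    min_le_min_left _ (by linarith [hl0 l])
  have hPm : ∀ l : ℕ, (1 - θ) * min K (l : ℝ) ≤ min K (l : ℝ) := fun l => by
    linarith [mul_nonneg hθ0 (hmn l)]
  obtain ⟨g, g1, g2, g3⟩ := compB_mix2 (P := fun l : ℕ => (1 - θ) * min K (l : ℝ))
    (Q := fun l : ℕ => min K ((1 + θ) * (l : ℝ))) hP0 (fun l => (hPm l).trans (hmQ l))
    (fun l => mul_le_mul_of_nonneg_left (min_le_min_left _ (by push_cast; linarith))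
      (by linarith))
    (fun l => min_le_min_left _ (mul_le_mul_of_nonneg_left (by push_cast; linarith)
      (by linarith)))
    (compB_P hF hFd hL hK hθ hθ1 hθ0) (compB_Q hd hF hFd hdL hL hK hθ hθ0)
  refine ⟨g, ?_, g1, fun l => ⟨(hP0 l).trans (g2 l).1, (g2 l).2.trans (min_le_left _ _)⟩, g3,
    fun l => ?_⟩
  · have h1 := (g2 0).1
    have h2 := (g2 0).2
    simp only [Nat.cast_zero, mul_zero, min_eq_right hK0.le] at h1 h2
    exact le_antisymm h2 h1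
  · have h1 := (g2 l).1
    have h2 := (g2 l).2
    have h3 : θ * min K (l : ℝ) ≤ θ * K := mul_le_mul_of_nonneg_left (min_le_left _ _) hθ0
    have h4 : min K ((1 + θ) * (l : ℝ)) ≤ min K (l : ℝ) + θ * K := by
      rcases le_total K (l : ℝ) with h | h
      · rw [min_eq_left h]
        exact (min_le_left _ _).trans (by linarith [mul_nonneg hθ0 hK0.le])
      · rw [min_eq_right h]
        refine (min_le_right _ _).trans ?_
        linarith [mul_le_mul_of_nonneg_left h hθ0]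
    rw [abs_le]
    constructor
    · linarith
    · linarith

end Vale.Agent.P146.Sh
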