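import Vale.Agent.P146.Lb.LOne
import Vale.Agent.P146.Sx.Inv

/-!
# P146, Sh: the sharp constant of the exponential moments: definitions

`x → 0`: the first block of the constrained minimiser and its competitor.
-/

open MeasureTheory ProbabilityTheory Filter Topology Set

namespace Vale.Agent.P146.Sh

open Vale.Agent.P157.Par
open Vale.Agent.P146.Gap
open Vale.Agent.P146.Pw2
open Vale.Agent.P146.Lb
open Vale.Agent.P367.Cl

/-- The second derivative at the origin of the function of the level `0`. -/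
noncomputable def vv (n : ℕ) (r : ℕ → ℝ) : ℝ := iteratedDeriv 2 (Fl n (gm n) r 0) 0

/-- Minus the fourth derivative at the origin of the function of the level `0`. -/
noncomputable def kk (n : ℕ) (r : ℕ → ℝ) : ℝ := -iteratedDeriv 4 (Fl n (gm n) r 0) 0

/-- The integral over `[u, R]` of the exponents of the path `ρ` (levels `< L` below `R`). -/
noncomputable def Aw (n L : ℕ) (R : ℝ) (ρ : ℕ → ℝ) (u : ℝ) : ℝ :=
  ∑ j ∈ Finset.range L, 1 / ((n : ℝ) + 1) * (R - max u (ρ j))

/-- The quadratic model of the functional. -/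
noncomputable def Nw (n L : ℕ) (R v a : ℝ) (ρ : ℕ → ℝ) : ℝ :=
  v ^ 3 / 2 * ∫ u in (0 : ℝ)..R, (Aw n L R ρ u - a * (R ^ 2 - u ^ 2)) ^ 2

/-- The paths which vary only below the level `L`, where they are at most `R`. -/
structure Fam (b : ℝ) (n L : ℕ) (R : ℝ) (q ρ : ℕ → ℝ) : Prop where
  path : BPath b n ρ
  le : ∀ l < L, ρ l ≤ R
  ge : R ≤ ρ L
  top : ∀ l, L ≤ l → ρ l = q l

/-- The Parisi value with exponents at least `x`. -/
noncomputable def Vx (b x : ℝ) : ℝ :=
  sInf {y | ∃ (K : ℕ) (m q : ℕ → ℝ), Exponents K m ∧ Path K q ∧ q 0 = 0 ∧ q K ≤ 1 ∧ x ≤ m 1 ∧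
    y = SKpar b K m q}

/-- The Parisi value. -/
noncomputable def P0 (b : ℝ) : ℝ :=
  sInf {y | ∃ (K : ℕ) (m q : ℕ → ℝ), Exponents K m ∧ Path K q ∧ q K ≤ 1 ∧ y = SKpar b K m q}

end Vale.Agent.P146.Sh
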