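import Vale.Agent.P146.Sh.ShExpd0
import Vale.Agent.P146.Sh.ShM1
import Vale.Agent.P146.Sh.ShBd

/-!
# P146, Sh: expansion of `spR` along the first blocks
-/

open MeasureTheory ProbabilityTheory Filter Topology Set

namespace Vale.Agent.P146.Sh

open Vale.Agent.P157.Par
open Vale.Agent.P146.Gap
open Vale.Agent.P146.Pw2
open Vale.Agent.P146.Lb
open Vale.Agent.P367.Cl

theorem expd (b D : ℝ) : ∃ C : ℝ, 1 ≤ C ∧ ∀ (n L : ℕ) (R X v a : ℝ) (ρ : ℕ → ℝ),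
    Fam b n L R ρ ρ → 1 ≤ L → L ≤ n → 0 < X → X ≤ 1 → R ≤ X → gm n L ≤ X → 0 ≤ v → v ≤ 1 →
    |v - vv n ρ| ≤ D * √X → |4 * v ^ 3 * a - kk n ρ ^ 2| ≤ D * √X →
    ∃ μ : ℝ, 0 ≤ μ ∧ μ ≤ 1 ∧ ∀ l < L, |spR n (gm n) ρ l - (μ * ρ l + 2 * v ^ 3 *
      ∫ u in (0 : ℝ)..(ρ l), (Aw n L R ρ u - a * (R ^ 2 - u ^ 2)))| ≤ C * (X ^ 3 * √X) :=
  expd_of D (m1e b) (vk_bd b)

end Vale.Agent.P146.Sh
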