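import Mathlib

/-!
# P146, Sh: piecewise integration of the functional on the first blocks
-/

open MeasureTheory Filter Topology Set

namespace Vale.Agent.P146.Sh

lemma piece_mvt {f f' : ℝ → ℝ} {a b C : ℝ} (hab : a ≤ b) (hc : ContinuousOn f (Icc a b))
    (hd : ∀ t ∈ Ioo a b, HasDerivAt f (f' t) t) (hC : ∀ t ∈ Ioo a b, |f' t| ≤ C) :
    |f b - f a| ≤ C * (b - a) := by
  rcases hab.eq_or_lt with rfl | hlt
  · simp
  · obtain ⟨c, hc1, hc2⟩ := exists_hasDerivAt_eq_slope f f' hlt hc hd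
    have h3 : b - a ≠ 0 := (sub_pos.2 hlt).ne'
    have h2 : f b - f a = f' c * (b - a) := by
      rw [hc2]
      field_simp
    rw [h2, abs_mul, abs_of_pos (sub_pos.2 hlt)]
    exact mul_le_mul_of_nonneg_right (hC c hc1) (sub_pos.2 hlt).le

lemma piece_mono {L : ℕ} {ρ top : ℕ → ℝ} (hmono : ∀ l < L, ρ l ≤ top l)
    (htop : ∀ l, l + 1 < L → top l = ρ (l + 1)) : ∀ i j, i ≤ j → j < L → ρ i ≤ ρ j := by
  intro i j hij hj
  induction j, hij using Nat.le_induction with
  | base => exact le_rfl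
  | succ j hij ih =>
    have h := htop j hj
    exact (ih (by omega)).trans ((hmono j (by omega)).trans h.le)

/-- The derivative of the exponent integral inside the block `l`. -/
lemma piece_dA {L : ℕ} {δ R : ℝ} {ρ : ℕ → ℝ} {l : ℕ} (hl : l < L) {u : ℝ}
    (h1 : ∀ j, j ≤ l → ρ j < u) (h2 : ∀ j, l < j → j < L → u < ρ j) :
    HasDerivAt (fun u => ∑ j ∈ Finset.range L, δ * (R - max u (ρ j)))
      (-(δ * ((l : ℝ) + 1))) u := by
  have key : ∀ j ∈ Finset.range L, HasDerivAt (fun u => δ * (R - max u (ρ j)))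
      (if j ≤ l then -δ else 0) u := by
    intro j hj
    rw [Finset.mem_range] at hj
    split_ifs with h
    · have e : (fun u => δ * (R - max u (ρ j))) =ᶠ[𝓝 u] fun u => δ * (R - u) := by
        filter_upwards [lt_mem_nhds (h1 j h)] with y hy
        rw [max_eq_left hy.le]
      refine HasDerivAt.congr_of_eventuallyEq ?_ e
      have := ((hasDerivAt_id u).const_sub R).const_mul δ
      simpa using this
    · have e : (fun u => δ * (R - max u (ρ j))) =ᶠ[𝓝 u] fun _ => δ * (R - ρ j) := by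
        filter_upwards [gt_mem_nhds (h2 j (by omega) hj)] with y hy
        rw [max_eq_right hy.le]
      exact HasDerivAt.congr_of_eventuallyEq (hasDerivAt_const u _) e
  have h := HasDerivAt.fun_sum key
  refine h.congr_deriv ?_
  rw [← Finset.sum_filter, Finset.sum_const, nsmul_eq_mul]
  have hc : (Finset.filter (fun j => j ≤ l) (Finset.range L)).card = l + 1 := by
    have : Finset.filter (fun j => j ≤ l) (Finset.range L) = Finset.range (l + 1) := by
      ext j
      simp only [Finset.mem_filter, Finset.mem_range]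
      omega
    rw [this, Finset.card_range]
  rw [hc]
  push_cast
  ring

lemma piece_cA (L : ℕ) (δ R : ℝ) (ρ : ℕ → ℝ) :
    Continuous (fun u => ∑ j ∈ Finset.range L, δ * (R - max u (ρ j))) := by
  refine continuous_finsetSum _ fun j _ => ?_
  fun_prop

theorem piece {L : ℕ} (hL : 1 ≤ L) {δ R E v a : ℝ} (hδ : 0 ≤ δ) (hE : 0 ≤ E) {ρ top S : ℕ → ℝ}
    (h0 : ρ 0 = 0) (hmono : ∀ l < L, ρ l ≤ top l) (htop : ∀ l, l + 1 < L → top l = ρ (l + 1))
    (htopL : top (L - 1) = R) {Rf Mf M1f : ℕ → ℝ → ℝ}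
    (hRc : ∀ l < L, ContinuousOn (Rf l) (Icc 0 (top l - ρ l)))
    (hMc : ∀ l < L, ContinuousOn (Mf l) (Icc 0 (top l - ρ l)))
    (hR : ∀ l < L, ∀ t ∈ Ioo 0 (top l - ρ l), HasDerivAt (Rf l) (Mf l t) t)
    (hM : ∀ l < L, ∀ t ∈ Ioo 0 (top l - ρ l), HasDerivAt (Mf l) (M1f l t) t)
    (h1 : ∀ l < L, ∀ t ∈ Ioo 0 (top l - ρ l),
      |M1f l t - (4 * v ^ 3 * a * (ρ l + t) - 2 * v ^ 3 * (δ * ((l : ℝ) + 1)))| ≤ E)
    (hR0 : ∀ l < L, Rf l 0 = S l) (hS0 : S 0 = 0)
    (hRt : ∀ l, l + 1 < L → Rf l (top l - ρ l) = S (l + 1))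
    (hMm : ∀ l, l + 1 < L → Mf l (top l - ρ l) = Mf (l + 1) 0) :
    ∀ l < L, |S l - (Mf (L - 1) (R - ρ (L - 1)) * ρ l + 2 * v ^ 3 *
      ∫ u in (0 : ℝ)..(ρ l), ((∑ j ∈ Finset.range L, δ * (R - max u (ρ j)))
        - a * (R ^ 2 - u ^ 2)))| ≤ E * R * ρ l := by
  have hm := piece_mono hmono htop
  have hpos : ∀ l < L, 0 ≤ ρ l := fun l hl => by
    have := hm 0 l (Nat.zero_le _) hl
    rwa [h0] at this
  have htopR : ∀ l < L, top l ≤ R := by
    intro l hl
    by_cases h : l + 1 < L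
    · rw [htop l h]
      refine (hm (l + 1) (L - 1) (by omega) (by omega)).trans ?_
      rw [← htopL]
      exact hmono (L - 1) (by omega)
    · have : l = L - 1 := by omega
      rw [this, htopL]
  have hρR : ∀ l < L, ρ l ≤ R := fun l hl => (hmono l hl).trans (htopR l hl)
  have hR0' : 0 ≤ R := (hpos 0 (by omega)).trans (hρR 0 (by omega))
  set μ := Mf (L - 1) (R - ρ (L - 1)) with hμ
  set A : ℝ → ℝ := fun u => ∑ j ∈ Finset.range L, δ * (R - max u (ρ j)) with hA
  have hAc : Continuous A := piece_cA L δ R ρ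
  set Φ : ℝ → ℝ := fun u => μ + 2 * v ^ 3 * (A u - a * (R ^ 2 - u ^ 2)) with hΦ
  have hΦc : Continuous Φ := by
    rw [hΦ]
    fun_prop
  -- derivative of `Φ` inside the block `l`
  have hΦd : ∀ l < L, ∀ t ∈ Ioo 0 (top l - ρ l), HasDerivAt (fun t => Φ (ρ l + t))
      (4 * v ^ 3 * a * (ρ l + t) - 2 * v ^ 3 * (δ * ((l : ℝ) + 1))) t := by
    intro l hl t ht
    have hu1 : ∀ j, j ≤ l → ρ j < ρ l + t := fun j hj => by
      have := hm j l hj hl
      linarith [ht.1]
    have hu2 : ∀ j, l < j → j < L → ρ l + t < ρ j := fun j hj hjL => by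
      have h3 := hm (l + 1) j hj hjL
      have h4 := htop l (by omega)
      linarith [ht.2]
    have hd := piece_dA (δ := δ) (R := R) hl hu1 hu2
    have h5 : HasDerivAt Φ (2 * v ^ 3 * (-(δ * ((l : ℝ) + 1)) - a * (0 - 2 * (ρ l + t)))) (ρ l + t) := by
      have h6 : HasDerivAt (fun u : ℝ => R ^ 2 - u ^ 2) (0 - 2 * (ρ l + t)) (ρ l + t) := by
        have := ((hasDerivAt_id (ρ l + t)).pow 2).const_sub (R ^ 2)
        simpa using this
      have h7 := ((hd.sub (h6.const_mul a)).const_mul (2 * v ^ 3)).const_add μ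
      exact h7
    have h8 : HasDerivAt (fun t : ℝ => ρ l + t) 1 t := by
      simpa using (hasDerivAt_id t).const_add (ρ l)
    exact (h5.comp t h8).congr_deriv (by ring)
  -- `|M - Φ| ≤ E (R - u)`
  have hMbd : ∀ k, k < L → ∀ t ∈ Icc 0 (top (L - 1 - k) - ρ (L - 1 - k)),
      |Mf (L - 1 - k) t - Φ (ρ (L - 1 - k) + t)| ≤ E * (R - (ρ (L - 1 - k) + t)) := by
    intro k
    induction k with
    | zero =>
      intro hk t ht
      simp only [Nat.sub_zero] at ht ⊢
      have h2 := piece_mvt (f := fun t => Mf (L - 1) t - Φ (ρ (L - 1) + t))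
        (f' := fun t => M1f (L - 1) t - (4 * v ^ 3 * a * (ρ (L - 1) + t)
          - 2 * v ^ 3 * (δ * (((L - 1 : ℕ) : ℝ) + 1)))) (C := E) ht.2
        (((hMc (L - 1) (by omega)).mono (Icc_subset_Icc_left ht.1)).sub
          (hΦc.comp (by fun_prop)).continuousOn)
        (fun s hs => (hM (L - 1) (by omega) s ⟨ht.1.trans_lt hs.1, hs.2⟩).sub
          (hΦd (L - 1) (by omega) s ⟨ht.1.trans_lt hs.1, hs.2⟩))
        (fun s hs => h1 (L - 1) (by omega) s ⟨ht.1.trans_lt hs.1, hs.2⟩)
      have h3 : Mf (L - 1) (top (L - 1) - ρ (L - 1)) -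
          Φ (ρ (L - 1) + (top (L - 1) - ρ (L - 1))) = 0 := by
        rw [htopL]
        have h4 : ρ (L - 1) + (R - ρ (L - 1)) = R := by ring
        rw [h4]
        have h5 : A R = 0 := by
          simp only [hA]
          refine Finset.sum_eq_zero fun j hj => ?_
          rw [max_eq_left (hρR j (Finset.mem_range.1 hj))]
          ring
        simp only [hΦ, h5]
        rw [hμ]
        ring
      simp only [h3, zero_sub, abs_neg] at h2
      rw [htopL] at h2
      calc |Mf (L - 1) t - Φ (ρ (L - 1) + t)| ≤ E * (R - ρ (L - 1) - t) := h2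
        _ = E * (R - (ρ (L - 1) + t)) := by ring
    | succ k ih =>
      intro hk t ht
      set l := L - 1 - (k + 1) with hldef
      have hl1 : L - 1 - k = l + 1 := by omega
      have hlL : l + 1 < L := by omega
      rw [hl1] at ih
      have ih0 := ih (by omega) 0 ⟨le_rfl, by linarith [hmono (l + 1) hlL]⟩
      have h2 := piece_mvt (f := fun t => Mf l t - Φ (ρ l + t))
        (f' := fun t => M1f l t - (4 * v ^ 3 * a * (ρ l + t)
          - 2 * v ^ 3 * (δ * ((l : ℝ) + 1)))) (C := E) ht.2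
        (((hMc l (by omega)).mono (Icc_subset_Icc_left ht.1)).sub
          (hΦc.comp (by fun_prop)).continuousOn)
        (fun s hs => (hM l (by omega) s ⟨ht.1.trans_lt hs.1, hs.2⟩).sub
          (hΦd l (by omega) s ⟨ht.1.trans_lt hs.1, hs.2⟩))
        (fun s hs => h1 l (by omega) s ⟨ht.1.trans_lt hs.1, hs.2⟩)
      have h3 : Mf l (top l - ρ l) - Φ (ρ l + (top l - ρ l)) =
          Mf (l + 1) 0 - Φ (ρ (l + 1) + 0) := by
        rw [hMm l hlL, htop l hlL]
        congr 2
        ring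
      have e1 : Mf l t - Φ (ρ l + t) = (Mf (l + 1) 0 - Φ (ρ (l + 1) + 0)) -
          ((Mf l (top l - ρ l) - Φ (ρ l + (top l - ρ l))) - (Mf l t - Φ (ρ l + t))) := by
        rw [h3]
        ring
      rw [e1]
      refine (abs_sub _ _).trans ?_
      have e2 : E * (R - (ρ l + t)) = E * (R - (ρ (l + 1) + 0)) + E * (top l - ρ l - t) := by
        rw [htop l hlL]
        ring
      rw [e2]
      exact add_le_add ih0 h2
  have hMbd' : ∀ l < L, ∀ t ∈ Icc 0 (top l - ρ l),
      |Mf l t - Φ (ρ l + t)| ≤ E * R := by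
    intro l hl t ht
    have h2 := hMbd (L - 1 - l) (by omega)
    have h3 : L - 1 - (L - 1 - l) = l := by omega
    rw [h3] at h2
    refine (h2 t ht).trans ?_
    have h4 := hpos l hl
    exact mul_le_mul_of_nonneg_left (by linarith [ht.1]) hE
  -- integrate
  have hΨd : ∀ x, HasDerivAt (fun x => ∫ u in (0 : ℝ)..x, Φ u) (Φ x) x := fun x =>
    intervalIntegral.integral_hasDerivAt_right (hΦc.intervalIntegrable _ _)
      (hΦc.stronglyMeasurableAtFilter _ _) hΦc.continuousAt
  have hS : ∀ l, l < L → |S l - ∫ u in (0 : ℝ)..(ρ l), Φ u| ≤ E * R * ρ l := by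
    intro l
    induction l with
    | zero =>
      intro _
      rw [h0, hS0]
      simp
    | succ l ih =>
      intro hl
      have ih' := ih (by omega)
      have hT : 0 ≤ top l - ρ l := by linarith [hmono l (by omega)]
      have hΨc : Continuous (fun x => ∫ u in (0 : ℝ)..x, Φ u) :=
        continuous_iff_continuousAt.2 fun x => (hΨd x).continuousAt
      have h2 := piece_mvt (f := fun t => Rf l t - ∫ u in (0 : ℝ)..(ρ l + t), Φ u)
        (f' := fun t => Mf l t - Φ (ρ l + t)) (C := E * R) hT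
        ((hRc l (by omega)).sub (hΨc.comp (by fun_prop)).continuousOn)
        (fun s hs => (hR l (by omega) s hs).sub (by
          have h8 : HasDerivAt (fun t : ℝ => ρ l + t) 1 s := by
            simpa using (hasDerivAt_id s).const_add (ρ l)
          exact ((hΨd (ρ l + s)).comp s h8).congr_deriv (by ring)))
        (fun s hs => hMbd' l (by omega) s ⟨hs.1.le, hs.2.le⟩)
      simp only [add_zero, sub_zero] at h2
      rw [hRt l hl, hR0 l (by omega)] at h2
      have h3 : ρ l + (top l - ρ l) = ρ (l + 1) := by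
        rw [htop l hl]
        ring
      rw [h3] at h2
      have e1 : S (l + 1) - ∫ u in (0 : ℝ)..(ρ (l + 1)), Φ u =
          (S (l + 1) - (∫ u in (0 : ℝ)..(ρ (l + 1)), Φ u) - (S l - ∫ u in (0 : ℝ)..(ρ l), Φ u)) +
          (S l - ∫ u in (0 : ℝ)..(ρ l), Φ u) := by ring
      rw [e1]
      refine (abs_add_le _ _).trans ?_
      have e2 : E * R * ρ (l + 1) = E * R * (top l - ρ l) + E * R * ρ l := by
        rw [htop l hl]
        ring
      rw [e2]
      exact add_le_add h2 ih'
  intro l hl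
  have h2 := hS l hl
  have h3 : ∫ u in (0 : ℝ)..(ρ l), Φ u = μ * ρ l + 2 * v ^ 3 *
      ∫ u in (0 : ℝ)..(ρ l), (A u - a * (R ^ 2 - u ^ 2)) := by
    simp only [hΦ]
    rw [intervalIntegral.integral_add (by simp)
      (Continuous.intervalIntegrable (by fun_prop) _ _),
      intervalIntegral.integral_const_mul]
    simp only [intervalIntegral.integral_const, smul_eq_mul, sub_zero]
    ring
  rw [h3] at h2
  exact h2

end Vale.Agent.P146.Sh
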