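import Vale.Agent.P146.Sh.ShDefs
import Vale.Agent.P146.Sh.ShPiece

/-!
# P146, Sh: expansion of `spR` along the first blocks (from the statements of ShM1, ShBd)
-/

open MeasureTheory ProbabilityTheory Filter Topology Set

namespace Vale.Agent.P146.Sh

open Vale.Agent.P157.Par
open Vale.Agent.P146.Gap
open Vale.Agent.P146.Pw2
open Vale.Agent.P146.Lb
open Vale.Agent.P367.Cl

/-- cubes of numbers of the unit interval -/
theorem expd_cube {v w : ℝ} (hv : 0 ≤ v) (hv1 : v ≤ 1) (hw : 0 ≤ w) (hw1 : w ≤ 1) :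
    |v ^ 3 - w ^ 3| ≤ 3 * |v - w| := by
  have e : v ^ 3 - w ^ 3 = (v - w) * (v ^ 2 + v * w + w ^ 2) := by ring
  have h1 : v ^ 2 ≤ 1 := pow_le_one₀ hv hv1
  have h2 : w ^ 2 ≤ 1 := pow_le_one₀ hw hw1
  have h3 : v * w ≤ 1 := mul_le_one₀ hv1 hw hw1
  have h4 : 0 ≤ v ^ 2 + v * w + w ^ 2 := by positivity
  rw [e, abs_mul, abs_of_nonneg h4, mul_comm 3]
  exact mul_le_mul_of_nonneg_left (by linarith) (abs_nonneg _)

/-- the linear bound of the derivative with perturbed coefficients -/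
theorem expd_lin {M K v w y σ g C₁ D X : ℝ} (hX : 0 ≤ X) (hσ : 0 ≤ σ) (hσX : σ ≤ X)
    (hg : 0 ≤ g) (hgX : g ≤ X) (hv : 0 ≤ v) (hv1 : v ≤ 1) (hw : 0 ≤ w) (hw1 : w ≤ 1)
    (h1 : |M - (K * σ - 2 * g * w ^ 3)| ≤ C₁ * (X * √X)) (h2 : |v - w| ≤ D * √X)
    (h3 : |y - K| ≤ D * √X) :
    |M - (y * σ - 2 * v ^ 3 * g)| ≤ (C₁ + 7 * |D|) * (X * √X) := by
  have hs : 0 ≤ √X := Real.sqrt_nonneg X
  have hD : D * √X ≤ |D| * √X := mul_le_mul_of_nonneg_right (le_abs_self D) hs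
  have hDs : 0 ≤ |D| * √X := by positivity
  have h4 := expd_cube hv hv1 hw hw1
  have e : M - (y * σ - 2 * v ^ 3 * g) = (M - (K * σ - 2 * g * w ^ 3)) -
      (y - K) * σ + 2 * g * (v ^ 3 - w ^ 3) := by ring
  have h5 : |(y - K) * σ| ≤ |D| * √X * X := by
    rw [abs_mul, abs_of_nonneg hσ]
    exact mul_le_mul (h3.trans hD) hσX hσ hDs
  have h6 : |2 * g * (v ^ 3 - w ^ 3)| ≤ 2 * X * (3 * (|D| * √X)) := by
    rw [abs_mul, abs_of_nonneg (by positivity : 0 ≤ 2 * g)]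
    refine mul_le_mul (by linarith) ?_ (abs_nonneg _) (by positivity)
    linarith [h2.trans hD]
  calc |M - (y * σ - 2 * v ^ 3 * g)| = |(M - (K * σ - 2 * g * w ^ 3)) -
      (y - K) * σ + 2 * g * (v ^ 3 - w ^ 3)| := by rw [e]
    _ ≤ |(M - (K * σ - 2 * g * w ^ 3)) - (y - K) * σ| + |2 * g * (v ^ 3 - w ^ 3)| :=
        abs_add_le _ _
    _ ≤ |M - (K * σ - 2 * g * w ^ 3)| + |(y - K) * σ| + |2 * g * (v ^ 3 - w ^ 3)| := by
        gcongr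
        exact abs_sub _ _
    _ ≤ C₁ * (X * √X) + |D| * √X * X + 2 * X * (3 * (|D| * √X)) := by gcongr
    _ = (C₁ + 7 * |D|) * (X * √X) := by ring

theorem expd_core {b C₁ D : ℝ} {n L : ℕ} {R X v a : ℝ} {ρ : ℕ → ℝ} (hC₁ : 0 ≤ C₁)
    (hF : Fam b n L R ρ ρ) (hL : 1 ≤ L) (hLn : L ≤ n) (hX : 0 < X) (hRX : R ≤ X)
    (hgX : gm n L ≤ X) (hv : 0 ≤ v) (hv1 : v ≤ 1) (hw : 0 ≤ vv n ρ) (hw1 : vv n ρ ≤ 1)
    (h1 : ∀ l < n, gm n (l + 1) ≤ X → ∀ t ∈ Icc 0 (ρ (l + 1) - ρ l), ρ l + t ≤ X →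
      |M1b n (gm n) ρ l t - (kk n ρ ^ 2 * (ρ l + t) - 2 * gm n (l + 1) * vv n ρ ^ 3)| ≤
        C₁ * (X * √X))
    (h2 : |v - vv n ρ| ≤ D * √X) (h3 : |4 * v ^ 3 * a - kk n ρ ^ 2| ≤ D * √X) :
    ∃ μ : ℝ, 0 ≤ μ ∧ μ ≤ 1 ∧ ∀ l < L, |spR n (gm n) ρ l - (μ * ρ l + 2 * v ^ 3 *
      ∫ u in (0 : ℝ)..(ρ l), (Aw n L R ρ u - a * (R ^ 2 - u ^ 2)))| ≤
        (C₁ + 7 * |D|) * (X ^ 3 * √X) := by
  have hm := gm_exponents n
  have hr := hF.path
  have hP := hr.2.1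
  have h0 : ρ 0 = 0 := hr.1
  have hs : 0 ≤ √X := Real.sqrt_nonneg X
  have hnn : ∀ l ≤ n, 0 ≤ ρ l := fun l hl => len_nonneg hr hl
  set top : ℕ → ℝ := fun l => if l + 1 < L then ρ (l + 1) else R with htop
  have hlast : L - 1 < n := by omega
  have heq : L - 1 + 1 = L := by omega
  have htop_le : ∀ l < L, top l ≤ ρ (l + 1) := by
    intro l hl
    simp only [htop]
    split_ifs with h
    · exact le_rfl
    · have : l + 1 = L := by omega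
      rw [this]
      exact hF.ge
  have hmono : ∀ l < L, ρ l ≤ top l := by
    intro l hl
    simp only [htop]
    split_ifs with h
    · exact len_mono hr (Nat.le_succ l) (by omega)
    · exact hF.le l hl
  have htopR : ∀ l < L, top l ≤ R := by
    intro l hl
    simp only [htop]
    split_ifs with h
    · exact hF.le (l + 1) h
    · exact le_rfl
  have htop1 : ∀ l, l + 1 < L → top l = ρ (l + 1) := by
    intro l hl
    simp only [htop, if_pos hl]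
  have htopL : top (L - 1) = R := by
    have : ¬ (L - 1 + 1 < L) := by omega
    simp only [htop, if_neg this]
  have hgl : ∀ l < L, gm n (l + 1) ≤ X := fun l hl =>
    (len_gm_mono (show l + 1 ≤ L by omega)).trans hgX
  have hgm : ∀ l : ℕ, gm n (l + 1) = 1 / ((n : ℝ) + 1) * ((l : ℝ) + 1) := by
    intro l
    unfold gm
    push_cast
    ring
  have hE : 0 ≤ (C₁ + 7 * |D|) * (X * √X) := by positivity
  have key := piece (L := L) hL (δ := 1 / ((n : ℝ) + 1)) (R := R)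
    (E := (C₁ + 7 * |D|) * (X * √X)) (v := v) (a := a) (by positivity) hE
    (ρ := ρ) (top := top) (S := fun l => spR n (gm n) ρ l) h0 hmono htop1 htopL
    (Rf := fun l => Rb n (gm n) ρ l) (Mf := fun l => Mb n (gm n) ρ l)
    (M1f := fun l => M1b n (gm n) ρ l)
    (fun l hl => (Rb_cont hm hP (by omega)).mono
      (Icc_subset_Icc_right (by linarith [htop_le l hl])))
    (fun l hl => (Mb_cont hm hP (by omega)).mono
      (Icc_subset_Icc_right (by linarith [htop_le l hl])))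
    (fun l hl t ht => Rb_deriv hm hP (by omega)
      ⟨ht.1, ht.2.trans_le (by linarith [htop_le l hl])⟩)
    (fun l hl t ht => Mb_deriv hm hP (by omega)
      ⟨ht.1, ht.2.trans_le (by linarith [htop_le l hl])⟩)
    (fun l hl t ht => by
      have hlt : t < ρ (l + 1) - ρ l := ht.2.trans_le (by linarith [htop_le l hl])
      have hσX : ρ l + t ≤ X := by linarith [htopR l hl, ht.2]
      have hσ : 0 ≤ ρ l + t := by linarith [hnn l (by omega), ht.1]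
      have h4 := h1 l (by omega) (hgl l hl) t ⟨ht.1.le, hlt.le⟩ hσX
      have h5 := expd_lin (y := 4 * v ^ 3 * a) hX.le hσ hσX (grid_gm_nonneg n (l + 1)) (hgl l hl)
        hv hv1 hw hw1 h4 h2 h3
      rw [← hgm l]
      exact h5)
    (fun l hl => Rb_zero hm hP (by omega))
    (Vale.Agent.P146.Gap.spR_zero hm hP h0)
    (fun l hl => by
      rw [htop1 l hl]
      exact Rb_last hm hP (by omega))
    (fun l hl => by
      rw [htop1 l hl, Mb_last hm hP (show l < n by omega), Mb_zero hm hP (show l + 1 < n by omega)])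
  have hR0 : ρ (L - 1) ≤ R := hF.le (L - 1) (by omega)
  have hRL : R ≤ ρ L := hF.ge
  have hmem := Mb_mem hm hP hlast (t := R - ρ (L - 1)) ⟨by linarith, by rw [heq]; linarith⟩
  refine ⟨Mb n (gm n) ρ (L - 1) (R - ρ (L - 1)), hmem.1, hmem.2, fun l hl => ?_⟩
  refine (key l hl).trans ?_
  have h6 : 0 ≤ ρ l := hnn l (by omega)
  have h7 : ρ l ≤ X := (hF.le l hl).trans hRX
  have h8 : R * ρ l ≤ X * X := mul_le_mul hRX h7 h6 hX.le
  calc (C₁ + 7 * |D|) * (X * √X) * R * ρ l = (C₁ + 7 * |D|) * (X * √X) * (R * ρ l) := by ring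
    _ ≤ (C₁ + 7 * |D|) * (X * √X) * (X * X) := mul_le_mul_of_nonneg_left h8 hE
    _ = (C₁ + 7 * |D|) * (X ^ 3 * √X) := by ring

theorem expd_of {b : ℝ} (D : ℝ)
    (hm1e : ∃ C : ℝ, 1 ≤ C ∧ ∀ (n : ℕ) (X : ℝ) (r : ℕ → ℝ), BPath b n r → 0 < X →
    X ≤ 1 → ∀ l < n, gm n (l + 1) ≤ X → ∀ t ∈ Icc 0 (r (l + 1) - r l), r l + t ≤ X →
      |M1b n (gm n) r l t - (kk n r ^ 2 * (r l + t) - 2 * gm n (l + 1) * vv n r ^ 3)| ≤
        C * (X * √X))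
    (hvk : ∃ c K : ℝ, 0 < c ∧ 1 ≤ K ∧ ∀ (n : ℕ) (r : ℕ → ℝ), BPath b n r →
    c ≤ vv n r ∧ vv n r ≤ 1 ∧ c ≤ kk n r ∧ kk n r ≤ K) :
    ∃ C : ℝ, 1 ≤ C ∧ ∀ (n L : ℕ) (R X v a : ℝ) (ρ : ℕ → ℝ),
    Fam b n L R ρ ρ → 1 ≤ L → L ≤ n → 0 < X → X ≤ 1 → R ≤ X → gm n L ≤ X → 0 ≤ v → v ≤ 1 →
    |v - vv n ρ| ≤ D * √X → |4 * v ^ 3 * a - kk n ρ ^ 2| ≤ D * √X →
    ∃ μ : ℝ, 0 ≤ μ ∧ μ ≤ 1 ∧ ∀ l < L, |spR n (gm n) ρ l - (μ * ρ l + 2 * v ^ 3 *
      ∫ u in (0 : ℝ)..(ρ l), (Aw n L R ρ u - a * (R ^ 2 - u ^ 2)))| ≤ C * (X ^ 3 * √X) := by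
  obtain ⟨C₁, hC₁, h1⟩ := hm1e
  obtain ⟨c, K, hc, _, hvk⟩ := hvk
  refine ⟨C₁ + 7 * |D|, by linarith [abs_nonneg D], fun n L R X v a ρ hF hL hLn hX hX1 hRX hgX
    hv hv1 h2 h3 => ?_⟩
  have hw := hvk n ρ hF.path
  exact expd_core (by linarith) hF hL hLn hX hRX hgX hv hv1 (hc.le.trans hw.1) hw.2.1
    (h1 n X ρ hF.path hX hX1) h2 h3

end Vale.Agent.P146.Sh
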