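import Vale.Agent.P146.Sh.ShLim
import Vale.Agent.P146.Sh.ShGrid
import Vale.Agent.P146.Ld.Cor1

/-!
# P146, Sh: the sharp constant of the exponential moments
-/

open MeasureTheory ProbabilityTheory Filter Topology Set

namespace Vale.Agent.P146.Sh

open Vale.Agent.P157.Par
open Vale.Agent.P146.Gap
open Vale.Agent.P146.Pw2
open Vale.Agent.P146.Lb
open Vale.Agent.P367.Cl

/-- the Parisi value -/
theorem shfin_pv (β : ℝ) : Sx.pv β = Real.log 2 + P0 β := rfl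

/-- the set of the constrained values is not empty -/
theorem shfin_ne {β x : ℝ} (hx1 : x ≤ 1) :
    {y | ∃ (K : ℕ) (m q : ℕ → ℝ), Exponents K m ∧ Path K q ∧ q 0 = 0 ∧ q K ≤ 1 ∧ x ≤ m 1 ∧
      y = SKpar β K m q}.Nonempty := by
  refine ⟨_, 0, fun l => if l = 0 then 0 else 1, fun _ => 0, ⟨if_pos rfl, ?_, ?_⟩,
    ⟨le_rfl, fun _ _ => le_rfl⟩, rfl, zero_le_one, ?_, rfl⟩
  · simp
  · intro l hl
    have : l = 0 := by omega
    subst this
    simp
  · simpa using hx1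

/-- Guerra's bound -/
theorem shfin_up {β : ℝ} (hβ : 0 < β) {n : ℕ} (hn : 1 ≤ n) {x : ℝ} (hx : 0 < x) (hx1 : x ≤ 1) :
    Real.log (∫ g, Real.exp (x * freeEnergy n β g) ∂(disorder n)) ≤
      x * n * (Real.log 2 + Vx β x) := by
  have hn0 : (0 : ℝ) < n := by exact_mod_cast hn
  have h1 : Real.log (∫ g, Real.exp (x * freeEnergy n β g) ∂(disorder n)) / (x * n) -
      Real.log 2 ≤ Vx β x := by
    refine le_csInf (shfin_ne hx1) ?_
    rintro y ⟨K, m, q, hm, hq, hq0, hq1, hxm, rfl⟩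
    have h := Ub.guerra hβ hn hm hq hq0 hq1 hx hxm
    rw [sub_le_iff_le_add, div_le_iff₀ (by positivity)]
    linarith
  rw [sub_le_iff_le_add, div_le_iff₀ (by positivity)] at h1
  linarith

/-- the lower bound at a point of the grid -/
theorem shfin_dn {β : ℝ} (hβ : 1 < β) : ∃ C : ℝ, 0 ≤ C ∧ ∀ K d : ℕ, 1 ≤ d → d ≤ K →
    ∀ n : ℕ, (K + 1) ^ 18 ≤ n → n * (Real.log 2 + Vx β (gm K d)) ≤
      1 / gm K d * Real.log (∫ g, Real.exp (gm K d * freeEnergy n β g) ∂(disorder n)) +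
        C * (n / √((K : ℝ) + 1)) := by
  obtain ⟨C, hC, h⟩ := Ub.Ld.rate_lower_d (β := β) (by linarith)
  refine ⟨C, hC, fun K d hd1 hd n hn => ?_⟩
  have h1 := h K d (Vx β (gm K d)) hd1 hd (fun q hq hq1 hq0 => by
    rw [Ld.cor_me]
    have hb : 0 < β := by linarith
    have hr : BPath β K (fun l => β ^ 2 * q l) := by
      refine ⟨?_, ⟨?_, ?_⟩, ?_⟩
      · simp only
        rw [hq0 0 (by omega), mul_zero]
      · simp only
        have := hq.1
        positivity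
      · intro l hl
        simp only
        have := hq.2 l hl
        gcongr
      · simp only
        have h2 : 0 ≤ β ^ 2 := by positivity
        nlinarith
    have h2 := vx_le hβ hd1 hd hr (fun l hl => by rw [hq0 l hl, mul_zero])
    rw [← gap2_SKr_eq hb] at h2
    have e : (fun l => β ^ 2 * q l / β ^ 2) = q := by
      funext l
      field_simp
    simp only [e] at h2
    exact h2) n hn
  rw [Ld.cor_me] at h1
  push_cast at h1
  exact h1

/-- points of the grid -/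
theorem shfin_pt {x : ℝ} (hx : 0 < x) (hx1 : x ≤ 1 / 2) {δ M : ℝ} (hδ : 0 < δ) :
    ∃ K d : ℕ, 1 ≤ d ∧ d ≤ K ∧ gm K d ≤ x ∧ 0 < gm K d ∧ x ^ 5 - δ ≤ gm K d ^ 5 ∧
      M ≤ √((K : ℝ) + 1) := by
  have t1 : Tendsto (fun K : ℕ => ((⌊x * ((K : ℝ) + 1)⌋₊ : ℕ) : ℝ) / ((K : ℝ) + 1)) atTop
      (𝓝 x) := by
    have h1 : Tendsto (fun K : ℕ => (K : ℝ) + 1) atTop atTop :=
      tendsto_atTop_add_const_right _ _ tendsto_natCast_atTop_atTop
    exact (tendsto_nat_floor_mul_div_atTop (R := ℝ) hx.le).comp h1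
  have t2 := t1.pow 5
  have e1 : ∀ᶠ K : ℕ in atTop, x ^ 5 - δ ≤
      (((⌊x * ((K : ℝ) + 1)⌋₊ : ℕ) : ℝ) / ((K : ℝ) + 1)) ^ 5 :=
    (t2.eventually (lt_mem_nhds (by linarith : x ^ 5 - δ < x ^ 5))).mono fun _ h => h.le
  have e2 : ∀ᶠ K : ℕ in atTop, M ≤ √((K : ℝ) + 1) := by
    have h1 : Tendsto (fun K : ℕ => √((K : ℝ) + 1)) atTop atTop :=
      Real.tendsto_sqrt_atTop.comp
        (tendsto_atTop_add_const_right _ _ tendsto_natCast_atTop_atTop)
    exact h1.eventually_ge_atTop M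
  have e3 : ∀ᶠ K : ℕ in atTop, 1 / x ≤ (K : ℝ) :=
    tendsto_natCast_atTop_atTop.eventually_ge_atTop _
  obtain ⟨K, h1, h2, h3⟩ := (e1.and (e2.and e3)).exists
  have hK0 : (0 : ℝ) ≤ K := Nat.cast_nonneg K
  have hK1 : (0 : ℝ) < (K : ℝ) + 1 := by linarith
  obtain ⟨d, hd⟩ : ∃ d : ℕ, d = ⌊x * ((K : ℝ) + 1)⌋₊ := ⟨_, rfl⟩
  rw [← hd] at h1
  have hxK : 1 ≤ x * K := by
    rw [div_le_iff₀ hx] at h3
    linarith
  have hd1 : 1 ≤ d := by
    rw [hd]
    refine Nat.le_floor ?_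
    push_cast
    linarith
  have hdx : (d : ℝ) ≤ x * ((K : ℝ) + 1) := by
    rw [hd]
    exact Nat.floor_le (by positivity)
  have hdK : d ≤ K := by
    have h4 : (1 : ℝ) ≤ K := by nlinarith
    have h5 : (d : ℝ) ≤ K := by nlinarith
    exact_mod_cast h5
  have hd0 : (0 : ℝ) < d := by exact_mod_cast hd1
  refine ⟨K, d, hd1, hdK, ?_, ?_, h1, h2⟩
  · unfold gm
    rw [div_le_iff₀ hK1]
    exact hdx
  · unfold gm
    positivity

/-- **The sharp constant of the exponential moments.** -/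
theorem sharp_moment {β : ℝ} (hβ : 1 < β) : ∃ A : ℝ, 0 < A ∧ ∀ ε : ℝ, 0 < ε → ∃ x₀ : ℝ, 0 < x₀ ∧
    ∀ x : ℝ, 0 < x → x ≤ x₀ → ∀ᶠ n : ℕ in atTop,
      |Real.log (∫ g, Real.exp (x * freeEnergy n β g) ∂(disorder n)) - x * (n * Sx.pv β) -
        A * n * x ^ 6| ≤ ε * n * x ^ 6 := by
  obtain ⟨A, hA, hlim⟩ := lim_A hβ
  obtain ⟨C, hC, hdn⟩ := shfin_dn hβ
  refine ⟨A, hA, fun ε hε => ?_⟩
  have h1 : ∀ᶠ x in 𝓝[>] (0 : ℝ), |(Vx β x - P0 β) / x ^ 5 - A| < ε / 4 := by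
    have := hlim.eventually (Metric.ball_mem_nhds A (by positivity : 0 < ε / 4))
    simpa [Real.dist_eq] using this
  obtain ⟨u, hu, h2⟩ := mem_nhdsGT_iff_exists_Ioo_subset.1 h1
  have hu0 : 0 < u := hu
  have hV : ∀ x, 0 < x → x < u → |Vx β x - P0 β - A * x ^ 5| ≤ ε / 4 * x ^ 5 := by
    intro x hx hxu
    have h3 : |(Vx β x - P0 β) / x ^ 5 - A| < ε / 4 := h2 ⟨hx, hxu⟩
    have hx5 : 0 < x ^ 5 := by positivity
    have e : Vx β x - P0 β - A * x ^ 5 = ((Vx β x - P0 β) / x ^ 5 - A) * x ^ 5 := by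
      field_simp
    rw [e, abs_mul, abs_of_pos hx5]
    exact mul_le_mul_of_nonneg_right h3.le hx5.le
  refine ⟨min (u / 2) (1 / 2), lt_min (by positivity) (by norm_num), fun x hx hxx => ?_⟩
  have hxu : x < u := by
    have := hxx.trans (min_le_left _ _)
    linarith
  have hx2 : x ≤ 1 / 2 := hxx.trans (min_le_right _ _)
  have hx5 : 0 < x ^ 5 := by positivity
  obtain ⟨K, d, hd1, hdK, hdx, hd0, hd5, hM⟩ := shfin_pt (δ := ε / (4 * A) * x ^ 5)
    (M := 4 * C / (ε * x ^ 5)) hx hx2 (by positivity)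
  filter_upwards [eventually_ge_atTop ((K + 1) ^ 18)] with n hn
  have hn1 : 1 ≤ n := le_trans (Nat.one_le_pow _ _ (by omega)) hn
  have hn0 : (0 : ℝ) < n := by exact_mod_cast hn1
  have hup := shfin_up (by linarith : 0 < β) hn1 hx (by linarith)
  have hVx := abs_le.1 (hV x hx hxu)
  rw [shfin_pv, abs_le]
  constructor
  · -- the lower bound
    have h3 := hdn K d hd1 hdK n hn
    obtain ⟨y, hy⟩ : ∃ y : ℝ, y = gm K d := ⟨_, rfl⟩
    rw [← hy] at h3 hdx hd0 hd5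
    have hVy := (abs_le.1 (hV y hd0 (lt_of_le_of_lt hdx hxu))).1
    have hmono := Ld.cor_mono (μ := disorder n) (X := freeEnergy n β)
      (fun x => Sx.integrable_exp n β x) hd0 hdx
    have hy5 : y ^ 5 ≤ x ^ 5 := pow_le_pow_left₀ hd0.le hdx 5
    have hA5 : A * x ^ 5 - ε / 4 * x ^ 5 ≤ A * y ^ 5 := by
      have h4 := mul_le_mul_of_nonneg_left hd5 hA.le
      have e : A * (x ^ 5 - ε / (4 * A) * x ^ 5) = A * x ^ 5 - ε / 4 * x ^ 5 := by
        field_simp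
      linarith
    have hε5 : ε / 4 * y ^ 5 ≤ ε / 4 * x ^ 5 := mul_le_mul_of_nonneg_left hy5 (by positivity)
    have hK0 : (0 : ℝ) < √((K : ℝ) + 1) := Real.sqrt_pos.2 (by positivity)
    have herr : C * (n / √((K : ℝ) + 1)) ≤ ε / 4 * x ^ 5 * n := by
      rw [div_le_iff₀ (by positivity)] at hM
      have h4 : C ≤ ε / 4 * x ^ 5 * √((K : ℝ) + 1) := by linarith
      have h5 : C * (n / √((K : ℝ) + 1)) ≤
          ε / 4 * x ^ 5 * √((K : ℝ) + 1) * (n / √((K : ℝ) + 1)) :=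
        mul_le_mul_of_nonneg_right h4 (by positivity)
      refine h5.trans (le_of_eq ?_)
      field_simp
    have h6 : (n : ℝ) * (Real.log 2 + P0 β) + n * (A * x ^ 5) - n * (3 / 4 * ε * x ^ 5) ≤
        1 / x * Real.log (∫ g, Real.exp (x * freeEnergy n β g) ∂(disorder n)) := by
      have h7 : (n : ℝ) * (P0 β + A * x ^ 5 - ε / 2 * x ^ 5) ≤ n * Vx β y :=
        mul_le_mul_of_nonneg_left (by linarith) hn0.le
      have h8 : (n : ℝ) * (Real.log 2 + Vx β y) = n * Real.log 2 + n * Vx β y := by ring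
      rw [h8] at h3
      nlinarith
    have h9 := mul_le_mul_of_nonneg_left h6 hx.le
    have e1 : x * (1 / x * Real.log (∫ g, Real.exp (x * freeEnergy n β g) ∂(disorder n))) =
        Real.log (∫ g, Real.exp (x * freeEnergy n β g) ∂(disorder n)) := by
      field_simp
    rw [e1] at h9
    have h10 : 0 ≤ ε * n * x ^ 6 := by positivity
    have e2 : x * (n * (Real.log 2 + P0 β) + n * (A * x ^ 5) - n * (3 / 4 * ε * x ^ 5)) =
        x * (n * (Real.log 2 + P0 β)) + A * n * x ^ 6 - 3 / 4 * (ε * n * x ^ 6) := by ring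
    rw [e2] at h9
    linarith
  · -- the upper bound
    have h3 : x * n * (Real.log 2 + Vx β x) ≤
        x * n * (Real.log 2 + (P0 β + A * x ^ 5 + ε / 4 * x ^ 5)) :=
      mul_le_mul_of_nonneg_left (by linarith) (by positivity)
    have h10 : 0 ≤ ε * n * x ^ 6 := by positivity
    have e2 : x * n * (Real.log 2 + (P0 β + A * x ^ 5 + ε / 4 * x ^ 5)) =
        x * (n * (Real.log 2 + P0 β)) + A * n * x ^ 6 + 1 / 4 * (ε * n * x ^ 6) := by ring
    rw [e2] at h3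
    linarith

end Vale.Agent.P146.Sh
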