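import Vale.Agent.P146.Sh.ShIterB
import Vale.Agent.P146.Sh.ShDown
import Vale.Agent.P146.Sh.ShUp

/-!
# P146, Sh: `(V_n(d) - V_n(0)) / x_d⁵` is almost decreasing in `d`
-/

open MeasureTheory ProbabilityTheory Filter Topology Set

namespace Vale.Agent.P146.Sh

open Vale.Agent.P157.Par
open Vale.Agent.P146.Gap
open Vale.Agent.P146.Pw2
open Vale.Agent.P146.Lb
open Vale.Agent.P367.Cl

theorem iter {b : ℝ} (hb : 1 < b) : ∃ c C : ℝ, 0 < c ∧ 1 ≤ C ∧ ∀ (n d₁ d₂ : ℕ)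
    (r₀ r₁ r₂ : ℕ → ℝ), 1 ≤ d₁ → d₁ ≤ d₂ → d₂ ≤ n → IsMinD b n 0 r₀ → IsMinD b n d₁ r₁ →
    IsMinD b n d₂ r₂ → gm n d₂ ≤ c → C ≤ gm n d₁ ^ 40 * (n + 1) →
      (SKr b n (gm n) r₂ - SKr b n (gm n) r₀) / gm n d₂ ^ 5 ≤
        (SKr b n (gm n) r₁ - SKr b n (gm n) r₀) / gm n d₁ ^ 5 + C * √(gm n d₂) :=
  iter_of hb (down hb) (up hb)

end Vale.Agent.P146.Sh
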