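import Vale.Agent.P146.Sh.ShDefs

/-!
# P146, Sh: `(V_n(d) - V_n(0)) / x_d⁵` is almost decreasing in `d`
-/

open MeasureTheory ProbabilityTheory Filter Topology Set

namespace Vale.Agent.P146.Sh

open Vale.Agent.P157.Par
open Vale.Agent.P146.Gap
open Vale.Agent.P146.Pw2
open Vale.Agent.P146.Lb
open Vale.Agent.P367.Cl

/-- one step -/
theorem shiterB_step {δ x D D' B C : ℝ} (hδ : 0 < δ) (hx : 0 < x) (hC : 0 ≤ C) (hD : 0 ≤ D)
    (h1 : 9 / 80 * B * x ^ 5 ≤ D + C * (x ^ 5 * √x))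
    (h2 : D' ≤ D + δ * (9 / 16 * B * x ^ 4 + C * (x ^ 4 * √x))) :
    D' / (x + δ) ^ 5 ≤ D / x ^ 5 + 12 * C * (√(x + δ) - √x) := by
  set s := √x with hs
  set t := √(x + δ) with ht
  have hs0 : 0 < s := Real.sqrt_pos.2 hx
  have hst : s ≤ t := Real.sqrt_le_sqrt (by linarith)
  have ht0 : 0 < t := hs0.trans_le hst
  have hs2 : s ^ 2 = x := Real.sq_sqrt hx.le
  have ht2 : t ^ 2 = x + δ := Real.sq_sqrt (by linarith)
  rw [div_le_iff₀ (by positivity)]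
  have e1 : 9 / 16 * B * x ^ 4 ≤ 5 * D / x + 5 * C * (x ^ 4 * s) := by
    have e2 : 9 / 16 * B * x ^ 4 = 5 / x * (9 / 80 * B * x ^ 5) := by
      field_simp
      ring
    have e3 : 5 * D / x + 5 * C * (x ^ 4 * s) = 5 / x * (D + C * (x ^ 5 * s)) := by
      field_simp
    rw [e2, e3]
    exact mul_le_mul_of_nonneg_left h1 (by positivity)
  have e4 : D' ≤ D * (1 + 5 * (δ / x)) + 6 * C * δ * (x ^ 4 * s) := by
    have e5 : δ * (9 / 16 * B * x ^ 4 + C * (x ^ 4 * s)) ≤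
        δ * (5 * D / x + 5 * C * (x ^ 4 * s) + C * (x ^ 4 * s)) :=
      mul_le_mul_of_nonneg_left (by linarith) hδ.le
    refine (h2.trans (by linarith [e5] : _ ≤ D + δ * (5 * D / x + 5 * C * (x ^ 4 * s) +
      C * (x ^ 4 * s)))).trans (le_of_eq ?_)
    ring
  have e6 : D * (1 + 5 * (δ / x)) ≤ D / x ^ 5 * (x + δ) ^ 5 := by
    have e7 : D / x ^ 5 * (x + δ) ^ 5 = D * (1 + δ / x) ^ 5 := by
      have : x + δ = x * (1 + δ / x) := by
        field_simp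
      rw [this, mul_pow]
      field_simp
    rw [e7]
    refine mul_le_mul_of_nonneg_left ?_ hD
    have e8 := one_add_mul_le_pow (a := δ / x) (by
      have : 0 < δ / x := by positivity
      linarith) 5
    norm_num at e8 ⊢
    exact e8
  have e9 : 6 * C * δ * (x ^ 4 * s) ≤ 12 * C * (t - s) * (x + δ) ^ 5 := by
    have f1 : δ = (t - s) * (t + s) := by
      have : δ = t ^ 2 - s ^ 2 := by rw [hs2, ht2]; ring
      rw [this]
      ring
    have f2 : (t + s) * s ^ 9 ≤ 2 * t ^ 10 := by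
      have f3 : s ^ 9 ≤ t ^ 9 := pow_le_pow_left₀ hs0.le hst 9
      calc (t + s) * s ^ 9 ≤ (2 * t) * t ^ 9 := by
            refine mul_le_mul (by linarith) f3 (by positivity) (by positivity)
        _ = 2 * t ^ 10 := by ring
    have f4 : x ^ 4 * s = s ^ 9 := by
      rw [← hs2]
      ring
    have f5 : (x + δ) ^ 5 = t ^ 10 := by
      rw [← ht2]
      ring
    rw [f4, f5, f1]
    have f6 : 0 ≤ 6 * C * (t - s) := mul_nonneg (by linarith) (by linarith)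
    calc 6 * C * ((t - s) * (t + s)) * s ^ 9 = 6 * C * (t - s) * ((t + s) * s ^ 9) := by ring
      _ ≤ 6 * C * (t - s) * (2 * t ^ 10) := mul_le_mul_of_nonneg_left f2 f6
      _ = 12 * C * (t - s) * t ^ 10 := by ring
  calc D' ≤ D * (1 + 5 * (δ / x)) + 6 * C * δ * (x ^ 4 * s) := e4
    _ ≤ D / x ^ 5 * (x + δ) ^ 5 + 12 * C * (t - s) * (x + δ) ^ 5 := add_le_add e6 e9
    _ = (D / x ^ 5 + 12 * C * (t - s)) * (x + δ) ^ 5 := by ring

theorem iter_of {b : ℝ} (hb : 1 < b)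
    (hdown : ∃ c C : ℝ, 0 < c ∧ 1 ≤ C ∧ ∀ (n d : ℕ) (r : ℕ → ℝ),
      1 ≤ d → d ≤ n → IsMinD b n d r → gm n d ≤ c → C ≤ gm n d ^ 40 * (n + 1) →
        ∃ r', BPath b n r' ∧ SKr b n (gm n) r' + 9 / 80 * vv n r ^ 12 / kk n r ^ 6 * gm n d ^ 5 ≤
          SKr b n (gm n) r + C * (gm n d ^ 5 * √(gm n d)))
    (hup : ∃ c C : ℝ, 0 < c ∧ 1 ≤ C ∧ ∀ (n d : ℕ) (r : ℕ → ℝ),
      1 ≤ d → d < n → IsMinD b n d r → gm n d ≤ c → C ≤ gm n d ^ 40 * (n + 1) →
        ∃ r', BPath b n r' ∧ (∀ l < d + 1, r' l = 0) ∧ SKr b n (gm n) r' ≤ SKr b n (gm n) r +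
          1 / ((n : ℝ) + 1) * (9 / 16 * vv n r ^ 12 / kk n r ^ 6 * gm n d ^ 4 +
            C * (gm n d ^ 4 * √(gm n d)))) :
    ∃ c C : ℝ, 0 < c ∧ 1 ≤ C ∧ ∀ (n d₁ d₂ : ℕ)
    (r₀ r₁ r₂ : ℕ → ℝ), 1 ≤ d₁ → d₁ ≤ d₂ → d₂ ≤ n → IsMinD b n 0 r₀ → IsMinD b n d₁ r₁ →
    IsMinD b n d₂ r₂ → gm n d₂ ≤ c → C ≤ gm n d₁ ^ 40 * (n + 1) →
      (SKr b n (gm n) r₂ - SKr b n (gm n) r₀) / gm n d₂ ^ 5 ≤
        (SKr b n (gm n) r₁ - SKr b n (gm n) r₀) / gm n d₁ ^ 5 + C * √(gm n d₂) := by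
  obtain ⟨cd, Cd, hcd, hCd, hd⟩ := hdown
  obtain ⟨cu, Cu, hcu, hCu, hu⟩ := hup
  have hb0 : 0 < b := by linarith
  set C₀ := max Cd Cu with hC₀
  have hCdle : Cd ≤ C₀ := le_max_left _ _
  have hCule : Cu ≤ C₀ := le_max_right _ _
  have hC1 : 1 ≤ C₀ := hCd.trans hCdle
  refine ⟨min cd cu, 12 * C₀, lt_min hcd hcu, by linarith, ?_⟩
  intro n d₁ d₂ r₀ r₁ r₂ h1 h12 h2 hr₀ hr₁ hr₂ hx hbig
  have hn : (0 : ℝ) < (n : ℝ) + 1 := by positivity
  have gpos : ∀ d, 1 ≤ d → 0 < gm n d := by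
    intro d hd'
    unfold gm
    have : (0 : ℝ) < d := by exact_mod_cast hd'
    positivity
  have gmono : ∀ d e, d ≤ e → gm n d ≤ gm n e := by
    intro d e h
    unfold gm
    exact div_le_div_of_nonneg_right (by exact_mod_cast h) hn.le
  have gsucc : ∀ d, gm n (d + 1) = gm n d + 1 / ((n : ℝ) + 1) := by
    intro d
    unfold gm
    push_cast
    ring
  have hmin0 : ∀ r, BPath b n r → SKr b n (gm n) r₀ ≤ SKr b n (gm n) r :=
    fun r hr => hr₀.2.2 r hr (fun l hl => absurd hl (Nat.not_lt_zero _))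
  have key : ∀ m, d₁ + m ≤ d₂ → ∀ r, IsMinD b n (d₁ + m) r →
      (SKr b n (gm n) r - SKr b n (gm n) r₀) / gm n (d₁ + m) ^ 5 ≤
        (SKr b n (gm n) r₁ - SKr b n (gm n) r₀) / gm n d₁ ^ 5 +
          12 * C₀ * (√(gm n (d₁ + m)) - √(gm n d₁)) := by
    intro m
    induction m with
    | zero =>
      intro _ r hr
      have e1 : SKr b n (gm n) r = SKr b n (gm n) r₁ :=
        le_antisymm (hr.2.2 _ hr₁.1 hr₁.2.1) (hr₁.2.2 _ hr.1 hr.2.1)
      rw [e1]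
      simp
    | succ m ih =>
      intro hm r hr
      have hdm : 1 ≤ d₁ + m := by omega
      obtain ⟨q, hq⟩ := exists_minD (n := n) (d := d₁ + m) hb0 (by omega)
      have ih' := ih (by omega) q hq
      have hxm : gm n (d₁ + m) ≤ min cd cu := (gmono _ _ (by omega)).trans hx
      have hgb : C₀ ≤ gm n (d₁ + m) ^ 40 * ((n : ℝ) + 1) := by
        have e2 : gm n d₁ ^ 40 * ((n : ℝ) + 1) ≤ gm n (d₁ + m) ^ 40 * ((n : ℝ) + 1) :=
          mul_le_mul_of_nonneg_right (pow_le_pow_left₀ (gpos _ h1).le (gmono _ _ (by omega)) 40)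
            hn.le
        linarith
      obtain ⟨r', hr', hr'2⟩ := hd n (d₁ + m) q hdm (by omega) hq (hxm.trans (min_le_left _ _))
        (hCdle.trans hgb)
      obtain ⟨r'', hr'', hr''0, hr''2⟩ := hu n (d₁ + m) q hdm (by omega) hq
        (hxm.trans (min_le_right _ _)) (hCule.trans hgb)
      have e3 := hmin0 _ hr'
      have e4 : SKr b n (gm n) r ≤ SKr b n (gm n) r'' := hr.2.2 _ hr'' hr''0
      have hx0 := gpos _ hdm
      have hst := shiterB_step (δ := 1 / ((n : ℝ) + 1)) (x := gm n (d₁ + m))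
        (D := SKr b n (gm n) q - SKr b n (gm n) r₀) (D' := SKr b n (gm n) r - SKr b n (gm n) r₀)
        (B := vv n q ^ 12 / kk n q ^ 6) (C := C₀) (by positivity) hx0 (by linarith)
        (by linarith [hmin0 _ hq.1]) (by
          have e5 : Cd * (gm n (d₁ + m) ^ 5 * √(gm n (d₁ + m))) ≤
              C₀ * (gm n (d₁ + m) ^ 5 * √(gm n (d₁ + m))) :=
            mul_le_mul_of_nonneg_right hCdle (by positivity)
          have e6 : 9 / 80 * (vv n q ^ 12 / kk n q ^ 6) * gm n (d₁ + m) ^ 5 =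
              9 / 80 * vv n q ^ 12 / kk n q ^ 6 * gm n (d₁ + m) ^ 5 := by ring
          rw [e6]
          linarith) (by
          have e5 : Cu * (gm n (d₁ + m) ^ 4 * √(gm n (d₁ + m))) ≤
              C₀ * (gm n (d₁ + m) ^ 4 * √(gm n (d₁ + m))) :=
            mul_le_mul_of_nonneg_right hCule (by positivity)
          have e6 : 9 / 16 * (vv n q ^ 12 / kk n q ^ 6) * gm n (d₁ + m) ^ 4 =
              9 / 16 * vv n q ^ 12 / kk n q ^ 6 * gm n (d₁ + m) ^ 4 := by ring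
          rw [e6]
          have e7 : 1 / ((n : ℝ) + 1) * (9 / 16 * vv n q ^ 12 / kk n q ^ 6 * gm n (d₁ + m) ^ 4 +
              Cu * (gm n (d₁ + m) ^ 4 * √(gm n (d₁ + m)))) ≤
              1 / ((n : ℝ) + 1) * (9 / 16 * vv n q ^ 12 / kk n q ^ 6 * gm n (d₁ + m) ^ 4 +
              C₀ * (gm n (d₁ + m) ^ 4 * √(gm n (d₁ + m)))) :=
            mul_le_mul_of_nonneg_left (by linarith) (by positivity)
          linarith)
      rw [← gsucc] at hst
      change (SKr b n (gm n) r - SKr b n (gm n) r₀) / gm n (d₁ + m + 1) ^ 5 ≤ _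
      have e8 : √(gm n (d₁ + (m + 1))) = √(gm n (d₁ + m + 1)) := rfl
      rw [e8]
      linarith
  obtain ⟨m, rfl⟩ := Nat.exists_eq_add_of_le h12
  refine (key m le_rfl r₂ hr₂).trans ?_
  have e9 : 0 ≤ 12 * C₀ * √(gm n d₁) := by positivity
  linarith

end Vale.Agent.P146.Sh
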