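import Vale.Agent.P146.Gap.Jets

/-!
# P146, Sh: the time derivative of the fifth space derivative (brick ShK5a)
-/

set_option linter.all false

open MeasureTheory ProbabilityTheory Filter Topology Set

namespace Vale.Agent.P146.Sh

open Vale.Agent.P157.Par
open Vale.Agent.P146.Gap

section Poly

variable {a1 a2 a3 a4 a5 a6 : ℝ → ℝ} {b1 b2 b3 b4 b5 b6 t : ℝ}

theorem jets_k6 (h1 : HasDerivAt a1 b1 t) (h2 : HasDerivAt a2 b2 t) (h3 : HasDerivAt a3 b3 t)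
    (h4 : HasDerivAt a4 b4 t) (h5 : HasDerivAt a5 b5 t) (h6 : HasDerivAt a6 b6 t) :
    HasDerivAt (fun t => a6 t - 6 * (a1 t * a5 t) - 15 * (a2 t * a4 t) +
      30 * (a1 t ^ 2 * a4 t) - 10 * a3 t ^ 2 + 120 * (a1 t * a2 t * a3 t) -
      120 * (a1 t ^ 3 * a3 t) + 30 * a2 t ^ 3 - 270 * (a1 t ^ 2 * a2 t ^ 2) +
      360 * (a1 t ^ 4 * a2 t) - 120 * a1 t ^ 6)
      (b6 - 6 * (b1 * a5 t + a1 t * b5) - 15 * (b2 * a4 t + a2 t * b4) +
        30 * (2 * a1 t * b1 * a4 t + a1 t ^ 2 * b4) - 20 * a3 t * b3 +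
        120 * ((b1 * a2 t + a1 t * b2) * a3 t + a1 t * a2 t * b3) -
        120 * (3 * a1 t ^ 2 * b1 * a3 t + a1 t ^ 3 * b3) + 90 * a2 t ^ 2 * b2 -
        270 * (2 * a1 t * b1 * a2 t ^ 2 + a1 t ^ 2 * (2 * a2 t * b2)) +
        360 * (4 * a1 t ^ 3 * b1 * a2 t + a1 t ^ 4 * b2) - 720 * a1 t ^ 5 * b1) t := by
  refine ((((((((((h6.sub ((h1.mul h5).const_mul 6)).sub ((h2.mul h4).const_mul 15)).add
    (((h1.pow 2).mul h4).const_mul 30)).sub ((h3.pow 2).const_mul 10)).add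
    (((h1.mul h2).mul h3).const_mul 120)).sub (((h1.pow 3).mul h3).const_mul 120)).add
    ((h2.pow 3).const_mul 30)).sub (((h1.pow 2).mul (h2.pow 2)).const_mul 270)).add
    (((h1.pow 4).mul h2).const_mul 360)).sub ((h1.pow 6).const_mul 120)).congr_deriv ?_
  norm_num
  ring

end Poly

variable {g : ℝ} {F : ℝ → ℝ}

theorem jets_f7 (h : SmB F) (hg : 0 < g) (s x : ℝ) :
    fj g F 7 s x = 1 / g * (jetsR (jetsPsi g F) 7 s x -
      7 * (jetsR (jetsPsi g F) 1 s x * jetsR (jetsPsi g F) 6 s x) -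
      21 * (jetsR (jetsPsi g F) 2 s x * jetsR (jetsPsi g F) 5 s x) +
      42 * (jetsR (jetsPsi g F) 1 s x ^ 2 * jetsR (jetsPsi g F) 5 s x) -
      35 * (jetsR (jetsPsi g F) 3 s x * jetsR (jetsPsi g F) 4 s x) +
      210 * (jetsR (jetsPsi g F) 1 s x * jetsR (jetsPsi g F) 2 s x * jetsR (jetsPsi g F) 4 s x) -
      210 * (jetsR (jetsPsi g F) 1 s x ^ 3 * jetsR (jetsPsi g F) 4 s x) +
      140 * (jetsR (jetsPsi g F) 1 s x * jetsR (jetsPsi g F) 3 s x ^ 2) +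
      210 * (jetsR (jetsPsi g F) 2 s x ^ 2 * jetsR (jetsPsi g F) 3 s x) -
      1260 * (jetsR (jetsPsi g F) 1 s x ^ 2 * jetsR (jetsPsi g F) 2 s x *
        jetsR (jetsPsi g F) 3 s x) +
      840 * (jetsR (jetsPsi g F) 1 s x ^ 4 * jetsR (jetsPsi g F) 3 s x) -
      630 * (jetsR (jetsPsi g F) 1 s x * jetsR (jetsPsi g F) 2 s x ^ 3) +
      2520 * (jetsR (jetsPsi g F) 1 s x ^ 3 * jetsR (jetsPsi g F) 2 s x ^ 2) -
      2520 * (jetsR (jetsPsi g F) 1 s x ^ 5 * jetsR (jetsPsi g F) 2 s x) +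
      720 * jetsR (jetsPsi g F) 1 s x ^ 7) := by
  have hp : PosF (jetsPsi g F) := posF_exp h g
  rw [jets_next h hg 6 s (jets_f6 h hg s)
    (fun x => jets_k6 (jetsR_x hp 1 s x) (jetsR_x hp 2 s x) (jetsR_x hp 3 s x)
      (jetsR_x hp 4 s x) (jetsR_x hp 5 s x) (jetsR_x hp 6 s x)) x]
  simp only [Nat.reduceAdd]
  ring

theorem fj_s5 (h : SmB F) (hg : 0 < g) {s : ℝ} (hs : 0 < s) (x : ℝ) :
    HasDerivAt (fun s => fj g F 5 s x)
      (1 / 2 * fj g F 7 s x + g * (10 * fj g F 3 s x * fj g F 4 s x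
        + 5 * fj g F 2 s x * fj g F 5 s x + fj g F 1 s x * fj g F 6 s x)) s := by
  have hp : PosF (jetsPsi g F) := posF_exp h g
  refine jets_time 5 (fun s => jets_f5 h hg s x)
    (jets_k5 (jetsR_s hp 1 hs x) (jetsR_s hp 2 hs x) (jetsR_s hp 3 hs x) (jetsR_s hp 4 hs x)
      (jetsR_s hp 5 hs x)) ?_
  rw [jets_f1 h hg, jets_f2 h hg, jets_f3 h hg, jets_f4 h hg, jets_f5 h hg, jets_f6 h hg,
    jets_f7 h hg]
  simp only [Nat.reduceAdd]
  generalize jetsR (jetsPsi g F) 1 s x = c1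
  generalize jetsR (jetsPsi g F) 2 s x = c2
  generalize jetsR (jetsPsi g F) 3 s x = c3
  generalize jetsR (jetsPsi g F) 4 s x = c4
  generalize jetsR (jetsPsi g F) 5 s x = c5
  generalize jetsR (jetsPsi g F) 6 s x = c6
  generalize jetsR (jetsPsi g F) 7 s x = c7
  field_simp
  ring

end Vale.Agent.P146.Sh
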