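import Vale.Agent.P146.Sh.ShDefs
import Vale.Agent.P146.Sh.ShK5a

/-!
# P146, Sh: the fifth derivative of the functions of the recursion
-/

open MeasureTheory ProbabilityTheory Filter Topology Set

namespace Vale.Agent.P146.Sh

open Vale.Agent.P157.Par
open Vale.Agent.P146.Gap
open Vale.Agent.P146.Pw2
open Vale.Agent.P146.Lb
open Vale.Agent.P367.Cl

/-- fifth derivative of `log cosh` -/
theorem shk5_lc : iteratedDeriv 5 lc =
    fun x => Real.tanh x * (1 - Real.tanh x ^ 2) * (16 - 24 * Real.tanh x ^ 2) := by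
  refine adm_its adm_lc_it4 fun x => ?_
  have h1 := ec_logcosh.d2 x
  refine (((h1.pow 2).const_sub 1).mul (((h1.pow 2).const_mul 6).sub_const 2)).congr_deriv ?_
  simp only [Nat.cast_ofNat, Nat.add_one_sub_one, pow_one, Pi.pow_apply]
  ring

theorem shk5_lc_le (x : ℝ) : |iteratedDeriv 5 lc x| ≤ 120 * iteratedDeriv 2 lc x := by
  rw [shk5_lc, adm_lc_it2]
  have h1 := adm_tanh_sq x
  have h2 : |Real.tanh x| ≤ 1 := ec_logcosh.abs_M x
  have h3 : |16 - 24 * Real.tanh x ^ 2| ≤ 120 := by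
    rw [abs_le]
    constructor <;> nlinarith [sq_nonneg (Real.tanh x)]
  simp only [abs_mul, abs_of_pos h1]
  calc |Real.tanh x| * (1 - Real.tanh x ^ 2) * |16 - 24 * Real.tanh x ^ 2|
      ≤ 1 * (1 - Real.tanh x ^ 2) * 120 := by
        refine mul_le_mul (mul_le_mul_of_nonneg_right h2 h1.le) h3 (abs_nonneg _) ?_
        positivity
    _ = 120 * (1 - Real.tanh x ^ 2) := by ring

/-- The fifth derivative along one step. -/
theorem shk5_unif {s v g : ℝ} {F : ℝ → ℝ} (h : AKs s F)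
    (h5 : ∀ x, |iteratedDeriv 5 F x| ≤ 120 * Real.exp (6 * s) * iteratedDeriv 2 F x)
    (hg : 0 < g) (hg1 : g ≤ 1) (hv : 0 < v) :
    ∀ τ ∈ Icc 0 v, ∀ x, |fj g F 5 τ x| ≤ 120 * Real.exp (6 * (s + τ)) * fj g F 2 τ x := by
  have key : ∀ σ : ℝ, σ = 1 ∨ σ = -1 → ∀ τ ∈ Icc 0 v, ∀ x,
      σ * fj g F 5 τ x ≤ 120 * Real.exp (6 * (s + τ)) * fj g F 2 τ x := by
    intro σ hσ
    refine adm_flow (j := 4) (κ := 5) (σ := σ) (Λ := 120 * Real.exp (6 * (s + v)))
      (E := fun τ x => 10 * fj g F 3 τ x * fj g F 4 τ x)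
      (lam := fun τ => 120 * Real.exp (6 * (s + τ)))
      (lam' := fun τ => 720 * Real.exp (6 * (s + τ))) h.adm.smb hg hv (by norm_num)
      ?_ ?_ ?_ ?_ ?_
    · intro τ
      have h1 : HasDerivAt (fun τ : ℝ => 6 * (s + τ)) 6 τ := by
        simpa using ((hasDerivAt_id τ).const_add s).const_mul 6
      refine (h1.exp.const_mul 120).congr_deriv ?_
      ring
    · intro τ hτ
      rw [abs_of_nonneg (by positivity)]
      refine mul_le_mul_of_nonneg_left (Real.exp_le_exp.2 ?_) (by norm_num)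
      linarith [hτ.2]
    · intro τ hτ x
      refine (fj_s5 h.adm.smb hg hτ.1 x).congr_deriv ?_
      ring
    · intro τ hτ x
      have hx3 := adm_r3_unif h.adm hg hg1 hv τ ⟨hτ.1.le, hτ.2.le⟩ x
      have hx4 := aks_unif h hg hg1 hv τ ⟨hτ.1.le, hτ.2.le⟩ x
      have h1 : 0 < fj g F 2 τ x := adm_fj2_pos h.adm hg hg1 τ x
      have h2 := adm_fj2_le h.adm hg hg1 τ x
      have h4 : fj g F 2 τ x ≤ 1 := by linarith [sq_nonneg (fj g F 1 τ x)]
      have hx3' : |fj g F 3 τ x| ≤ 2 * Real.exp (2 * (s + τ)) * 1 := by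
        refine hx3.trans ?_
        refine mul_le_mul ?_ h4 h1.le (by positivity)
        rw [mul_assoc, ← Real.exp_add]
        refine mul_le_mul_of_nonneg_left (Real.exp_le_exp.2 ?_) (by norm_num)
        have := mul_le_of_le_one_left hτ.1.le hg1
        linarith
      have hE : |10 * fj g F 3 τ x * fj g F 4 τ x| ≤
          240 * Real.exp (6 * (s + τ)) * fj g F 2 τ x := by
        rw [abs_mul, abs_mul]
        have e1 : |(10 : ℝ)| = 10 := by norm_num
        rw [e1]
        calc 10 * |fj g F 3 τ x| * |fj g F 4 τ x|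
            ≤ 10 * (2 * Real.exp (2 * (s + τ)) * 1) *
              (12 * Real.exp (4 * (s + τ)) * fj g F 2 τ x) :=
              mul_le_mul (mul_le_mul_of_nonneg_left hx3' (by norm_num)) hx4 (abs_nonneg _)
                (by positivity)
          _ = 240 * (Real.exp (2 * (s + τ)) * Real.exp (4 * (s + τ))) * fj g F 2 τ x := by ring
          _ = 240 * Real.exp (6 * (s + τ)) * fj g F 2 τ x := by
              rw [← Real.exp_add]
              congr 3
              ring
      obtain ⟨a, ha⟩ : ∃ a : ℝ, a = fj g F 2 τ x := ⟨_, rfl⟩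
      obtain ⟨c, hc⟩ : ∃ c : ℝ, c = 10 * fj g F 3 τ x * fj g F 4 τ x := ⟨_, rfl⟩
      obtain ⟨e, he⟩ : ∃ e : ℝ, e = Real.exp (6 * (s + τ)) := ⟨_, rfl⟩
      have he0 : 0 < e := he ▸ Real.exp_pos _
      rw [← ha, ← he, ← hc] at hE
      rw [← ha] at h1 h4
      rw [← ha, ← he, ← hc]
      have h8 : σ * (g * c) ≤ 240 * e * a := by
        have h9 : |g * c| ≤ 240 * e * a := by
          rw [abs_mul, abs_of_pos hg]
          calc g * |c| ≤ 1 * |c| := mul_le_mul_of_nonneg_right hg1 (abs_nonneg _)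
            _ ≤ 240 * e * a := by rw [one_mul]; exact hE
        rcases hσ with rfl | rfl
        · linarith [le_abs_self (g * c)]
        · linarith [neg_abs_le (g * c)]
      have h9 : 0 ≤ 480 * e * a * (1 - g * a) := by
        have : g * a ≤ 1 := mul_le_one₀ hg1 h1.le h4
        exact mul_nonneg (by positivity) (by linarith)
      have h10 : a * (720 * e - (5 - 1) * g * a * (120 * e)) =
          240 * e * a + 480 * e * a * (1 - g * a) := by ring
      rw [h10]
      linarith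
    · intro x
      rw [fj_zero hg.ne', fj_zero hg.ne']
      have h1 := abs_le.1 (h5 x)
      simp only [add_zero]
      rcases hσ with rfl | rfl
      · linarith [h1.2]
      · linarith [h1.1]
  intro τ hτ x
  have h1 := key 1 (Or.inl rfl) τ hτ x
  have h2 := key (-1) (Or.inr rfl) τ hτ x
  rw [abs_le]
  constructor <;> linarith

theorem shk5_step {s v g : ℝ} {F : ℝ → ℝ} (h : AKs s F)
    (h5 : ∀ x, |iteratedDeriv 5 F x| ≤ 120 * Real.exp (6 * s) * iteratedDeriv 2 F x)
    (hg : 0 < g) (hg1 : g ≤ 1) (hv : 0 ≤ v) :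
    ∀ x, |iteratedDeriv 5 (gstep g v F) x| ≤
      120 * Real.exp (6 * (s + v)) * iteratedDeriv 2 (gstep g v F) x := by
  rcases hv.eq_or_lt with rfl | hv'
  · rw [gstep_zero hg.ne', add_zero]
    exact h5
  · exact fun x => shk5_unif h h5 hg hg1 hv' v ⟨hv, le_rfl⟩ x

theorem shk5_fl {n : ℕ} {m r : ℕ → ℝ} (hm : Exponents n m) (hr : Path n r) {l : ℕ} (hl : l ≤ n) :
    ∀ x, |iteratedDeriv 5 (Fl n m r l) x| ≤
      120 * Real.exp (6 * (r n - r l)) * iteratedDeriv 2 (Fl n m r l) x := by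
  induction hl using Nat.decreasingInduction with
  | self =>
    rw [sub_self, fl_last, mul_zero, Real.exp_zero, mul_one]
    exact shk5_lc_le
  | of_succ l hl ih =>
    obtain ⟨g0, g1⟩ := sp7_exp_of hm l hl
    have h1 : 0 ≤ r n - r (l + 1) := sub_nonneg.2 (minb_mono hr.2 hl le_rfl)
    have h2 := shk5_step (fl_aks hm hr hl) ih g0 g1 (sub_nonneg.2 (hr.2 l hl))
    rw [fl_succ hl]
    have e : r n - r (l + 1) + (r (l + 1) - r l) = r n - r l := by ring
    rwa [e] at h2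

theorem shk5_mono {K K' : ℝ} (hKK : K ≤ K') {F : ℝ → ℝ} (h : AK K F) : AK K' F where
  adm := h.adm.mono_C hKK
  k3 := fun x => (h.k3 x).trans (mul_le_mul_of_nonneg_right hKK (abs_nonneg _))
  k4 := fun x => (h.k4 x).trans (mul_le_mul_of_nonneg_right hKK (h.adm.pos x).le)
  low := fun x => (h.low x).trans (mul_le_mul_of_nonneg_right hKK (abs_nonneg _))
  low0 := h.low0.trans (mul_le_mul_of_nonneg_right hKK (h.adm.pos 0).le)

theorem gb_class (b : ℝ) : ∃ K : ℝ, 1 ≤ K ∧ ∀ (n : ℕ) (r : ℕ → ℝ), BPath b n r → ∀ l < n,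
    ∀ t ∈ Icc 0 (r (l + 1) - r l), AK K (Gb n (gm n) r l t) ∧
      ∀ x, |iteratedDeriv 5 (Gb n (gm n) r l t) x| ≤ K := by
  obtain ⟨K, hK1, hK⟩ := AKs.ak (b ^ 2)
  refine ⟨max K (120 * Real.exp (6 * b ^ 2)), le_max_of_le_left hK1, fun n r hr l hl t ht => ?_⟩
  obtain ⟨h0, hp, hb⟩ := hr
  have hm := gm_exponents n
  have hpos : ∀ l ≤ n, 0 ≤ r l := fun l hl => by
    have := minb_mono hp.2 (Nat.zero_le l) hl
    rwa [h0] at this
  obtain ⟨g0, g1⟩ := sp7_exp_of hm l hl
  have h1 : 0 ≤ r n - r (l + 1) := sub_nonneg.2 (minb_mono hp.2 hl le_rfl)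
  have hv : 0 ≤ r (l + 1) - r l - t := by linarith [ht.2]
  have ha := (fl_aks hm hp (show l + 1 ≤ n from hl)).step h1 g0 g1 hv
  have h5 := shk5_step (fl_aks hm hp (show l + 1 ≤ n from hl)) (shk5_fl hm hp hl) g0 g1 hv
  have hs : r n - r (l + 1) + (r (l + 1) - r l - t) ≤ b ^ 2 := by
    linarith [hpos l hl.le, ht.1]
  have hak : AK K (Gb n (gm n) r l t) := hK _ _ (add_nonneg h1 hv) hs ha
  refine ⟨shk5_mono (le_max_left _ _) hak, fun x => ?_⟩
  refine le_trans (h5 x) ?_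
  refine le_trans ?_ (le_max_right _ _)
  have h2 := ha.adm.le1 x
  have h3 : iteratedDeriv 2 (gstep (gm n (l + 1)) (r (l + 1) - r l - t)
      (Fl n (gm n) r (l + 1))) x ≤ 1 := by
    nlinarith [sq_nonneg (iteratedDeriv 1 (gstep (gm n (l + 1)) (r (l + 1) - r l - t)
      (Fl n (gm n) r (l + 1))) x)]
  have h4 : Real.exp (6 * (r n - r (l + 1) + (r (l + 1) - r l - t))) ≤
      Real.exp (6 * b ^ 2) := Real.exp_le_exp.2 (by linarith)
  calc 120 * Real.exp (6 * (r n - r (l + 1) + (r (l + 1) - r l - t))) *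
        iteratedDeriv 2 (gstep (gm n (l + 1)) (r (l + 1) - r l - t)
          (Fl n (gm n) r (l + 1))) x
      ≤ 120 * Real.exp (6 * b ^ 2) * 1 :=
        mul_le_mul (mul_le_mul_of_nonneg_left h4 (by norm_num)) h3 (ha.adm.pos x).le
          (by positivity)
    _ = 120 * Real.exp (6 * b ^ 2) := mul_one _

end Vale.Agent.P146.Sh
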