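import Vale.Agent.P146.Sh.ShDefs

/-!
# P146, Sh: moments of `min 1 |x|` under the block averages

`d/dt Bt (G'⁴) = 6 Bt (G'² G''²) ≤ 6 Rb ≤ 6 (r l + t)`, hence `Bt (G'⁴) ≤ 3 (r l + t)²`; then
`min 1 |x| ≤ K |G'|`.
-/

open MeasureTheory ProbabilityTheory Filter Topology Set

namespace Vale.Agent.P146.Sh

open Vale.Agent.P157.Par
open Vale.Agent.P146.Gap
open Vale.Agent.P146.Pw2
open Vale.Agent.P146.Lb
open Vale.Agent.P367.Cl

variable {n l : ℕ} {m r : ℕ → ℝ} {t : ℝ}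

/-- `E G'⁴`. -/
noncomputable def mom_Q (n : ℕ) (m r : ℕ → ℝ) (l : ℕ) (t : ℝ) : ℝ :=
  Bt n m r l t (fun x => iteratedDeriv 1 (Gb n m r l t) x ^ 4)

lemma mom_Q_eq (n : ℕ) (m r : ℕ → ℝ) (l : ℕ) : mom_Q n m r l = fun t => Bt n m r l t (fun x =>
    (first_f (m (l + 1)) (r (l + 1) - r l) (Fl n m r (l + 1)) 1 t x *
      first_f (m (l + 1)) (r (l + 1) - r l) (Fl n m r (l + 1)) 1 t x) *
    (first_f (m (l + 1)) (r (l + 1) - r l) (Fl n m r (l + 1)) 1 t x *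
      first_f (m (l + 1)) (r (l + 1) - r l) (Fl n m r (l + 1)) 1 t x)) := by
  funext t
  unfold mom_Q
  congr 1
  funext x
  change first_f (m (l + 1)) (r (l + 1) - r l) (Fl n m r (l + 1)) 1 t x ^ 4 = _
  ring

theorem mom_Q_deriv (hm : Exponents n m) (hr : Path n r) (hl : l < n)
    (ht : t ∈ Ioo 0 (r (l + 1) - r l)) : HasDerivAt (mom_Q n m r l)
      (Bt n m r l t (fun x => 6 * (iteratedDeriv 1 (Gb n m r l t) x ^ 2 *
        iteratedDeriv 2 (Gb n m r l t) x ^ 2))) t := by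
  obtain ⟨C, hC⟩ := fblk_adm hm hr hl
  obtain ⟨g0, g1⟩ := sp7_exp_of hm l hl
  have h1 := first_P1 hC g0 (r (l + 1) - r l)
  rw [mom_Q_eq]
  refine (bt_deriv hm hr hl ((h1.mul h1).mul (h1.mul h1)) ht).congr_deriv ?_
  congr 1
  funext x
  change _ + _ + m (l + 1) * first_f (m (l + 1)) (r (l + 1) - r l) (Fl n m r (l + 1)) 1 t x * _ =
    6 * (first_f (m (l + 1)) (r (l + 1) - r l) (Fl n m r (l + 1)) 1 t x ^ 2 *
      first_f (m (l + 1)) (r (l + 1) - r l) (Fl n m r (l + 1)) 2 t x ^ 2)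
  ring

theorem mom_Q_cont (hm : Exponents n m) (hr : Path n r) (hl : l < n) :
    ContinuousOn (mom_Q n m r l) (Icc 0 (r (l + 1) - r l)) := by
  obtain ⟨C, hC⟩ := fblk_adm hm hr hl
  obtain ⟨g0, g1⟩ := sp7_exp_of hm l hl
  have b1 := first_f_bc hC g0 (r (l + 1) - r l) 0
  rw [mom_Q_eq]
  exact bt_contOn hm hr hl ((b1.mul b1).mul (b1.mul b1))

theorem mom_mul_cb {ψ φ : ℝ → ℝ} (h : Sp7Cb ψ) (h' : Sp7Cb φ) : Sp7Cb (fun x => ψ x * φ x) := by
  obtain ⟨hc, K, hK⟩ := h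
  obtain ⟨hc', K', hK'⟩ := h'
  refine ⟨hc.mul hc', K * K', fun x => ?_⟩
  rw [abs_mul]
  exact mul_le_mul (hK x) (hK' x) (abs_nonneg _) ((abs_nonneg _).trans (hK x))

/-- the derivative of `E G'⁴` is at most `6 (r l + t)` -/
theorem mom_der_le (hm : Exponents n m) (hr : Path n r) (h0 : r 0 = 0) (hl : l < n)
    (ht : t ∈ Icc 0 (r (l + 1) - r l)) :
    Bt n m r l t (fun x => 6 * (iteratedDeriv 1 (Gb n m r l t) x ^ 2 *
      iteratedDeriv 2 (Gb n m r l t) x ^ 2)) ≤ 6 * (r l + t) := by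
  have hG := blk2_adm hm hr hl ht
  have c1 : Sp7Cb (fun x => iteratedDeriv 1 (Gb n m r l t) x ^ 2) := sp7_cb_sq (blk2_cb hG 0)
  have c2 : Sp7Cb (fun x => iteratedDeriv 2 (Gb n m r l t) x ^ 2) := sp7_cb_sq (blk2_cb hG 1)
  have h1 : Bt n m r l t (fun x => iteratedDeriv 1 (Gb n m r l t) x ^ 2 *
      iteratedDeriv 2 (Gb n m r l t) x ^ 2) ≤ Rb n m r l t := by
    obtain ⟨C, hC⟩ := hG
    refine blk2_mono hm hr hl ht (mom_mul_cb c1 c2) c1 fun x => ?_
    have h2 := vari_d2_01 hC x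
    have h3 := pow_le_one₀ (n := 2) h2.1.le h2.2
    exact mul_le_of_le_one_right (sq_nonneg _) h3
  rw [dec_Bt_smul]
  have h2 := dec_Rb_le hm hr h0 hl ht
  linarith

/-- `E G'⁴ ≤ 3 (r l + t)²` inside of a block, from the level `l` -/
theorem mom_Q_blk (hm : Exponents n m) (hr : Path n r) (h0 : r 0 = 0) (hl : l < n)
    (h : mom_Q n m r l 0 ≤ 3 * r l ^ 2) (ht : t ∈ Icc 0 (r (l + 1) - r l)) :
    mom_Q n m r l t ≤ 3 * (r l + t) ^ 2 := by
  have hanti : AntitoneOn (fun t => mom_Q n m r l t - 3 * (r l + t) ^ 2)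
      (Icc 0 (r (l + 1) - r l)) := by
    refine antitoneOn_of_deriv_nonpos (convex_Icc _ _)
      ((mom_Q_cont hm hr hl).sub (by fun_prop)) ?_ ?_
    · intro s hs
      rw [interior_Icc] at hs
      have h1 := mom_Q_deriv hm hr hl hs
      exact (h1.differentiableAt.sub (by fun_prop)).differentiableWithinAt
    · intro s hs
      rw [interior_Icc] at hs
      have h1 := mom_Q_deriv hm hr hl hs
      have h2 : HasDerivAt (fun t : ℝ => 3 * (r l + t) ^ 2) (6 * (r l + s)) s := by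
        have h3 := (((hasDerivAt_id s).const_add (r l)).pow 2).const_mul 3
        refine h3.congr_deriv ?_
        simp
        ring
      have h4 : deriv (fun t => mom_Q n m r l t - 3 * (r l + t) ^ 2) s = _ := (h1.sub h2).deriv
      rw [h4]
      have h3 := mom_der_le hm hr h0 hl (Ioo_subset_Icc_self hs)
      linarith
  have h1 := hanti (left_mem_Icc.2 (ht.1.trans ht.2)) ht ht.1
  simp only [add_zero] at h1
  linarith

/-- `E G'⁴` at the levels -/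
theorem mom_Q_lev (hm : Exponents n m) (hr : Path n r) (h0 : r 0 = 0) (hl : l ≤ n) :
    Ee n m r l (fun x => iteratedDeriv 1 (Fl n m r l) x ^ 4) ≤ 3 * r l ^ 2 := by
  induction l with
  | zero =>
    obtain ⟨C, hC⟩ := fl_good hm hr hl
    rw [Ee, chn_zero_def, h0, Real.sqrt_zero]
    have h1 : iteratedDeriv 1 (Fl n m r 0) 0 = 0 := (cint_odd_zero hC.adm).1
    simp [h1]
  | succ l ih =>
    have h1 := ih (by omega)
    have hl' : l < n := hl
    have hle : r l ≤ r (l + 1) := hr.2 l hl'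
    have h2 := mom_Q_blk (t := r (l + 1) - r l) hm hr h0 hl' (by
      rw [mom_Q, Bt_zero, Gb_zero hl']
      exact h1) ⟨by linarith, le_rfl⟩
    rw [mom_Q, Bt_last hm hl', Gb_last hm hl'] at h2
    have e : r l + (r (l + 1) - r l) = r (l + 1) := by ring
    rwa [e] at h2

theorem mom_Q_le (hm : Exponents n m) (hr : Path n r) (h0 : r 0 = 0) (hl : l < n)
    (ht : t ∈ Icc 0 (r (l + 1) - r l)) : mom_Q n m r l t ≤ 3 * (r l + t) ^ 2 :=
  mom_Q_blk hm hr h0 hl (by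
    rw [mom_Q, Bt_zero, Gb_zero hl]
    exact mom_Q_lev hm hr h0 hl.le) ht

/-- interpolation: `2 Bt (ψ) ≤ ε a + b / ε` for all `ε > 0` gives `Bt ψ ≤ √(a b)`, in the form
needed. -/
theorem mom_opt {y σ D : ℝ} (hσ : 0 ≤ σ) (hD : 0 ≤ D) (k : ℕ)
    (h : ∀ ε : ℝ, 0 < ε → 2 * y ≤ ε * σ ^ k + D * σ ^ (k + 1) / ε) :
    y ≤ (1 + D) * (σ ^ k * √σ) := by
  rcases hσ.eq_or_lt with h0 | h0
  · rw [← h0, Real.sqrt_zero, mul_zero, mul_zero]
    refine le_of_forall_pos_le_add fun ε hε => ?_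
    have h1 := h ε hε
    rw [← h0, zero_pow (Nat.succ_ne_zero k), mul_zero, zero_div, add_zero] at h1
    have h2 : (0 : ℝ) ^ k ≤ 1 := by
      rcases k with _ | k
      · simp
      · simp
    nlinarith
  · have hs : 0 < √σ := Real.sqrt_pos.2 h0
    have h1 := h _ hs
    have h2 : D * σ ^ (k + 1) / √σ = D * (σ ^ k * √σ) := by
      rw [div_eq_iff hs.ne', pow_succ]
      have : √σ * √σ = σ := Real.mul_self_sqrt hσ
      calc D * (σ ^ k * σ) = D * (σ ^ k * (√σ * √σ)) := by rw [this]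
        _ = _ := by ring
    rw [h2] at h1
    have h3 : 0 ≤ σ ^ k * √σ := by positivity
    nlinarith [mul_nonneg hD h3]

theorem mom (b : ℝ) : ∃ C : ℝ, 1 ≤ C ∧ ∀ (n : ℕ) (r : ℕ → ℝ), BPath b n r → ∀ l < n,
    ∀ t ∈ Icc 0 (r (l + 1) - r l),
      Bt n (gm n) r l t (fun x => min 1 |x|) ≤ C * √(r l + t) ∧
      Bt n (gm n) r l t (fun x => (min 1 |x|) ^ 2) ≤ C * (r l + t) ∧
      Bt n (gm n) r l t (fun x => (min 1 |x|) ^ 3) ≤ C * ((r l + t) * √(r l + t)) := by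
  obtain ⟨K, hK1, hK⟩ := fl_bk b
  have hK0 : 0 < K := by linarith
  refine ⟨4 * K ^ 3, by nlinarith [one_le_pow₀ hK1 (n := 3)], fun n r hr l hl t ht => ?_⟩
  have hm := gm_exponents n
  have hp := hr.2.1
  obtain ⟨-, hB⟩ := hK n (gm n) r hm hr
  have hG : AK K (Gb n (gm n) r l t) := hB l hl (r (l + 1) - r l - t) ⟨by linarith [ht.2],
    by linarith [ht.1]⟩
  have hG' : ∃ C, Adm C (Gb n (gm n) r l t) := ⟨K, hG.adm⟩
  have hσ : 0 ≤ r l + t := by
    have h1 : r 0 ≤ r l := minb_mono hp.2 (Nat.zero_le l) hl.le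
    rw [hr.1] at h1
    linarith [ht.1]
  have hR := dec_Rb_le hm hp hr.1 hl ht
  have hQ := mom_Q_le hm hp hr.1 hl ht
  set σ := r l + t with hσd
  set G1 : ℝ → ℝ := iteratedDeriv 1 (Gb n (gm n) r l t) with hG1
  have cG : Sp7Cb G1 := blk2_cb hG' 0
  have cA : Sp7Cb (fun x => |G1 x|) := by
    obtain ⟨hc, B, hB⟩ := cG
    exact ⟨hc.abs, B, fun x => by rw [abs_abs]; exact hB x⟩
  have cm : Sp7Cb (fun x : ℝ => min 1 |x|) := by
    refine ⟨by fun_prop, 1, fun x => ?_⟩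
    rw [abs_of_nonneg (le_min zero_le_one (abs_nonneg _))]
    exact min_le_left _ _
  have hlow : ∀ x, min 1 |x| ≤ K * |G1 x| := hG.low
  have hmn : ∀ x : ℝ, 0 ≤ min 1 |x| := fun x => le_min zero_le_one (abs_nonneg _)
  have c2 : Sp7Cb (fun x => |G1 x| ^ 2) := nest_cb_pow cA 2
  have c3 : Sp7Cb (fun x => |G1 x| ^ 3) := nest_cb_pow cA 3
  have c4 : Sp7Cb (fun x => |G1 x| ^ 4) := nest_cb_pow cA 4
  have e2 : Bt n (gm n) r l t (fun x => |G1 x| ^ 2) ≤ σ := by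
    have : (fun x => |G1 x| ^ 2) = fun x => G1 x ^ 2 := by funext x; exact sq_abs _
    rw [this]
    exact hR
  have e4 : Bt n (gm n) r l t (fun x => |G1 x| ^ 4) ≤ 3 * σ ^ 2 := by
    have : (fun x => |G1 x| ^ 4) = fun x => G1 x ^ 4 := by
      funext x
      exact (show Even 4 by decide).pow_abs _
    rw [this]
    exact hQ
  have e1 : Bt n (gm n) r l t (fun x => |G1 x|) ≤ 2 * √σ := by
    have h1 := mom_opt (y := Bt n (gm n) r l t (fun x => |G1 x|)) hσ zero_le_one 0 (by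
      intro ε hε
      have h2 := blk2_mono hm hp hl ht (nest_cb_smul 2 cA)
        (sp7_cb_add (sp7_cb_const ε) (nest_cb_smul (1 / ε) c2)) (fun x => by
          have h3 : 0 ≤ (ε - |G1 x|) ^ 2 / ε := by positivity
          have h4 : (ε - |G1 x|) ^ 2 / ε = ε + 1 / ε * |G1 x| ^ 2 - 2 * |G1 x| := by
            field_simp
            ring
          linarith)
      rw [dec_Bt_smul, dec_Bt_add hm hp hl ht (sp7_cb_const ε) (nest_cb_smul (1 / ε) c2),
        dec_Bt_smul, blk2_const hm hp hl ht] at h2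
      have h5 : 1 / ε * Bt n (gm n) r l t (fun x => |G1 x| ^ 2) ≤ 1 / ε * σ :=
        mul_le_mul_of_nonneg_left e2 (by positivity)
      have h6 : 1 * σ ^ (0 + 1) / ε = 1 / ε * σ := by ring
      rw [h6]
      linarith)
    have h7 : (1 + 1) * (σ ^ 0 * √σ) = 2 * √σ := by ring
    rwa [h7] at h1
  have e3 : Bt n (gm n) r l t (fun x => |G1 x| ^ 3) ≤ 4 * (σ * √σ) := by
    have h1 := mom_opt (y := Bt n (gm n) r l t (fun x => |G1 x| ^ 3)) hσ
      (show (0 : ℝ) ≤ 3 by norm_num) 1 (by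
      intro ε hε
      have h2 := blk2_mono hm hp hl ht (nest_cb_smul 2 c3)
        (sp7_cb_add (nest_cb_smul ε c2) (nest_cb_smul (1 / ε) c4)) (fun x => by
          have h3 : 0 ≤ |G1 x| ^ 2 * (ε - |G1 x|) ^ 2 / ε := by positivity
          have h4 : |G1 x| ^ 2 * (ε - |G1 x|) ^ 2 / ε =
              ε * |G1 x| ^ 2 + 1 / ε * |G1 x| ^ 4 - 2 * |G1 x| ^ 3 := by
            field_simp
            ring
          linarith)
      rw [dec_Bt_smul, dec_Bt_add hm hp hl ht (nest_cb_smul ε c2) (nest_cb_smul (1 / ε) c4),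
        dec_Bt_smul, dec_Bt_smul] at h2
      have h5 : 1 / ε * Bt n (gm n) r l t (fun x => |G1 x| ^ 4) ≤ 1 / ε * (3 * σ ^ 2) :=
        mul_le_mul_of_nonneg_left e4 (by positivity)
      have h5' : ε * Bt n (gm n) r l t (fun x => |G1 x| ^ 2) ≤ ε * σ :=
        mul_le_mul_of_nonneg_left e2 hε.le
      have h6 : 3 * σ ^ (1 + 1) / ε = 1 / ε * (3 * σ ^ 2) := by ring
      rw [h6, pow_one]
      linarith)
    have h7 : (1 + 3) * (σ ^ 1 * √σ) = 4 * (σ * √σ) := by ring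
    rwa [h7] at h1
  have hs : 0 ≤ √σ := Real.sqrt_nonneg _
  have hK3 : K ≤ K ^ 3 := by
    calc K = K ^ 1 := (pow_one K).symm
      _ ≤ K ^ 3 := pow_le_pow_right₀ hK1 (by norm_num)
  have hK23 : K ^ 2 ≤ K ^ 3 := pow_le_pow_right₀ hK1 (by norm_num)
  refine ⟨?_, ?_, ?_⟩
  · have h1 := blk2_mono hm hp hl ht cm (nest_cb_smul K cA) hlow
    rw [dec_Bt_smul] at h1
    calc _ ≤ K * Bt n (gm n) r l t (fun x => |G1 x|) := h1
      _ ≤ K * (2 * √σ) := mul_le_mul_of_nonneg_left e1 hK0.le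
      _ ≤ 4 * K ^ 3 * √σ := by nlinarith [mul_le_mul_of_nonneg_right hK3 hs]
  · have h1 := blk2_mono hm hp hl ht (nest_cb_pow cm 2) (nest_cb_smul (K ^ 2) c2) (fun x => by
      have := pow_le_pow_left₀ (hmn x) (hlow x) 2
      rwa [mul_pow] at this)
    rw [dec_Bt_smul] at h1
    calc _ ≤ K ^ 2 * Bt n (gm n) r l t (fun x => |G1 x| ^ 2) := h1
      _ ≤ K ^ 2 * σ := mul_le_mul_of_nonneg_left e2 (by positivity)
      _ ≤ 4 * K ^ 3 * σ := by nlinarith [mul_le_mul_of_nonneg_right hK23 hσ]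
  · have h1 := blk2_mono hm hp hl ht (nest_cb_pow cm 3) (nest_cb_smul (K ^ 3) c3) (fun x => by
      have := pow_le_pow_left₀ (hmn x) (hlow x) 3
      rwa [mul_pow] at this)
    rw [dec_Bt_smul] at h1
    calc _ ≤ K ^ 3 * Bt n (gm n) r l t (fun x => |G1 x| ^ 3) := h1
      _ ≤ K ^ 3 * (4 * (σ * √σ)) := mul_le_mul_of_nonneg_left e3 (by positivity)
      _ = 4 * K ^ 3 * (σ * √σ) := by ring

end Vale.Agent.P146.Sh
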