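import Vale.Agent.P146.Sh.ShDefs

/-!
# P146, Sh: Taylor expansions at the origin
-/

open MeasureTheory ProbabilityTheory Filter Topology Set

namespace Vale.Agent.P146.Sh

open Vale.Agent.P157.Par
open Vale.Agent.P146.Gap
open Vale.Agent.P146.Pw2
open Vale.Agent.P146.Lb
open Vale.Agent.P367.Cl

theorem tay_lip {f f' : ℝ → ℝ} (hf : ∀ y, HasDerivAt f (f' y) y) {B x : ℝ}
    (hB : ∀ y, |y| ≤ |x| → |f' y| ≤ B) : |f x - f 0| ≤ B * |x| := by
  have h := Convex.norm_image_sub_le_of_norm_hasDerivWithin_le (s := Icc (-|x|) |x|)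
    (f := f) (f' := f') (C := B) (x := 0) (y := x) (fun y _ => (hf y).hasDerivWithinAt)
    (fun y hy => by
      rw [Real.norm_eq_abs]
      exact hB y (abs_le.2 hy)) (convex_Icc _ _)
    ⟨neg_nonpos.2 (abs_nonneg x), abs_nonneg x⟩ ⟨neg_abs_le x, le_abs_self x⟩
  rwa [Real.norm_eq_abs, Real.norm_eq_abs, sub_zero] at h

theorem tay_min {A B C y x : ℝ} (h1 : A ≤ B * y ^ 2) (h2 : A ≤ C) (hy : y = |x|) (hB : 0 ≤ B)
    (hC : 0 ≤ C) : A ≤ (B + C) * (min 1 |x|) ^ 2 := by
  subst hy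
  rcases le_total 1 |x| with h | h
  · rw [min_eq_left h]
    linarith
  · rw [min_eq_right h]
    have h3 := mul_nonneg hC (sq_nonneg |x|)
    linarith

theorem tay {K : ℝ} (hK : 1 ≤ K) : ∃ C : ℝ, 1 ≤ C ∧ ∀ G : ℝ → ℝ, AK K G →
    (∀ x, |iteratedDeriv 5 G x| ≤ K) → ∀ x,
      |iteratedDeriv 2 G x - iteratedDeriv 2 G 0| ≤ C * (min 1 |x|) ^ 2 ∧
      |iteratedDeriv 4 G x - iteratedDeriv 4 G 0| ≤ C * min 1 |x| ∧
      |iteratedDeriv 3 G x * iteratedDeriv 2 G 0 - iteratedDeriv 4 G 0 * iteratedDeriv 1 G x| ≤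
        C * (min 1 |x|) ^ 2 := by
  refine ⟨K + K ^ 2 + 2 * K, by nlinarith, fun G hG h5 x => ?_⟩
  have hK0 : 0 ≤ K := by linarith
  have hsm := hG.adm.smb.smooth
  have hd : ∀ j y, HasDerivAt (iteratedDeriv j G) (iteratedDeriv (j + 1) G y) y :=
    fun j y => GoodX.good_hd hsm j y
  have h30 : iteratedDeriv 3 G 0 = 0 := GoodX.good_odd hG.adm.even (by decide)
  have h10 : iteratedDeriv 1 G 0 = 0 := GoodX.good_odd hG.adm.even (by decide)
  have b2 : ∀ y, |iteratedDeriv 2 G y| ≤ 1 := fun y => by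
    rw [abs_of_pos (vari_d2_01 hG.adm y).1]
    exact (vari_d2_01 hG.adm y).2
  have b1 : ∀ y, |iteratedDeriv 1 G y| ≤ 1 := vari_abs1 hG.adm
  have b4 : ∀ y, |iteratedDeriv 4 G y| ≤ K := fun y =>
    (hG.k4 y).trans (mul_le_of_le_one_right hK0 (vari_d2_01 hG.adm y).2)
  have b3 : ∀ y, |iteratedDeriv 3 G y| ≤ K := fun y =>
    (hG.k3 y).trans (mul_le_of_le_one_right hK0 (b1 y))
  have b3' : ∀ y, |iteratedDeriv 3 G y| ≤ K * |y| := fun y => by
    have h := tay_lip (hd 3) (B := K) (x := y) fun z _ => b4 z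
    rwa [h30, sub_zero] at h
  have hm0 : 0 ≤ min 1 |x| := le_min zero_le_one (abs_nonneg x)
  refine ⟨?_, ?_, ?_⟩
  · have h1 := tay_lip (hd 2) (B := K * |x|) (x := x) fun z hz =>
      (b3' z).trans (mul_le_mul_of_nonneg_left hz hK0)
    have h2 : |iteratedDeriv 2 G x - iteratedDeriv 2 G 0| ≤ 1 := by
      have h3 := vari_d2_01 hG.adm x
      have h4 := vari_d2_01 hG.adm 0
      rw [abs_le]
      constructor <;> linarith [h3.1, h3.2, h4.1, h4.2]
    have h3 := tay_min (B := K) (C := 1) (y := |x|) (x := x) (by nlinarith) h2 rfl hK0 zero_le_one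
    refine h3.trans (mul_le_mul_of_nonneg_right (by nlinarith) (sq_nonneg _))
  · have h1 := tay_lip (hd 4) (B := K) (x := x) fun z _ => h5 z
    have h2 : |iteratedDeriv 4 G x - iteratedDeriv 4 G 0| ≤ 2 * K := by
      have h3 := abs_le.1 (b4 x)
      have h4 := abs_le.1 (b4 0)
      rw [abs_le]
      constructor <;> linarith [h3.1, h3.2, h4.1, h4.2]
    rcases le_total 1 |x| with h | h
    · rw [min_eq_left h]
      nlinarith
    · rw [min_eq_right h]
      refine h1.trans (mul_le_mul_of_nonneg_right (by nlinarith) (abs_nonneg x))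
  · set a2 := iteratedDeriv 2 G 0 with ha2
    set a4 := iteratedDeriv 4 G 0 with ha4
    have hq1 : ∀ y, HasDerivAt (fun y => iteratedDeriv 3 G y * a2 - a4 * iteratedDeriv 1 G y)
        (iteratedDeriv 4 G y * a2 - a4 * iteratedDeriv 2 G y) y := fun y =>
      ((hd 3 y).mul_const a2).sub ((hd 1 y).const_mul a4)
    have hq2 : ∀ y, HasDerivAt (fun y => iteratedDeriv 4 G y * a2 - a4 * iteratedDeriv 2 G y)
        (iteratedDeriv 5 G y * a2 - a4 * iteratedDeriv 3 G y) y := fun y =>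
      ((hd 4 y).mul_const a2).sub ((hd 2 y).const_mul a4)
    have ba2 : |a2| ≤ 1 := b2 0
    have ba4 : |a4| ≤ K := b4 0
    have c2 : ∀ y, |iteratedDeriv 5 G y * a2 - a4 * iteratedDeriv 3 G y| ≤ K + K ^ 2 := fun y => by
      refine (abs_sub _ _).trans ?_
      rw [abs_mul, abs_mul]
      have h1 := mul_le_mul (h5 y) ba2 (abs_nonneg _) hK0
      have h2 := mul_le_mul ba4 (b3 y) (abs_nonneg _) hK0
      nlinarith
    have c1 : ∀ y, |iteratedDeriv 4 G y * a2 - a4 * iteratedDeriv 2 G y| ≤ (K + K ^ 2) * |y| :=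
      fun y => by
        have h := tay_lip hq2 (x := y) fun z _ => c2 z
        simp only [← ha2, ← ha4, sub_self, mul_comm a4 a2, sub_zero] at h
        convert h using 3
    have c0 := tay_lip hq1 (B := (K + K ^ 2) * |x|) (x := x) fun z hz =>
      (c1 z).trans (mul_le_mul_of_nonneg_left hz (by positivity))
    simp only [h30, h10, zero_mul, mul_zero, sub_zero] at c0
    have c0' : |iteratedDeriv 3 G x * a2 - a4 * iteratedDeriv 1 G x| ≤ 2 * K := by
      refine (abs_sub _ _).trans ?_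
      rw [abs_mul, abs_mul]
      have h1 := mul_le_mul (b3 x) ba2 (abs_nonneg _) hK0
      have h2 := mul_le_mul ba4 (b1 x) (abs_nonneg _) hK0
      nlinarith
    exact tay_min (B := K + K ^ 2) (C := 2 * K) (y := |x|) (x := x) (by nlinarith) c0' rfl
      (by positivity) (by positivity)

end Vale.Agent.P146.Sh
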