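import Vale.Agent.P146.Sh.ShKv0
import Vale.Agent.P146.Sh.ShK5
import Vale.Agent.P146.Sh.ShTay
import Vale.Agent.P146.Sh.ShMom

/-!
# P146, Sh: the derivatives at the origin along the recursion
-/

open MeasureTheory ProbabilityTheory Filter Topology Set

namespace Vale.Agent.P146.Sh

open Vale.Agent.P157.Par
open Vale.Agent.P146.Gap
open Vale.Agent.P146.Pw2
open Vale.Agent.P146.Lb
open Vale.Agent.P367.Cl

theorem kv (b : ℝ) : ∃ C : ℝ, 1 ≤ C ∧ ∀ (n : ℕ) (r : ℕ → ℝ), BPath b n r → ∀ l < n,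
    ∀ t ∈ Icc 0 (r (l + 1) - r l),
      |iteratedDeriv 2 (Gb n (gm n) r l t) 0 - vv n r| ≤ C * (r l + t) ∧
      |iteratedDeriv 4 (Gb n (gm n) r l t) 0 + kk n r| ≤ C * √(r l + t) :=
  kv_of b (gb_class b) tay (mom b)

end Vale.Agent.P146.Sh
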