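import Vale.Agent.P146.Sh.ShDefs

/-!
# P146, Sh: the derivatives at the origin along the recursion, from their inputs
-/

open MeasureTheory ProbabilityTheory Filter Topology Set

namespace Vale.Agent.P146.Sh

open Vale.Agent.P157.Par
open Vale.Agent.P146.Gap
open Vale.Agent.P146.Pw2
open Vale.Agent.P146.Lb
open Vale.Agent.P367.Cl

variable {n l : ℕ} {m r : ℕ → ℝ} {t : ℝ}

/-- the family of the fourth derivatives -/
theorem kv_P4 {C g : ℝ} {F : ℝ → ℝ} (h : Adm C F) (hg : 0 < g) (s₁ : ℝ) :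
    first_P s₁ (first_f g s₁ F 4) (first_f g s₁ F 5) (first_f g s₁ F 6)
      (fun s x => -(1 / 2 * first_f g s₁ F 6 s x
        + g * (3 * first_f g s₁ F 3 s x ^ 2 + 4 * first_f g s₁ F 2 s x * first_f g s₁ F 4 s x
          + first_f g s₁ F 1 s x * first_f g s₁ F 5 s x))) := by
  have b1 := first_f_bc h hg s₁ 0
  have b2 := first_f_bc h hg s₁ 1
  have b3 := first_f_bc h hg s₁ 2
  have b4 := first_f_bc h hg s₁ 3
  have b5 := first_f_bc h hg s₁ 4
  have b6 := first_f_bc h hg s₁ 5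
  refine ⟨fun s x => first_f_x h hg s₁ 4 s x, fun s x => first_f_x h hg s₁ 5 s x,
    fun s hs x => first_comp (fj_s4 h.smb hg (s := s₁ - s) (by linarith [hs.2]) x),
    b4, b5, b6, ?_⟩
  have := ((b6.smul (1 / 2)).add (((((b3.mul b3).smul 3).add ((b2.mul b4).smul 4)).add
    (b1.mul b5)).smul g)).smul (-1)
  convert this using 3
  ring

/-! ### Linearity of the averages -/

theorem kv_add (hm : Exponents n m) (hr : Path n r) (hl : l < n)
    (ht : t ∈ Icc 0 (r (l + 1) - r l)) {ψ φ : ℝ → ℝ} (hψ : Sp7Cb ψ) (hφ : Sp7Cb φ) :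
    Bt n m r l t (fun x => ψ x + φ x) = Bt n m r l t ψ + Bt n m r l t φ := by
  obtain ⟨C, hG⟩ := blk2_adm hm hr hl ht
  unfold Bt
  rw [← ee_add hm hr hl.le (sp7_cb_tlt (adm_ec hG) hψ _ _) (sp7_cb_tlt (adm_ec hG) hφ _ _)]
  congr 1
  funext x
  obtain ⟨hc, K, hK⟩ := hψ
  obtain ⟨hc', K', hK'⟩ := hφ
  exact (adm_ec hG).sm.tlt_add hc hK hc' hK' _ _ x

theorem kv_smul (c : ℝ) (ψ : ℝ → ℝ) :
    Bt n m r l t (fun x => c * ψ x) = c * Bt n m r l t ψ := by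
  unfold Bt
  rw [← ee_smul]
  congr 1
  funext x
  exact tlt_const_mul _ _ _ _ _ x

/-- the average of a function which is close to a constant -/
theorem kv_dev (hm : Exponents n m) (hr : Path n r) (hl : l < n)
    (ht : t ∈ Icc 0 (r (l + 1) - r l)) {ψ φ : ℝ → ℝ} (hψ : Sp7Cb ψ) (hφ : Sp7Cb φ) {c : ℝ}
    (h : ∀ x, |ψ x - c| ≤ φ x) : |Bt n m r l t ψ - c| ≤ Bt n m r l t φ := by
  have h1 := blk2_mono hm hr hl ht hψ (sp7_cb_add (sp7_cb_const c) hφ) fun x => by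
    have := (abs_le.1 (h x)).2
    linarith
  rw [kv_add hm hr hl ht (sp7_cb_const c) hφ, blk2_const hm hr hl ht] at h1
  have h2 := blk2_mono hm hr hl ht (sp7_cb_const c) (sp7_cb_add hψ hφ) fun x => by
    have := (abs_le.1 (h x)).1
    linarith
  rw [kv_add hm hr hl ht hψ hφ, blk2_const hm hr hl ht] at h2
  rw [abs_le]
  constructor <;> linarith

/-! ### Averages along the path -/

theorem kv_slope {f : ℝ → ℝ} {T B : ℝ} (hc : ContinuousOn f (Icc 0 T))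
    (hd : ∀ t ∈ Ioo 0 T, ∃ d, HasDerivAt f d t ∧ |d| ≤ B) {t : ℝ} (ht : t ∈ Icc 0 T) :
    |f t - f 0| ≤ B * t := by
  rcases ht.1.eq_or_lt with h0 | h0
  · rw [← h0]
    simp
  · have hd' : ∀ s ∈ Ioo 0 t, HasDerivAt f (deriv f s) s ∧ |deriv f s| ≤ B := fun s hs => by
      obtain ⟨d, h1, h2⟩ := hd s ⟨hs.1, hs.2.trans_le ht.2⟩
      rw [h1.deriv]
      exact ⟨h1, h2⟩
    obtain ⟨c, hcm, hce⟩ := exists_hasDerivAt_eq_slope f (deriv f) h0
      (hc.mono (Icc_subset_Icc le_rfl ht.2)) (fun s hs => (hd' s hs).1)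
    have h3 := (hd' c hcm).2
    rw [hce, sub_zero, abs_div, abs_of_pos h0, div_le_iff₀ h0] at h3
    exact h3

theorem kv_track (hm : Exponents n m) (hr : Path n r) (h0 : r 0 = 0) {B : ℝ} (j : ℕ)
    (hc : ∀ l < n, ContinuousOn (fun t => Bt n m r l t (iteratedDeriv j (Gb n m r l t)))
      (Icc 0 (r (l + 1) - r l)))
    (hd : ∀ l < n, ∀ t ∈ Ioo 0 (r (l + 1) - r l), ∃ d,
      HasDerivAt (fun t => Bt n m r l t (iteratedDeriv j (Gb n m r l t))) d t ∧ |d| ≤ B) :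
    ∀ l < n, ∀ t ∈ Icc 0 (r (l + 1) - r l),
      |Bt n m r l t (iteratedDeriv j (Gb n m r l t)) - iteratedDeriv j (Fl n m r 0) 0| ≤
        B * (r l + t) := by
  have key : ∀ l < n, |Bt n m r l 0 (iteratedDeriv j (Gb n m r l 0))
      - iteratedDeriv j (Fl n m r 0) 0| ≤ B * r l → ∀ t ∈ Icc 0 (r (l + 1) - r l),
      |Bt n m r l t (iteratedDeriv j (Gb n m r l t)) - iteratedDeriv j (Fl n m r 0) 0| ≤
        B * (r l + t) := fun l hl h1 t ht => by
    have h2 := kv_slope (hc l hl) (hd l hl) ht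
    have h3 := abs_add_le (Bt n m r l t (iteratedDeriv j (Gb n m r l t)) -
      Bt n m r l 0 (iteratedDeriv j (Gb n m r l 0)))
      (Bt n m r l 0 (iteratedDeriv j (Gb n m r l 0)) - iteratedDeriv j (Fl n m r 0) 0)
    rw [sub_add_sub_cancel] at h3
    linarith
  intro l
  induction l with
  | zero =>
    intro hl
    refine key 0 hl ?_
    rw [Bt_zero, Gb_zero hl, ee_zero h0, h0]
    simp
  | succ l ih =>
    intro hl
    refine key (l + 1) hl ?_
    have hl' : l < n := by omega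
    have h1 := ih hl' (r (l + 1) - r l) ⟨sub_nonneg.2 (hr.2 l hl'), le_rfl⟩
    rw [Bt_last hm hl', Gb_last hm hl'] at h1
    rw [Bt_zero, Gb_zero hl]
    refine h1.trans_eq ?_
    ring

theorem kv_two (hm : Exponents n m) (hr : Path n r) (h0 : r 0 = 0) :
    ∀ l < n, ∀ t ∈ Icc 0 (r (l + 1) - r l),
      |Bt n m r l t (iteratedDeriv 2 (Gb n m r l t)) - iteratedDeriv 2 (Fl n m r 0) 0| ≤
        1 * (r l + t) := by
  refine kv_track hm hr h0 2 (fun l hl => Ab_cont hm hr hl) fun l hl t ht => ?_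
  obtain ⟨C, hC⟩ := fblk_adm hm hr hl
  obtain ⟨g0, g1⟩ := sp7_exp_of hm l hl
  refine ⟨-m (l + 1) * Mb n m r l t, ?_, ?_⟩
  · refine (bt_deriv hm hr hl (first_P2 hC g0 (r (l + 1) - r l)) ht).congr_deriv ?_
    rw [Mb, ← kv_smul]
    congr 1
    funext x
    change _ + _ + m (l + 1) * first_f (m (l + 1)) (r (l + 1) - r l) (Fl n m r (l + 1)) 1 t x * _ =
      -m (l + 1) * first_f (m (l + 1)) (r (l + 1) - r l) (Fl n m r (l + 1)) 2 t x ^ 2
    ring
  · obtain ⟨h1, h2⟩ := Mb_mem hm hr hl (Ioo_subset_Icc_self ht)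
    rw [abs_mul, abs_neg, abs_of_pos g0, abs_of_nonneg h1]
    exact mul_le_one₀ g1 h1 h2

theorem kv_four (hm : Exponents n m) (hr : Path n r) (h0 : r 0 = 0) {K : ℝ} (hK : 1 ≤ K)
    (hAK : ∀ l < n, ∀ t ∈ Icc 0 (r (l + 1) - r l), AK K (Gb n m r l t)) :
    ∀ l < n, ∀ t ∈ Icc 0 (r (l + 1) - r l),
      |Bt n m r l t (iteratedDeriv 4 (Gb n m r l t)) - iteratedDeriv 4 (Fl n m r 0) 0| ≤
        (3 * K ^ 2 + 4 * K) * (r l + t) := by
  refine kv_track hm hr h0 4 (fun l hl => ?_) fun l hl t ht => ?_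
  · obtain ⟨C, hC⟩ := fblk_adm hm hr hl
    obtain ⟨g0, g1⟩ := sp7_exp_of hm l hl
    exact bt_contOn hm hr hl (first_f_bc hC g0 (r (l + 1) - r l) 3)
  obtain ⟨C, hC⟩ := fblk_adm hm hr hl
  obtain ⟨g0, g1⟩ := sp7_exp_of hm l hl
  have hG := hAK l hl t (Ioo_subset_Icc_self ht)
  refine ⟨-m (l + 1) * Bt n m r l t (fun x => 3 * iteratedDeriv 3 (Gb n m r l t) x ^ 2 +
    4 * (iteratedDeriv 2 (Gb n m r l t) x * iteratedDeriv 4 (Gb n m r l t) x)), ?_, ?_⟩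
  · refine (bt_deriv hm hr hl (kv_P4 hC g0 (r (l + 1) - r l)) ht).congr_deriv ?_
    rw [← kv_smul]
    congr 1
    funext x
    change _ + _ + m (l + 1) * first_f (m (l + 1)) (r (l + 1) - r l) (Fl n m r (l + 1)) 1 t x * _ =
      -m (l + 1) * (3 * first_f (m (l + 1)) (r (l + 1) - r l) (Fl n m r (l + 1)) 3 t x ^ 2 +
        4 * (first_f (m (l + 1)) (r (l + 1) - r l) (Fl n m r (l + 1)) 2 t x *
          first_f (m (l + 1)) (r (l + 1) - r l) (Fl n m r (l + 1)) 4 t x))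
    ring
  · have hcb : Sp7Cb (fun x => 3 * iteratedDeriv 3 (Gb n m r l t) x ^ 2 +
        4 * (iteratedDeriv 2 (Gb n m r l t) x * iteratedDeriv 4 (Gb n m r l t) x)) :=
      sp7_cb_add (nest_cb_smul 3 (sp7_cb_sq (blk2_cb ⟨K, hG.adm⟩ 2)))
        (nest_cb_smul 4 (nest_cb_mul (blk2_cb ⟨K, hG.adm⟩ 1) (blk2_cb ⟨K, hG.adm⟩ 3)))
    have h1 := blk2_bd hm hr hl (Ioo_subset_Icc_self ht) hcb (a := -(3 * K ^ 2 + 4 * K))
      (b := 3 * K ^ 2 + 4 * K) fun x => by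
        have h2 := vari_d2_01 hG.adm x
        have h3 : |iteratedDeriv 3 (Gb n m r l t) x| ≤ K :=
          (hG.k3 x).trans (mul_le_of_le_one_right (by linarith) (vari_abs1 hG.adm x))
        have h4 : |iteratedDeriv 4 (Gb n m r l t) x| ≤ K :=
          (hG.k4 x).trans (mul_le_of_le_one_right (by linarith) h2.2)
        have h5 : iteratedDeriv 3 (Gb n m r l t) x ^ 2 ≤ K ^ 2 := by
          rw [← sq_abs]
          exact pow_le_pow_left₀ (abs_nonneg _) h3 2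
        have h6 : |iteratedDeriv 2 (Gb n m r l t) x * iteratedDeriv 4 (Gb n m r l t) x| ≤ K := by
          rw [abs_mul, abs_of_pos h2.1]
          calc iteratedDeriv 2 (Gb n m r l t) x * |iteratedDeriv 4 (Gb n m r l t) x|
              ≤ 1 * K := mul_le_mul h2.2 h4 (abs_nonneg _) zero_le_one
            _ = K := one_mul K
        have h7 := abs_le.1 h6
        have h8 := sq_nonneg (iteratedDeriv 3 (Gb n m r l t) x)
        constructor <;> nlinarith [sq_nonneg K]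
    rw [abs_mul, abs_neg, abs_of_pos g0]
    calc m (l + 1) * _ ≤ 1 * (3 * K ^ 2 + 4 * K) :=
          mul_le_mul g1 (abs_le.2 h1) (abs_nonneg _) zero_le_one
      _ = 3 * K ^ 2 + 4 * K := one_mul _

theorem kv_min_cb (k : ℕ) : Sp7Cb (fun x : ℝ => (min 1 |x|) ^ k) := by
  refine ⟨by fun_prop, 1, fun x => ?_⟩
  have h0 : 0 ≤ min 1 |x| := le_min zero_le_one (abs_nonneg x)
  rw [abs_of_nonneg (pow_nonneg h0 k)]
  exact pow_le_one₀ h0 (min_le_left _ _)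

/-- `kv` from its inputs -/
theorem kv_of (b : ℝ)
    (gb_class : ∃ K : ℝ, 1 ≤ K ∧ ∀ (n : ℕ) (r : ℕ → ℝ), BPath b n r → ∀ l < n,
      ∀ t ∈ Icc 0 (r (l + 1) - r l), AK K (Gb n (gm n) r l t) ∧
        ∀ x, |iteratedDeriv 5 (Gb n (gm n) r l t) x| ≤ K)
    (tay : ∀ {K : ℝ}, 1 ≤ K → ∃ C : ℝ, 1 ≤ C ∧ ∀ G : ℝ → ℝ, AK K G →
      (∀ x, |iteratedDeriv 5 G x| ≤ K) → ∀ x,
        |iteratedDeriv 2 G x - iteratedDeriv 2 G 0| ≤ C * (min 1 |x|) ^ 2 ∧
        |iteratedDeriv 4 G x - iteratedDeriv 4 G 0| ≤ C * min 1 |x| ∧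
        |iteratedDeriv 3 G x * iteratedDeriv 2 G 0 - iteratedDeriv 4 G 0 * iteratedDeriv 1 G x| ≤
          C * (min 1 |x|) ^ 2)
    (mom : ∃ C : ℝ, 1 ≤ C ∧ ∀ (n : ℕ) (r : ℕ → ℝ), BPath b n r → ∀ l < n,
      ∀ t ∈ Icc 0 (r (l + 1) - r l),
        Bt n (gm n) r l t (fun x => min 1 |x|) ≤ C * √(r l + t) ∧
        Bt n (gm n) r l t (fun x => (min 1 |x|) ^ 2) ≤ C * (r l + t) ∧
        Bt n (gm n) r l t (fun x => (min 1 |x|) ^ 3) ≤ C * ((r l + t) * √(r l + t))) :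
    ∃ C : ℝ, 1 ≤ C ∧ ∀ (n : ℕ) (r : ℕ → ℝ), BPath b n r → ∀ l < n,
      ∀ t ∈ Icc 0 (r (l + 1) - r l),
        |iteratedDeriv 2 (Gb n (gm n) r l t) 0 - vv n r| ≤ C * (r l + t) ∧
        |iteratedDeriv 4 (Gb n (gm n) r l t) 0 + kk n r| ≤ C * √(r l + t) := by
  obtain ⟨K, hK, hcl⟩ := gb_class
  obtain ⟨C1, hC1, htay⟩ := tay hK
  obtain ⟨C2, hC2, hmom⟩ := mom
  have hK3 : 0 ≤ 3 * K ^ 2 + 4 * K := by positivity
  have hC0 : 1 ≤ C1 * C2 + (3 * K ^ 2 + 4 * K) * (1 + b ^ 2) := by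
    have h1 : 1 ≤ C1 * C2 := one_le_mul_of_one_le_of_one_le hC1 hC2
    have h2 : 0 ≤ (3 * K ^ 2 + 4 * K) * (1 + b ^ 2) := by positivity
    linarith
  refine ⟨C1 * C2 + (3 * K ^ 2 + 4 * K) * (1 + b ^ 2), hC0, fun n r hr l hl t ht => ?_⟩
  have hm := gm_exponents n
  have hp := hr.2.1
  obtain ⟨hAK, h5⟩ := hcl n r hr l hl t ht
  obtain ⟨M1, M2, -⟩ := hmom n r hr l hl t ht
  have hrl : 0 ≤ r l := len_nonneg hr hl.le
  have hs0 : 0 ≤ r l + t := add_nonneg hrl ht.1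
  have hs1 : r l + t ≤ b ^ 2 := by
    have h1 := len_mono hr (show l + 1 ≤ n from hl) le_rfl
    have h2 := hr.2.2
    have h3 := ht.2
    linarith
  have hsq : r l + t ≤ (1 + b ^ 2) * √(r l + t) := by
    have h1 : √(r l + t) ≤ 1 + b ^ 2 := by
      refine Real.sqrt_le_iff.2 ⟨by positivity, ?_⟩
      nlinarith [sq_nonneg b, sq_nonneg (b ^ 2)]
    calc r l + t = √(r l + t) * √(r l + t) := (Real.mul_self_sqrt hs0).symm
      _ ≤ (1 + b ^ 2) * √(r l + t) := mul_le_mul_of_nonneg_right h1 (Real.sqrt_nonneg _)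
  have hg0 := Real.sqrt_nonneg (r l + t)
  constructor
  · have h1 := kv_dev hm hp hl ht (blk2_cb ⟨K, hAK.adm⟩ 1) (nest_cb_smul C1 (kv_min_cb 2))
      (c := iteratedDeriv 2 (Gb n (gm n) r l t) 0) fun x => (htay _ hAK h5 x).1
    rw [kv_smul] at h1
    have h2 := kv_two hm hp hr.1 l hl t ht
    have h3 := mul_le_mul_of_nonneg_left M2 (show 0 ≤ C1 by linarith)
    have h4 : |iteratedDeriv 2 (Gb n (gm n) r l t) 0 - vv n r| ≤
        C1 * (C2 * (r l + t)) + 1 * (r l + t) := by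
      unfold vv
      have h5 := abs_sub_comm (Bt n (gm n) r l t (iteratedDeriv (1 + 1) (Gb n (gm n) r l t)))
        (iteratedDeriv 2 (Gb n (gm n) r l t) 0)
      have h6 := abs_add_le (iteratedDeriv 2 (Gb n (gm n) r l t) 0 -
        Bt n (gm n) r l t (iteratedDeriv (1 + 1) (Gb n (gm n) r l t)))
        (Bt n (gm n) r l t (iteratedDeriv (1 + 1) (Gb n (gm n) r l t)) -
          iteratedDeriv 2 (Fl n (gm n) r 0) 0)
      rw [sub_add_sub_cancel] at h6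
      change |Bt n (gm n) r l t (iteratedDeriv (1 + 1) (Gb n (gm n) r l t)) -
          iteratedDeriv 2 (Fl n (gm n) r 0) 0| ≤ _ at h2
      linarith
    refine h4.trans ?_
    have h5 : (1 : ℝ) ≤ (3 * K ^ 2 + 4 * K) * (1 + b ^ 2) := by
      nlinarith [sq_nonneg b, mul_nonneg (sq_nonneg K) (sq_nonneg b),
        mul_nonneg (zero_le_one.trans hK) (sq_nonneg b)]
    have h6 := mul_le_mul_of_nonneg_right h5 hs0
    nlinarith
  · have h1 := kv_dev hm hp hl ht (blk2_cb ⟨K, hAK.adm⟩ 3) (nest_cb_smul C1 (kv_min_cb 1))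
      (c := iteratedDeriv 4 (Gb n (gm n) r l t) 0) fun x => by
        rw [pow_one]
        exact (htay _ hAK h5 x).2.1
    rw [kv_smul] at h1
    simp only [pow_one] at h1
    have h2 := kv_four hm hp hr.1 hK (fun l hl t ht => (hcl n r hr l hl t ht).1) l hl t ht
    have h3 := mul_le_mul_of_nonneg_left M1 (show 0 ≤ C1 by linarith)
    have h4 : |iteratedDeriv 4 (Gb n (gm n) r l t) 0 + kk n r| ≤
        C1 * (C2 * √(r l + t)) + (3 * K ^ 2 + 4 * K) * (r l + t) := by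
      unfold kk
      rw [← sub_eq_add_neg]
      have h5 := abs_sub_comm (Bt n (gm n) r l t (iteratedDeriv (3 + 1) (Gb n (gm n) r l t)))
        (iteratedDeriv 4 (Gb n (gm n) r l t) 0)
      have h6 := abs_add_le (iteratedDeriv 4 (Gb n (gm n) r l t) 0 -
        Bt n (gm n) r l t (iteratedDeriv (3 + 1) (Gb n (gm n) r l t)))
        (Bt n (gm n) r l t (iteratedDeriv (3 + 1) (Gb n (gm n) r l t)) -
          iteratedDeriv 4 (Fl n (gm n) r 0) 0)
      rw [sub_add_sub_cancel] at h6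
      change |Bt n (gm n) r l t (iteratedDeriv (3 + 1) (Gb n (gm n) r l t)) -
          iteratedDeriv 4 (Fl n (gm n) r 0) 0| ≤ _ at h2
      linarith
    refine h4.trans ?_
    have h6 := mul_le_mul_of_nonneg_left hsq hK3
    linarith

end Vale.Agent.P146.Sh
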