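import Vale.Agent.P146.Sh.ShDefs

/-! # P146, Sh: the second and fourth derivatives at the origin of two paths -/

open MeasureTheory ProbabilityTheory Filter Topology Set

namespace Vale.Agent.P146.Sh

open Vale.Agent.P157.Par
open Vale.Agent.P146.Gap
open Vale.Agent.P146.Pw2
open Vale.Agent.P146.Lb
open Vale.Agent.P367.Cl

lemma kvc_casc {m q q' : ℕ → ℝ} {k : ℕ} (h : ∀ l ≤ k, q l = q' l) (F : ℝ → ℝ) :
    cascade m q k F = cascade m q' k F := by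
  induction k generalizing F with
  | zero => rfl
  | succ k ih =>
    rw [cascade_succ_def, cascade_succ_def, h (k + 1) le_rfl, h k (Nat.le_succ k)]
    exact ih (fun l hl => h l (by omega)) _

lemma kvc_Fl {n L : ℕ} {m r ρ : ℕ → ℝ} (h : ∀ l, L ≤ l → ρ l = r l) :
    Fl n m ρ L = Fl n m r L :=
  kvc_casc (fun l _ => h (L + l) (by omega)) _

lemma kvc_Gb {n L : ℕ} {m r ρ : ℕ → ℝ} (s : ℝ) (h : ∀ l, L + 1 ≤ l → ρ l = r l) :
    Gb n m ρ L (s - ρ L) = Gb n m r L (s - r L) := by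
  unfold Gb
  rw [kvc_Fl h, h (L + 1) le_rfl]
  congr 1
  ring

theorem kvc_of {b : ℝ} (hkv : ∃ C : ℝ, 1 ≤ C ∧ ∀ (n : ℕ) (r : ℕ → ℝ), BPath b n r → ∀ l < n,
    ∀ t ∈ Icc 0 (r (l + 1) - r l),
      |iteratedDeriv 2 (Gb n (gm n) r l t) 0 - vv n r| ≤ C * (r l + t) ∧
      |iteratedDeriv 4 (Gb n (gm n) r l t) 0 + kk n r| ≤ C * √(r l + t)) :
    ∃ C : ℝ, 1 ≤ C ∧ ∀ (n L : ℕ) (s : ℝ) (r ρ : ℕ → ℝ), BPath b n r →
    BPath b n ρ → 1 ≤ L → L ≤ n → (∀ l, L ≤ l → ρ l = r l) → r (L - 1) ≤ s → ρ (L - 1) ≤ s →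
    s ≤ r L → |vv n ρ - vv n r| ≤ C * s ∧ |kk n ρ - kk n r| ≤ C * √s := by
  obtain ⟨C, hC, hk⟩ := hkv
  refine ⟨2 * C, by linarith, ?_⟩
  intro n L s r ρ hr hρ hL hLn he h1 h2 h3
  obtain ⟨l, rfl⟩ : ∃ l, L = l + 1 := ⟨L - 1, by omega⟩
  simp only [Nat.add_sub_cancel] at h1 h2
  have a := hk n r hr l (by omega) (s - r l) ⟨by linarith, by linarith⟩
  have c := hk n ρ hρ l (by omega) (s - ρ l) ⟨by linarith, by rw [he (l + 1) le_rfl]; linarith⟩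
  rw [kvc_Gb s he] at c
  rw [show r l + (s - r l) = s by ring] at a
  rw [show ρ l + (s - ρ l) = s by ring] at c
  obtain ⟨a1, a2⟩ := a
  obtain ⟨c1, c2⟩ := c
  rw [abs_le] at a1 a2 c1 c2
  constructor <;> rw [abs_le] <;> constructor <;> linarith [a1.1, a1.2, a2.1, a2.2, c1.1, c1.2, c2.1, c2.2]

end Vale.Agent.P146.Sh
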