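import Vale.Agent.P146.Sh.ShKv
import Vale.Agent.P146.Sh.ShKvc0

/-! # P146, Sh: the second and fourth derivatives at the origin of two paths -/

open MeasureTheory ProbabilityTheory Filter Topology Set

namespace Vale.Agent.P146.Sh

open Vale.Agent.P157.Par
open Vale.Agent.P146.Gap
open Vale.Agent.P146.Pw2
open Vale.Agent.P146.Lb
open Vale.Agent.P367.Cl

theorem kvc (b : ℝ) : ∃ C : ℝ, 1 ≤ C ∧ ∀ (n L : ℕ) (s : ℝ) (r ρ : ℕ → ℝ), BPath b n r →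
    BPath b n ρ → 1 ≤ L → L ≤ n → (∀ l, L ≤ l → ρ l = r l) → r (L - 1) ≤ s → ρ (L - 1) ≤ s →
    s ≤ r L → |vv n ρ - vv n r| ≤ C * s ∧ |kk n ρ - kk n r| ≤ C * √s :=
  kvc_of (kv b)

end Vale.Agent.P146.Sh
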