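import Vale.Agent.P146.Lb.LLen
import Vale.Agent.P146.Sh.ShDefs

/-!
# P146, Sh, section LAWA: the first block of the constrained minimiser (over `m1e`, `vk_bd`)
-/

open MeasureTheory ProbabilityTheory Filter Topology Set

namespace Vale.Agent.P146.Sh

open Vale.Agent.P157.Par
open Vale.Agent.P146.Gap
open Vale.Agent.P146.Pw2
open Vale.Agent.P146.Lb
open Vale.Agent.P367.Cl

lemma lawa_mono {φ φ' : ℝ → ℝ} {a b : ℝ} (hab : a ≤ b) (hc : ContinuousOn φ (Icc a b))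
    (hd : ∀ t ∈ Ioo a b, HasDerivAt φ (φ' t) t) (h : ∀ t ∈ Ioo a b, 0 ≤ φ' t) : φ a ≤ φ b := by
  rcases hab.eq_or_lt with rfl | hlt
  · exact le_rfl
  · obtain ⟨c, hc1, hc2⟩ := exists_hasDerivAt_eq_slope φ φ' hlt hc hd
    have h1 := h c hc1
    rw [hc2] at h1
    have h3 : 0 ≤ (φ b - φ a) / (b - a) * (b - a) := mul_nonneg h1 (sub_pos.2 hlt).le
    rw [div_mul_cancel₀ _ (sub_pos.2 hlt).ne'] at h3
    linarith

lemma lawa_real {R x t0 ε : ℝ} {f k k1 : ℝ → ℝ} (hx : 0 < x) (ht0 : 0 < t0) (hR : 5 * t0 < R)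
    (hε : ε ≤ x * t0) (hf : ContinuousOn f (Icc 0 R)) (hk : ContinuousOn k (Icc 0 R))
    (h1 : ∀ t ∈ Ioo 0 R, HasDerivAt f (k t) t) (h2 : ∀ t ∈ Ioo 0 R, HasDerivAt k (k1 t) t)
    (hlow : ∀ t ∈ Ioo 0 R, -(2 * x) ≤ k1 t) (hup : ∀ t ∈ Ioo t0 R, x ≤ k1 t)
    (hf0 : f 0 = 0) (hfR : f R = 0) (hkR : k R ≤ ε) : False := by
  have hR0 : 0 < R := by linarith
  have htR : t0 < R := by linarith
  have S1 : ∀ s ∈ Icc t0 R, k s - x * s ≤ k R - x * R := by
    intro s hs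
    refine lawa_mono (φ := fun t => k t - x * t) (φ' := fun t => k1 t - x * 1) hs.2
      ((hk.mono (Icc_subset_Icc (by linarith [hs.1]) le_rfl)).sub (by fun_prop))
      (fun t ht => (h2 t ⟨by linarith [ht.1, hs.1], ht.2⟩).sub
        ((hasDerivAt_id t).const_mul x)) (fun t ht => ?_)
    have := hup t ⟨by linarith [ht.1, hs.1], ht.2⟩
    simp only [mul_one]
    linarith
  have S2 : ∀ s ∈ Icc 0 t0, k s + 2 * x * s ≤ k t0 + 2 * x * t0 := by
    intro s hs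
    refine lawa_mono (φ := fun t => k t + 2 * x * t) (φ' := fun t => k1 t + 2 * x * 1) hs.2
      ((hk.mono (Icc_subset_Icc hs.1 htR.le)).add (by fun_prop))
      (fun t ht => (h2 t ⟨by linarith [ht.1, hs.1], by linarith [ht.2]⟩).add
        ((hasDerivAt_id t).const_mul (2 * x))) (fun t ht => ?_)
    have := hlow t ⟨by linarith [ht.1, hs.1], by linarith [ht.2]⟩
    simp only [mul_one]
    linarith
  have S3 := lawa_mono (φ := fun t => (k R - x * R) * t + x / 2 * t ^ 2 - f t)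
    (φ' := fun t => (k R - x * R) * 1 + x / 2 * (2 * t) - k t) htR.le
    (ContinuousOn.sub (by fun_prop) (hf.mono (Icc_subset_Icc ht0.le le_rfl)))
    (fun t ht => by
      have e1 : HasDerivAt (fun t : ℝ => (k R - x * R) * t) ((k R - x * R) * 1) t :=
        (hasDerivAt_id t).const_mul _
      have e2 : HasDerivAt (fun t : ℝ => x / 2 * t ^ 2) (x / 2 * (2 * t)) t := by
        have := ((hasDerivAt_id t).pow 2).const_mul (x / 2)
        simpa using this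
      exact (e1.add e2).sub (h1 t ⟨by linarith [ht.1], ht.2⟩))
    (fun t ht => by
      have := S1 t ⟨ht.1.le, ht.2.le⟩
      nlinarith)
  have hkt0 := S1 t0 ⟨le_rfl, htR.le⟩
  have S4 := lawa_mono (φ := fun t => (k R - x * R + 3 * x * t0) * t - f t)
    (φ' := fun t => (k R - x * R + 3 * x * t0) * 1 - k t) ht0.le
    (ContinuousOn.sub (by fun_prop) (hf.mono (Icc_subset_Icc le_rfl htR.le)))
    (fun t ht => by
      have e1 : HasDerivAt (fun t : ℝ => (k R - x * R + 3 * x * t0) * t)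
          ((k R - x * R + 3 * x * t0) * 1) t := (hasDerivAt_id t).const_mul _
      exact e1.sub (h1 t ⟨ht.1, by linarith [ht.2]⟩))
    (fun t ht => by
      have e1 := S2 t ⟨ht.1.le, ht.2.le⟩
      have e2 : 0 ≤ x * t := by
        have := ht.1
        positivity
      nlinarith)
  simp only [hf0, hfR, mul_zero, sub_zero] at S3 S4
  -- 0 ≤ k R * R - x (R - t0)^2/2 - ...
  have e3 : 0 ≤ k R * R - x * (R - t0) ^ 2 / 2 - 2 * x * t0 ^ 2 + (k R - k R) := by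
    have e4 : (k R - x * R + 3 * x * t0) * t0 ≤ (k R - 2 * x * t0) * t0 :=
      mul_le_mul_of_nonneg_right (by nlinarith) ht0.le
    nlinarith
  have e5 : k R * R ≤ x * t0 * R := mul_le_mul_of_nonneg_right (hkR.trans hε) hR0.le
  have e6 : x * t0 * R ≤ x * (R / 5) * R :=
    mul_le_mul_of_nonneg_right (mul_le_mul_of_nonneg_left (by linarith) hx.le) hR0.le
  have e7 : x * (4 / 5 * R) ^ 2 ≤ x * (R - t0) ^ 2 :=
    mul_le_mul_of_nonneg_left (pow_le_pow_left₀ (by positivity) (by linarith) 2) hx.le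
  have e8 : 0 < x * R ^ 2 := by positivity
  nlinarith

/-- the bound of `Mb` on the blocks of length `0` -/
lemma lawa_M {b δ : ℝ} {n d : ℕ} {r : ℕ → ℝ} (hr : BPath b n r) (hd : d ≤ n) (hdn : r d < r n)
    (h : ∀ l, d ≤ l → l < n → r l < r (l + 1) → ∀ t ∈ Icc 0 (r (l + 1) - r l),
      |Mb n (gm n) r l t - 1 / b ^ 2| ≤ δ) :
    ∀ l, d ≤ l → l < n → ∀ t ∈ Icc 0 (r (l + 1) - r l),
      |Mb n (gm n) r l t - 1 / b ^ 2| ≤ δ := by
  have hm := gm_exponents n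
  have hpos : ∀ l, d ≤ l → l < n → r l < r (l + 1) →
      |Ml n (gm n) r l - 1 / b ^ 2| ≤ δ ∧ |Ml n (gm n) r (l + 1) - 1 / b ^ 2| ≤ δ := by
    intro l h1 h2 h3
    have e1 := h l h1 h2 h3 0 ⟨le_rfl, by linarith⟩
    have e2 := h l h1 h2 h3 (r (l + 1) - r l) ⟨by linarith, le_rfl⟩
    rw [Mb_zero hm hr.2.1 h2] at e1
    rw [Mb_last hm hr.2.1 h2] at e2
    exact ⟨e1, e2⟩
  have hzero : ∀ l, l < n → ¬ r l < r (l + 1) → Ml n (gm n) r l = Ml n (gm n) r (l + 1) := by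
    intro l h2 h3
    have e0 : r (l + 1) - r l = 0 := by
      have := len_mono hr (Nat.le_succ l) h2
      have h4 : r (l + 1) ≤ r l := not_lt.1 h3
      linarith
    have e1 := Mb_zero hm hr.2.1 h2
    have e2 := Mb_last hm hr.2.1 h2
    rw [e0] at e2
    rw [← e1, ← e2]
  have hiff : ∀ l, d ≤ l → l < n → (|Ml n (gm n) r l - 1 / b ^ 2| ≤ δ ↔
      |Ml n (gm n) r (l + 1) - 1 / b ^ 2| ≤ δ) := by
    intro l h1 h2
    by_cases h3 : r l < r (l + 1)
    · obtain ⟨e1, e2⟩ := hpos l h1 h2 h3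
      exact ⟨fun _ => e2, fun _ => e1⟩
    · rw [hzero l h2 h3]
  obtain ⟨l0, hl0, hl0n, hl0r⟩ : ∃ l, d ≤ l ∧ l < n ∧ r l < r (l + 1) := by
    by_contra hcon
    push Not at hcon
    have : ∀ i, d + i ≤ n → r (d + i) ≤ r d := by
      intro i
      induction i with
      | zero => intro _; exact le_rfl
      | succ i ih =>
        intro hi
        exact (hcon (d + i) (by omega) (by omega)).trans (ih (by omega))
    have h2 := this (n - d) (by omega)
    rw [Nat.add_sub_cancel' hd] at h2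
    linarith
  have hup : ∀ i, l0 + i ≤ n → |Ml n (gm n) r (l0 + i) - 1 / b ^ 2| ≤ δ := by
    intro i
    induction i with
    | zero => intro _; exact (hpos l0 hl0 hl0n hl0r).1
    | succ i ih =>
      intro hi
      exact (hiff (l0 + i) (by omega) (by omega)).1 (ih (by omega))
  have hdown : ∀ i, i ≤ l0 - d → |Ml n (gm n) r (l0 - i) - 1 / b ^ 2| ≤ δ := by
    intro i
    induction i with
    | zero => intro _; exact (hpos l0 hl0 hl0n hl0r).1
    | succ i ih =>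
      intro hi
      have h1 := ih (by omega)
      have h2 := hiff (l0 - (i + 1)) (by omega) (by omega)
      have e : l0 - (i + 1) + 1 = l0 - i := by omega
      rw [e] at h2
      exact h2.2 h1
  have hall : ∀ l, d ≤ l → l ≤ n → |Ml n (gm n) r l - 1 / b ^ 2| ≤ δ := by
    intro l h1 h2
    rcases le_total l0 l with h3 | h3
    · have := hup (l - l0) (by omega)
      rwa [Nat.add_sub_cancel' h3] at this
    · have := hdown (l0 - l) (by omega)
      have e : l0 - (l0 - l) = l := by omega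
      rwa [e] at this
  intro l h1 h2 t ht
  by_cases h3 : r l < r (l + 1)
  · exact h l h1 h2 h3 t ht
  · have e0 : r (l + 1) - r l ≤ 0 := by
      have h4 : r (l + 1) ≤ r l := not_lt.1 h3
      linarith
    have et : t = 0 := le_antisymm (ht.2.trans e0) ht.1
    rw [et, Mb_zero hm hr.2.1 h2]
    exact hall l h1 h2.le

/-- The derivative at the end of the block, from the variation of the upper level. -/
lemma lawa_end {V h : ℝ} {f k : ℝ → ℝ} (hV : 0 < V) (hf : ContinuousOn f (Icc 0 V))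
    (hk : ContinuousOn k (Icc 0 V)) (h1 : ∀ t ∈ Ioo 0 V, HasDerivAt f (k t) t) (hfV : f V = 0)
    (h6 : ∀ t ∈ Icc 0 V, -(h * (V - t) ^ 2) ≤ ∫ s in t..V, f s) : k V ≤ 2 * h := by
  by_contra hcon
  push Not at hcon
  obtain ⟨q, hq1, hq2⟩ := exists_between hcon
  have hcw : ContinuousWithinAt k (Icc 0 V) V := hk V ⟨hV.le, le_rfl⟩
  have hev : ∀ᶠ s in 𝓝[Icc 0 V] V, q < k s := hcw.eventually (lt_mem_nhds hq2)
  rw [eventually_nhdsWithin_iff, Metric.eventually_nhds_iff] at hev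
  obtain ⟨δ, hδ, hev⟩ := hev
  obtain ⟨t, ht⟩ : ∃ t, t = max 0 (V - δ / 2) := ⟨_, rfl⟩
  have ht0 : 0 ≤ t := by rw [ht]; exact le_max_left _ _
  have htV : t < V := by rw [ht]; exact max_lt hV (by linarith)
  have htd : V - δ / 2 ≤ t := by rw [ht]; exact le_max_right _ _
  have hks : ∀ s ∈ Icc t V, q < k s := by
    intro s hs
    refine hev ?_ ⟨ht0.trans hs.1, hs.2⟩
    rw [Real.dist_eq, abs_sub_comm, abs_of_nonneg (by linarith [hs.2])]
    linarith [hs.1]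
  have hfs : ∀ s ∈ Icc t V, f s ≤ -(q * (V - s)) := by
    intro s hs
    have := lreal_ge (f := f) (f' := k) (a := q) hs.2
      (hf.mono (Icc_subset_Icc_left (ht0.trans hs.1)))
      (fun u hu => h1 u ⟨by linarith [hu.1, hs.1], hu.2⟩)
      (fun u hu => (hks u ⟨hs.1.trans hu.1.le, hu.2.le⟩).le)
    rw [hfV] at this
    linarith
  have hint : ∫ s in t..V, f s ≤ ∫ s in t..V, -(q * (V - s)) := by
    refine intervalIntegral.integral_mono_on htV.le
      ((hf.mono (Icc_subset_Icc_left ht0)).intervalIntegrable_of_Icc htV.le)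
      (Continuous.intervalIntegrable (by fun_prop) _ _) hfs
  have hval : ∫ s in t..V, -(q * (V - s)) = -(q * (V - t) ^ 2 / 2) := by
    have e1 : ∀ s ∈ uIcc t V, HasDerivAt (fun s : ℝ => q * (V - s) ^ 2 / 2) (-(q * (V - s))) s := by
      intro s _
      have e2 : HasDerivAt (fun s : ℝ => V - s) (-1) s := by
        simpa using (hasDerivAt_id s).const_sub V
      have e3 := ((e2.pow 2).const_mul q).div_const 2
      refine e3.congr_deriv ?_
      norm_num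
      ring
    rw [intervalIntegral.integral_eq_sub_of_hasDerivAt e1
      (Continuous.intervalIntegrable (by fun_prop) _ _)]
    ring
  have h7 := h6 t ⟨ht0, htV.le⟩
  rw [hval] at hint
  have h8 : 0 < (V - t) ^ 2 := by
    have : 0 < V - t := by linarith
    positivity
  nlinarith

/-- the first block is not longer than `5 t0` -/
lemma lawa_R {b x t0 h : ℝ} (hb0 : 0 < b) {n e : ℕ} {r : ℕ → ℝ} (hmin : IsMinD b n (e + 1) r)
    (hen : e < n) (hgm : gm n (e + 1) = x) (hx0 : 0 < x) (ht0 : 0 < t0)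
    (hM : t0 ≤ r (e + 1) → x ≤ M1b n (gm n) r e t0)
    (hvar : ∀ t ∈ Icc 0 (r (e + 1) - r e), -(h * (r (e + 1) - r e - t) ^ 2) ≤
        ∫ s in t..(r (e + 1) - r e), (Rb n (gm n) r e s - (r e + s) / b ^ 2))
    (hε : 2 * h ≤ x * t0) : r (e + 1) ≤ 5 * t0 := by
  by_contra hcon
  push Not at hcon
  have hr := hmin.1
  have hm := gm_exponents n
  have hb2 : 0 < b ^ 2 := by positivity
  have hre : r e = 0 := hmin.2.1 e (Nat.lt_succ_self e)
  obtain ⟨R, hRdef⟩ : ∃ R, R = r (e + 1) := ⟨_, rfl⟩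
  have hV : r (e + 1) - r e = R := by rw [hre, sub_zero, hRdef]
  rw [← hRdef] at hcon
  have hR0 : 0 < R := by linarith
  have hst := statD hb0 hmin (e + 1) hen
  have hd2 : ∀ s ∈ Ioo 0 R, HasDerivAt (M1b n (gm n) r e) (M2b n (gm n) r e s) s :=
    fun s hs => M1b_deriv hm hr.2.1 hen (by rw [hV]; exact hs)
  have hM1 : ∀ t ∈ Ioo t0 R, x ≤ M1b n (gm n) r e t := by
    intro t ht
    refine (hM (by rw [← hRdef]; linarith)).trans ?_
    refine lawa_mono (φ' := M2b n (gm n) r e) ht.1.le (fun s hs => ?_) (fun s hs => ?_)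
      (fun s hs => ?_)
    · exact (hd2 s ⟨by linarith [hs.1], by linarith [hs.2, ht.2]⟩).continuousAt.continuousWithinAt
    · exact hd2 s ⟨by linarith [hs.1], by linarith [hs.2, ht.2]⟩
    · exact M2b_nonneg hm hr.2.1 hr.1 hen
        (by rw [hV]; exact ⟨by linarith [hs.1], by linarith [hs.2, ht.2]⟩)
        (by rw [hre]; linarith [hs.1])
  have h1 : ∀ t ∈ Ioo 0 R, HasDerivAt (fun s => Rb n (gm n) r e s - s / b ^ 2)
      (Mb n (gm n) r e t - 1 / b ^ 2) t := fun t ht =>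
    (Rb_deriv hm hr.2.1 hen (by rw [hV]; exact ht)).sub ((hasDerivAt_id t).div_const _)
  have h2 : ∀ t ∈ Ioo 0 R, HasDerivAt (fun s => Mb n (gm n) r e s - 1 / b ^ 2)
      (M1b n (gm n) r e t) t := fun t ht =>
    (Mb_deriv hm hr.2.1 hen (by rw [hV]; exact ht)).sub_const _
  have hfc : ContinuousOn (fun s => Rb n (gm n) r e s - s / b ^ 2) (Icc 0 R) := by
    have := Rb_cont hm hr.2.1 hen
    rw [hV] at this
    exact this.sub (by fun_prop)
  have hkc : ContinuousOn (fun s => Mb n (gm n) r e s - 1 / b ^ 2) (Icc 0 R) := by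
    have := Mb_cont hm hr.2.1 hen
    rw [hV] at this
    exact this.sub (by fun_prop)
  have hf0 : Rb n (gm n) r e 0 - 0 / b ^ 2 = 0 := by
    rw [Rb_zero hm hr.2.1 hen, spR_zero hm hr.2.1 hr.1 hen.le hre]
    simp
  have hfV : Rb n (gm n) r e R - R / b ^ 2 = 0 := by
    have e1 := Rb_last hm hr.2.1 hen
    rw [hV] at e1
    rw [e1, hRdef, hst]
    field_simp
    simp
  have hlow : ∀ t ∈ Ioo 0 R, -(2 * x) ≤ M1b n (gm n) r e t := by
    intro t ht
    have := M1b_low hm hr.2.1 hen (t := t) (by rw [hV]; exact ⟨ht.1.le, ht.2.le⟩)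
    rwa [hgm] at this
  have hvar' : ∀ t ∈ Icc 0 R, -(h * (R - t) ^ 2) ≤
      ∫ s in t..R, (Rb n (gm n) r e s - s / b ^ 2) := by
    rw [hV] at hvar
    simpa only [hre, zero_add] using hvar
  have hkR := lawa_end (f := fun s => Rb n (gm n) r e s - s / b ^ 2)
    (k := fun s => Mb n (gm n) r e s - 1 / b ^ 2) hR0 hfc hkc h1 hfV hvar'
  exact lawa_real (f := fun s => Rb n (gm n) r e s - s / b ^ 2)
    (k := fun s => Mb n (gm n) r e s - 1 / b ^ 2) (k1 := M1b n (gm n) r e) (ε := 2 * h)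
    hx0 ht0 hcon hε hfc hkc h1 h2 hlow hM1 hf0 hfV hkR

/-- the derivative of `Mb` at the time `K₁ x` -/
lemma lawa_t0 {cb K₁ Cm M x κ v : ℝ} (hcb : 0 < cb) (hK₁ : 1 ≤ K₁) (hK4 : 4 ≤ cb ^ 2 * K₁)
    (hCm : 1 ≤ Cm) (hx0 : 0 < x) (hx : x ≤ 1 / (K₁ * (Cm * K₁) ^ 2)) (hκ : cb ≤ κ) (hv0 : 0 ≤ v)
    (hv1 : v ≤ 1)
    (h : |M - (κ ^ 2 * (K₁ * x) - 2 * x * v ^ 3)| ≤ Cm * (K₁ * x * √(K₁ * x))) : x ≤ M := by
  have hK0 : 0 < K₁ := by linarith
  have ht0 : 0 < K₁ * x := by positivity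
  have h2 : cb ^ 2 * (K₁ * x) ≤ κ ^ 2 * (K₁ * x) :=
    mul_le_mul_of_nonneg_right (pow_le_pow_left₀ hcb.le hκ 2) ht0.le
  have h3 : v ^ 3 ≤ 1 := pow_le_one₀ hv0 hv1
  have h4 : 2 * x * v ^ 3 ≤ 2 * x * 1 := mul_le_mul_of_nonneg_left h3 (by linarith)
  have h5 : Cm * (K₁ * x * √(K₁ * x)) ≤ x := by
    have h6 : √(K₁ * x) ≤ 1 / (Cm * K₁) := by
      rw [Real.sqrt_le_left (by positivity), div_pow, one_pow]
      calc K₁ * x ≤ K₁ * (1 / (K₁ * (Cm * K₁) ^ 2)) := mul_le_mul_of_nonneg_left hx hK0.le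
        _ = 1 / (Cm * K₁) ^ 2 := by field_simp
    calc Cm * (K₁ * x * √(K₁ * x)) ≤ Cm * (K₁ * x * (1 / (Cm * K₁))) := by
          gcongr
      _ = x := by field_simp
  have h8 := (abs_le.1 h).1
  have h9 : 4 * x ≤ cb ^ 2 * (K₁ * x) := by
    have := mul_le_mul_of_nonneg_right hK4 hx0.le
    linarith
  linarith

theorem lawA_of {b : ℝ} (hb : 1 < b)
    (hbd : ∃ c K : ℝ, 0 < c ∧ 1 ≤ K ∧ ∀ (n : ℕ) (r : ℕ → ℝ), BPath b n r →
      c ≤ vv n r ∧ vv n r ≤ 1 ∧ c ≤ kk n r ∧ kk n r ≤ K)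
    (hm1 : ∃ C : ℝ, 1 ≤ C ∧ ∀ (n : ℕ) (X : ℝ) (r : ℕ → ℝ), BPath b n r → 0 < X →
      X ≤ 1 → ∀ l < n, gm n (l + 1) ≤ X → ∀ t ∈ Icc 0 (r (l + 1) - r l), r l + t ≤ X →
        |M1b n (gm n) r l t - (kk n r ^ 2 * (r l + t) - 2 * gm n (l + 1) * vv n r ^ 3)| ≤
          C * (X * √X)) :
    ∃ c C : ℝ, 0 < c ∧ 1 ≤ C ∧ ∀ (n d : ℕ) (r : ℕ → ℝ),
    1 ≤ d → d ≤ n → IsMinD b n d r → gm n d ≤ c → C ≤ gm n d ^ 40 * (n + 1) →
      c * gm n d ≤ r d ∧ r d ≤ C * gm n d ∧ 2 * C * gm n d ≤ r n ∧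
      ∀ l, d ≤ l → l < n → ∀ t ∈ Icc 0 (r (l + 1) - r l),
        |Mb n (gm n) r l t - 1 / b ^ 2| ≤ gm n d ^ 8 := by
  obtain ⟨cb, Kb, hcb, hKb, hvk⟩ := hbd
  obtain ⟨Cm, hCm, hm1e⟩ := hm1
  obtain ⟨c₁, C₁, hc₁, hC₁, hlen⟩ := lenD hb
  obtain ⟨Cu, hCu, hun⟩ := unifD hb
  obtain ⟨Cv, hCv, hvar⟩ := var_downD hb
  obtain ⟨cl, hcl, hlast⟩ := lastD hb
  have hb0 : 0 < b := by linarith
  -- t0 = K₁ x
  obtain ⟨K₁, hK₁⟩ : ∃ K₁, K₁ = max (4 / cb ^ 2) 1 := ⟨_, rfl⟩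
  have hK₁1 : 1 ≤ K₁ := by rw [hK₁]; exact le_max_right _ _
  have hK₁0 : 0 < K₁ := by linarith
  have hK₁4 : 4 ≤ cb ^ 2 * K₁ := by
    have h1 : 4 / cb ^ 2 ≤ K₁ := by rw [hK₁]; exact le_max_left _ _
    rw [div_le_iff₀ (by positivity)] at h1
    linarith
  obtain ⟨C, hCdef⟩ : ∃ C, C = C₁ + Cu ^ 4 + 1 / cl + 5 * K₁ + 2 * Cv := ⟨_, rfl⟩
  have hCu0 : 0 < Cu := by linarith
  have p1 : 0 < Cu ^ 4 := by positivity
  have p2 : 0 < 1 / cl := by positivity
  have hC1 : 1 ≤ C := by rw [hCdef]; linarith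
  have hC0 : 0 < C := by linarith
  have hCC₁ : C₁ ≤ C := by rw [hCdef]; linarith
  have hCCu : Cu ^ 4 ≤ C := by rw [hCdef]; linarith
  have hCcl : 1 / cl ≤ C := by rw [hCdef]; linarith
  have hC5 : 5 * K₁ ≤ C := by rw [hCdef]; linarith
  have hCCv : 2 * Cv ≤ C := by rw [hCdef]; linarith
  obtain ⟨c₂, hc₂⟩ : ∃ c₂, c₂ = 1 / (K₁ * (Cm * K₁) ^ 2) := ⟨_, rfl⟩
  have hc₂0 : 0 < c₂ := by rw [hc₂]; positivity
  obtain ⟨c, hcdef⟩ : ∃ c, c = min (min c₁ (cl / (4 * C))) (min c₂ (1 / 4)) := ⟨_, rfl⟩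
  have hc0 : 0 < c := by rw [hcdef]; positivity
  have hcc₁ : c ≤ c₁ := by rw [hcdef]; exact (min_le_left _ _).trans (min_le_left _ _)
  have hccl : c ≤ cl / (4 * C) := by rw [hcdef]; exact (min_le_left _ _).trans (min_le_right _ _)
  have hcc₂ : c ≤ c₂ := by rw [hcdef]; exact (min_le_right _ _).trans (min_le_left _ _)
  have hc4 : c ≤ 1 / 4 := by rw [hcdef]; exact (min_le_right _ _).trans (min_le_right _ _)
  refine ⟨c, C, hc0, hC1, fun n d r hd1 hdn hmin hx hC => ?_⟩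
  obtain ⟨e, rfl⟩ : ∃ e, d = e + 1 := ⟨d - 1, by omega⟩
  obtain ⟨x, hxdef⟩ : ∃ x, x = gm n (e + 1) := ⟨_, rfl⟩
  have hx0 : 0 < x := by rw [hxdef]; exact grid_gm_pos hd1
  rw [← hxdef] at hx hC ⊢
  have hx4 : x ≤ 1 / 4 := hx.trans hc4
  have hx1 : x ≤ 1 := by linarith
  have hr := hmin.1
  have hm := gm_exponents n
  have hn1 : (0 : ℝ) < n + 1 := by positivity
  have hpw : ∀ k : ℕ, k ≤ 40 → C ≤ x ^ k * (n + 1) := by
    intro k hk
    refine hC.trans (mul_le_mul_of_nonneg_right ?_ hn1.le)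
    exact pow_le_pow_of_le_one hx0.le hx1 hk
  have hrdlow : c₁ * x ≤ r (e + 1) := by
    have := hlen n (e + 1) r hd1 hdn hmin (by rw [← hxdef]; exact hx.trans hcc₁)
      (by rw [← hxdef]; exact hCC₁.trans (hpw 8 (by norm_num)))
    rwa [← hxdef] at this
  have hrn : cl ≤ r n := by
    refine hlast n (e + 1) r hd1 hdn hmin ?_
    have h1 : 1 / cl ≤ x ^ 0 * (n + 1) := hCcl.trans (hpw 0 (by norm_num))
    rw [div_le_iff₀ hcl, pow_zero, one_mul] at h1
    linarith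
  have hrn2 : 4 * C * x ≤ r n := by
    have h1 : x ≤ cl / (4 * C) := hx.trans hccl
    rw [le_div_iff₀ (by positivity)] at h1
    linarith
  have hCx : 0 < C * x := by positivity
  -- blocks of positive length
  have hposM : ∀ l, e + 1 ≤ l → l < n → r l < r (l + 1) → ∀ t ∈ Icc 0 (r (l + 1) - r l),
      |Mb n (gm n) r l t - 1 / b ^ 2| ≤ x ^ 8 := by
    intro l h1 h2 h3 t ht
    have h4 := hun n (e + 1) r l (x ^ 8 / Cu) hmin (by omega) h1 h2 h3 (by positivity) (by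
      have e1 := hCCu.trans (hpw 32 (by norm_num))
      rw [div_pow, div_mul_eq_mul_div, le_div_iff₀ (by positivity), one_mul, ← pow_mul]
      exact e1) t ht
    have e2 : Cu * (x ^ 8 / Cu) = x ^ 8 := by field_simp
    rwa [e2] at h4
  have hR5 : r (e + 1) ≤ 5 * (K₁ * x) := by
    refine lawa_R (h := Cv / (n + 1)) hb0 hmin hdn hxdef.symm hx0 (by positivity) (fun hle => ?_)
      (hvar n (e + 1) r e hmin hdn le_rfl) ?_
    · have hre : r e = 0 := hmin.2.1 e (Nat.lt_succ_self e)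
      have hxc : x ≤ 1 / (K₁ * (Cm * K₁) ^ 2) := by
        rw [← hc₂]
        exact hx.trans hcc₂
      have hXle : K₁ * x ≤ 1 := by
        have h3 : (1 : ℝ) ≤ (Cm * K₁) ^ 2 := one_le_pow₀ (by nlinarith)
        have h4 : 1 / (Cm * K₁) ^ 2 ≤ 1 := by
          rw [div_le_one (by positivity)]
          exact h3
        calc K₁ * x ≤ K₁ * (1 / (K₁ * (Cm * K₁) ^ 2)) := mul_le_mul_of_nonneg_left hxc hK₁0.le
          _ = 1 / (Cm * K₁) ^ 2 := by field_simp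
          _ ≤ 1 := h4
      have h1 := hm1e n (K₁ * x) r hr (by positivity) hXle e hdn
        (by rw [← hxdef]; nlinarith) (K₁ * x)
        ⟨by positivity, by rw [hre, sub_zero]; exact hle⟩ (by rw [hre, zero_add])
      rw [hre, zero_add, ← hxdef] at h1
      obtain ⟨hv1, hv2, hk1, hk2⟩ := hvk n r hr
      exact lawa_t0 hcb hK₁1 hK₁4 hCm hx0 hxc hk1 (by linarith) hv2 h1
    · have h1 := hCCv.trans (hpw 2 (by norm_num))
      have h2 : 2 * (Cv / ((n : ℝ) + 1)) ≤ x ^ 2 := by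
        rw [← mul_div_assoc, div_le_iff₀ hn1]
        exact h1
      have h3 : x ^ 2 ≤ x * (K₁ * x) := by
        have : x * x ≤ x * (K₁ * x) := mul_le_mul_of_nonneg_left (by nlinarith) hx0.le
        linarith
      linarith
  have hup : r (e + 1) ≤ C * x := by
    have : 5 * K₁ * x ≤ C * x := mul_le_mul_of_nonneg_right hC5 hx0.le
    linarith
  refine ⟨(mul_le_mul_of_nonneg_right hcc₁ hx0.le).trans hrdlow, hup, ?_,
    lawa_M hr hdn ?_ hposM⟩
  · linarith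
  · linarith

end Vale.Agent.P146.Sh
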