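import Vale.Agent.P146.Sh.ShDefs

/-!
# P146, Sh: the jump after the first block (the inputs are hypotheses)
-/

open MeasureTheory ProbabilityTheory Filter Topology Set

namespace Vale.Agent.P146.Sh

open Vale.Agent.P157.Par
open Vale.Agent.P146.Gap
open Vale.Agent.P146.Pw2
open Vale.Agent.P146.Lb
open Vale.Agent.P367.Cl

/-- `M` increases at least with the slope `S` on the blocks up to the level `L`. -/
theorem lawc_inc {b S W : ℝ} {n d L : ℕ} {r : ℕ → ℝ} (hr : BPath b n r) (hL : L ≤ n)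
    (hS : ∀ l < L, d ≤ l → ∀ t ∈ Icc 0 (r (l + 1) - r l), r l + t ≤ W →
      S ≤ M1b n (gm n) r l t) {l : ℕ} (hdl : d ≤ l) (hl : l < L) {T : ℝ}
    (hT : T ∈ Icc 0 (r (l + 1) - r l)) (hW : r l + T ≤ W) :
    Mb n (gm n) r l 0 + S * T ≤ Mb n (gm n) r l T := by
  have hm := gm_exponents n
  have hln : l < n := hl.trans_le hL
  have h1 := lreal_ge (f := Mb n (gm n) r l) (f' := M1b n (gm n) r l) (a := S)
    hT.1 ((Mb_cont hm hr.2.1 hln).mono (Icc_subset_Icc_right hT.2))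
    (fun s hs => Mb_deriv hm hr.2.1 hln ⟨hs.1, hs.2.trans_le hT.2⟩)
    (fun s hs => hS l hl hdl s ⟨hs.1.le, (hs.2.trans_le hT.2).le⟩ (by linarith [hs.2]))
  linarith

theorem lawc_chain {b S W : ℝ} {n d L : ℕ} {r : ℕ → ℝ} (hr : BPath b n r) (hL : L ≤ n)
    (hS : ∀ l < L, d ≤ l → ∀ t ∈ Icc 0 (r (l + 1) - r l), r l + t ≤ W →
      S ≤ M1b n (gm n) r l t) :
    ∀ i, d + i < L → r (d + i) ≤ W →
      Ml n (gm n) r d + S * (r (d + i) - r d) ≤ Ml n (gm n) r (d + i) := by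
  have hm := gm_exponents n
  intro i
  induction i with
  | zero => intro _ _; simp
  | succ i ih =>
    intro hi hW
    have e : d + (i + 1) = d + i + 1 := rfl
    rw [e] at hi hW ⊢
    have hli : d + i < n := by omega
    have h2 : r (d + i) ≤ r (d + i + 1) := len_mono hr (Nat.le_succ _) hli
    have h1 := ih (by omega) (h2.trans hW)
    have h4 := lawc_inc hr hL hS (l := d + i) (Nat.le_add_right _ _) (by omega)
      (T := r (d + i + 1) - r (d + i)) ⟨by linarith, le_rfl⟩ (by linarith)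
    rw [Mb_last hm hr.2.1 hli, Mb_zero hm hr.2.1 hli] at h4
    linarith

/-- The increase of `M` between the level `d` and the time `r d + y` in the block `L - 1`. -/
theorem lawc_slope {b S y ε ν : ℝ} {n d L : ℕ} {r : ℕ → ℝ} (hr : BPath b n r) (hL : L ≤ n)
    (hdL : d < L) (hlo : r (L - 1) ≤ r d + y) (hhi : r d + y ≤ r L)
    (hM : ∀ l, d ≤ l → l < n → ∀ t ∈ Icc 0 (r (l + 1) - r l),
      |Mb n (gm n) r l t - ν| ≤ ε)
    (hS : ∀ l < L, d ≤ l → ∀ t ∈ Icc 0 (r (l + 1) - r l), r l + t ≤ r d + y →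
      S ≤ M1b n (gm n) r l t) : S * y ≤ 2 * ε := by
  have hm := gm_exponents n
  have hdn : d < n := by omega
  have hLn : L - 1 < n := by omega
  have e : L - 1 + 1 = L := by omega
  have h1 := lawc_chain hr hL hS (L - 1 - d) (by omega) (by
    rw [show d + (L - 1 - d) = L - 1 by omega]
    exact hlo)
  rw [show d + (L - 1 - d) = L - 1 by omega] at h1
  have hT : r d + y - r (L - 1) ∈ Icc 0 (r (L - 1 + 1) - r (L - 1)) := by
    rw [e]
    exact ⟨by linarith, by linarith⟩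
  have h2 := lawc_inc hr hL hS (l := L - 1) (by omega) (by omega) hT (by linarith)
  rw [Mb_zero hm hr.2.1 hLn] at h2
  have h3 := (abs_le.1 (hM (L - 1) (by omega) hLn _ hT)).2
  have h4 := (abs_le.1 (hM d le_rfl hdn 0
    ⟨le_rfl, by linarith [len_mono hr (Nat.le_succ d) hdn]⟩)).1
  rw [Mb_zero hm hr.2.1 hdn] at h4
  have h5 : S * (r (L - 1) - r d) + S * (r d + y - r (L - 1)) = S * y := by ring
  linarith

theorem lawc_final {x v cv D g : ℝ} (hx : 0 < x) (hcv : 0 < cv) (hv : cv ≤ v)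
    (hD : 0 ≤ D) (h : 3 * x * v ^ 3 - 2 * g * v ^ 3 ≤ D * (x * √x)) :
    3 / 2 * x - D / (2 * cv ^ 3) * (x * √x) ≤ g := by
  rcases le_total (3 * x) (2 * g) with h1 | h1
  · have : 0 ≤ D / (2 * cv ^ 3) * (x * √x) := by positivity
    linarith
  · have h2 : cv ^ 3 ≤ v ^ 3 := pow_le_pow_left₀ hcv.le hv 3
    have h3 : cv ^ 3 * (3 * x - 2 * g) ≤ v ^ 3 * (3 * x - 2 * g) :=
      mul_le_mul_of_nonneg_right h2 (by linarith)
    have h4 : cv ^ 3 * (3 * x - 2 * g) ≤ D * (x * √x) := by linarith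
    have h5 : 3 * x - 2 * g ≤ D * (x * √x) / cv ^ 3 := by
      rw [le_div_iff₀ (by positivity)]
      linarith
    have h6 : D / (2 * cv ^ 3) * (x * √x) = D * (x * √x) / cv ^ 3 / 2 := by
      field_simp
    rw [h6]
    linarith

theorem lawc_num {x A Cm CB v cv y g : ℝ} (hx : 0 < x) (hx1 : x ≤ 1) (hA : 1 ≤ A)
    (hCm : 0 ≤ Cm) (hCB : 0 ≤ CB) (hcv : 0 < cv) (hv : cv ≤ v)
    (h1 : y - 2 * g * v ^ 3 - Cm * (A * x * √(A * x)) ≤ 2 * x ^ 4)
    (h2 : -(CB * (x * √x)) ≤ y - 3 * x * v ^ 3) :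
    3 / 2 * x - (CB + Cm * A ^ 2 + 2) / (2 * cv ^ 3) * (x * √x) ≤ g := by
  have hA0 : 0 ≤ A := by linarith
  have hsx : x ≤ √x := by
    rw [Real.le_sqrt hx.le hx.le]
    nlinarith
  have h3 : x ^ 4 ≤ x * √x := by
    have h4 : x ^ 3 ≤ x := by
      have := pow_le_pow_of_le_one hx.le hx1 (show 1 ≤ 3 by norm_num)
      rwa [pow_one] at this
    calc x ^ 4 = x * x ^ 3 := by ring
      _ ≤ x * √x := mul_le_mul_of_nonneg_left (h4.trans hsx) hx.le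
  have h4 : A * x * √(A * x) ≤ A ^ 2 * (x * √x) := by
    rw [Real.sqrt_mul hA0]
    have h5 : √A ≤ A := by
      rw [Real.sqrt_le_left hA0]
      nlinarith
    have h6 : A * x * (√A * √x) = √A * (A * (x * √x)) := by ring
    rw [h6]
    have h7 : √A * (A * (x * √x)) ≤ A * (A * (x * √x)) :=
      mul_le_mul_of_nonneg_right h5 (by positivity)
    linarith
  have h5 : Cm * (A * x * √(A * x)) ≤ Cm * (A ^ 2 * (x * √x)) :=
    mul_le_mul_of_nonneg_left h4 hCm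
  exact lawc_final hx hcv hv (by positivity) (by linarith)

/-- The lower bound of `M1b` on the jump. -/
theorem lawc_low {b X Cm W : ℝ} {n d L : ℕ} {r : ℕ → ℝ} (hr : BPath b n r) (hL : L ≤ n)
    (hWX : W ≤ X) (hg : gm n L ≤ X) (hv : 0 ≤ vv n r)
    (hm1 : ∀ l < n, gm n (l + 1) ≤ X → ∀ t ∈ Icc 0 (r (l + 1) - r l), r l + t ≤ X →
      |M1b n (gm n) r l t - (kk n r ^ 2 * (r l + t) - 2 * gm n (l + 1) * vv n r ^ 3)| ≤
        Cm * (X * √X)) :
    ∀ l < L, d ≤ l → ∀ t ∈ Icc 0 (r (l + 1) - r l), r l + t ≤ W →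
      kk n r ^ 2 * r d - 2 * gm n L * vv n r ^ 3 - Cm * (X * √X) ≤ M1b n (gm n) r l t := by
  intro l hl hdl t ht hW
  have hgl : gm n (l + 1) ≤ gm n L := grid_gm_mono hl
  have h1 := (abs_le.1 (hm1 l (hl.trans_le hL) (hgl.trans hg) t ht (hW.trans hWX))).1
  have h2 : r d ≤ r l + t := by
    have := len_mono hr hdl (hl.trans_le hL).le
    linarith [ht.1]
  have h3 : kk n r ^ 2 * r d ≤ kk n r ^ 2 * (r l + t) :=
    mul_le_mul_of_nonneg_left h2 (by positivity)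
  have h5 : gm n (l + 1) * vv n r ^ 3 ≤ gm n L * vv n r ^ 3 :=
    mul_le_mul_of_nonneg_right hgl (pow_nonneg hv 3)
  linarith

theorem lawc_two (n d : ℕ) : gm n (2 * d) = 2 * gm n d := by
  unfold gm
  push_cast
  ring

/-- The case of a jump at the level `L < 2 d`. -/
theorem lawc_case {b c1 A Cm CB cv : ℝ} {n d L : ℕ} {r : ℕ → ℝ} (hr : BPath b n r)
    (hL : L ≤ n) (hd1 : 1 ≤ d) (hdL : d < L) (hL2 : L ≤ 2 * d)
    (hA : 1 ≤ A) (hc1 : c1 + 2 = A) (hc10 : 0 ≤ c1) (hCm : 0 ≤ Cm) (hCB : 0 ≤ CB) (hcv : 0 < cv)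
    (hv : cv ≤ vv n r) (hxA : A * gm n d ≤ 1) (hrd : r d ≤ c1 * gm n d)
    (hlo : r (L - 1) ≤ r d + gm n d ^ 4) (hhi : r d + gm n d ^ 4 ≤ r L)
    (hM : ∀ l, d ≤ l → l < n → ∀ t ∈ Icc 0 (r (l + 1) - r l),
      |Mb n (gm n) r l t - 1 / b ^ 2| ≤ gm n d ^ 8)
    (hm1 : ∀ l < n, gm n (l + 1) ≤ A * gm n d → ∀ t ∈ Icc 0 (r (l + 1) - r l),
      r l + t ≤ A * gm n d →
      |M1b n (gm n) r l t - (kk n r ^ 2 * (r l + t) - 2 * gm n (l + 1) * vv n r ^ 3)| ≤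
        Cm * (A * gm n d * √(A * gm n d)))
    (hB : |kk n r ^ 2 * r d - 3 * gm n d * vv n r ^ 3| ≤ CB * (gm n d * √(gm n d))) :
    3 / 2 * gm n d - (CB + Cm * A ^ 2 + 2) / (2 * cv ^ 3) * (gm n d * √(gm n d)) ≤ gm n L := by
  have hx0 : 0 < gm n d := grid_gm_pos hd1
  have hx1 : gm n d ≤ 1 := by
    have : 1 * gm n d ≤ A * gm n d := mul_le_mul_of_nonneg_right hA hx0.le
    linarith
  have hx4 : gm n d ^ 4 ≤ gm n d := by
    have := pow_le_pow_of_le_one hx0.le hx1 (show 1 ≤ 4 by norm_num)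
    rwa [pow_one] at this
  have hx4' : 0 < gm n d ^ 4 := by positivity
  have hg2 : gm n L ≤ 2 * gm n d := by
    rw [← lawc_two]
    exact grid_gm_mono hL2
  have hAx : A * gm n d = c1 * gm n d + 2 * gm n d := by
    rw [← hc1]
    ring
  have hcx : 0 ≤ c1 * gm n d := mul_nonneg hc10 hx0.le
  have hS := lawc_low (W := r d + gm n d ^ 4) (d := d) hr hL (by linarith) (by linarith)
    (hcv.le.trans hv) hm1
  have h1 := lawc_slope hr hL hdL hlo hhi hM hS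
  have h3 : 2 * gm n d ^ 8 = 2 * gm n d ^ 4 * gm n d ^ 4 := by ring
  rw [h3] at h1
  have h2 := le_of_mul_le_mul_right h1 hx4'
  exact lawc_num hx0 hx1 hA hCm hCB hcv hv h2 (abs_le.1 hB).1

theorem lawC_of {b : ℝ}
    (hvkbd : ∃ c K : ℝ, 0 < c ∧ 1 ≤ K ∧ ∀ (n : ℕ) (r : ℕ → ℝ), BPath b n r →
      c ≤ vv n r ∧ vv n r ≤ 1 ∧ c ≤ kk n r ∧ kk n r ≤ K)
    (hm1e : ∃ C : ℝ, 1 ≤ C ∧ ∀ (n : ℕ) (X : ℝ) (r : ℕ → ℝ), BPath b n r → 0 < X →
      X ≤ 1 → ∀ l < n, gm n (l + 1) ≤ X → ∀ t ∈ Icc 0 (r (l + 1) - r l), r l + t ≤ X →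
        |M1b n (gm n) r l t - (kk n r ^ 2 * (r l + t) - 2 * gm n (l + 1) * vv n r ^ 3)| ≤
          C * (X * √X))
    (hlawA : ∃ c C : ℝ, 0 < c ∧ 1 ≤ C ∧ ∀ (n d : ℕ) (r : ℕ → ℝ),
      1 ≤ d → d ≤ n → IsMinD b n d r → gm n d ≤ c → C ≤ gm n d ^ 40 * (n + 1) →
        c * gm n d ≤ r d ∧ r d ≤ C * gm n d ∧ 2 * C * gm n d ≤ r n ∧
        ∀ l, d ≤ l → l < n → ∀ t ∈ Icc 0 (r (l + 1) - r l),
          |Mb n (gm n) r l t - 1 / b ^ 2| ≤ gm n d ^ 8)
    (hlawB : ∃ c C : ℝ, 0 < c ∧ 1 ≤ C ∧ ∀ (n d : ℕ) (r : ℕ → ℝ),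
      1 ≤ d → d ≤ n → IsMinD b n d r → gm n d ≤ c → C ≤ gm n d ^ 40 * (n + 1) →
        |kk n r ^ 2 * r d - 3 * gm n d * vv n r ^ 3| ≤ C * (gm n d * √(gm n d)) ∧
        ∫ s in (0 : ℝ)..(r d), (Rb n (gm n) r (d - 1) s - s / b ^ 2) ≤
          kk n r ^ 2 * r d ^ 4 / 72 + C * (gm n d ^ 4 * √(gm n d))) :
    ∃ c C : ℝ, 0 < c ∧ 1 ≤ C ∧ ∀ (n d : ℕ) (r : ℕ → ℝ),
    1 ≤ d → d ≤ n → IsMinD b n d r → gm n d ≤ c → C ≤ gm n d ^ 40 * (n + 1) →
      ∃ L : ℕ, d < L ∧ L ≤ 2 * d ∧ L ≤ n ∧ r (L - 1) ≤ r d + gm n d ^ 4 ∧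
        3 / 2 * gm n d - C * (gm n d * √(gm n d)) ≤ gm n L := by
  obtain ⟨cA, CA, hcA, hCA, hA⟩ := hlawA
  obtain ⟨cB, CB, hcB, hCB, hB⟩ := hlawB
  obtain ⟨Cm, hCm, hm1⟩ := hm1e
  obtain ⟨cv, Kv, hcv, hKv, hvk⟩ := hvkbd
  have hA1 : 1 ≤ CA + 2 := by linarith
  have hA0 : 0 < CA + 2 := by linarith
  refine ⟨min (min cA cB) (1 / (CA + 2)),
    max (max CA CB) (max ((CB + Cm * (CA + 2) ^ 2 + 2) / (2 * cv ^ 3)) 1), by positivity,
    (le_max_right _ _).trans (le_max_right _ _), fun n d r hd1 hdn hmin hx hC => ?_⟩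
  have hx0 : 0 < gm n d := grid_gm_pos hd1
  have hr := hmin.1
  obtain ⟨a1, a2, a3, a4⟩ := hA n d r hd1 hdn hmin
    (hx.trans ((min_le_left _ _).trans (min_le_left _ _)))
    ((le_max_left _ _).trans ((le_max_left _ _).trans hC))
  obtain ⟨b1, -⟩ := hB n d r hd1 hdn hmin
    (hx.trans ((min_le_left _ _).trans (min_le_right _ _)))
    ((le_max_right _ _).trans ((le_max_left _ _).trans hC))
  obtain ⟨v1, -, -, -⟩ := hvk n r hr
  have hxA : (CA + 2) * gm n d ≤ 1 := by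
    have h1 : gm n d ≤ 1 / (CA + 2) := hx.trans (min_le_right _ _)
    rw [le_div_iff₀ hA0] at h1
    linarith
  have hcx : 1 * gm n d ≤ CA * gm n d := mul_le_mul_of_nonneg_right hCA hx0.le
  have hx1 : gm n d ≤ 1 := by linarith
  have hx4 : gm n d ^ 4 ≤ gm n d := by
    have := pow_le_pow_of_le_one hx0.le hx1 (show 1 ≤ 4 by norm_num)
    rwa [pow_one] at this
  have hx4' : 0 < gm n d ^ 4 := by positivity
  have hlast : r d + gm n d ^ 4 ≤ r n := by linarith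
  have hxs : 0 ≤ gm n d * √(gm n d) := by positivity
  -- the level after the jump
  have hex : ∃ l, r d + gm n d ^ 4 ≤ r l := ⟨n, hlast⟩
  classical
  obtain ⟨L0, hL0⟩ : ∃ L0, L0 = Nat.find hex := ⟨_, rfl⟩
  have hL0s : r d + gm n d ^ 4 ≤ r L0 := by
    rw [hL0]
    exact Nat.find_spec hex
  have hL0n : L0 ≤ n := by
    rw [hL0]
    exact Nat.find_min' hex hlast
  have hlt : ∀ l < L0, r l < r d + gm n d ^ 4 := fun l hl => by
    rw [hL0] at hl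
    exact not_le.1 (Nat.find_min hex hl)
  have hdL0 : d < L0 := by
    by_contra h
    push Not at h
    have := len_mono hr h hdn
    linarith
  rcases Nat.lt_or_ge L0 (2 * d) with hcase | hcase
  · have hlo : r (L0 - 1) ≤ r d + gm n d ^ 4 := (hlt _ (by omega)).le
    refine ⟨L0, hdL0, hcase.le, hL0n, hlo, ?_⟩
    have h7 := lawc_case hr hL0n hd1 hdL0 hcase.le hA1 rfl (by linarith)
      (zero_le_one.trans hCm) (zero_le_one.trans hCB) hcv v1 hxA a2 hlo hL0s a4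
      (fun l hl => hm1 n _ r hr (mul_pos hA0 hx0) hxA l hl) b1
    refine le_trans ?_ h7
    have h8 : (CB + Cm * (CA + 2) ^ 2 + 2) / (2 * cv ^ 3) ≤
        max (max CA CB) (max ((CB + Cm * (CA + 2) ^ 2 + 2) / (2 * cv ^ 3)) 1) :=
      (le_max_left _ _).trans (le_max_right _ _)
    have h9 := mul_le_mul_of_nonneg_right h8 hxs
    linarith
  · refine ⟨2 * d, by omega, le_rfl, by omega, (hlt _ (by omega)).le, ?_⟩
    have h8 : 0 ≤ max (max CA CB) (max ((CB + Cm * (CA + 2) ^ 2 + 2) / (2 * cv ^ 3)) 1) :=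
      zero_le_one.trans ((le_max_right _ _).trans (le_max_right _ _))
    have h9 := mul_nonneg h8 hxs
    rw [lawc_two]
    linarith

end Vale.Agent.P146.Sh
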