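import Vale.Agent.P146.Sh.ShDefs
import Vale.Agent.P146.Sh.ShLawB0

/-!
# P146, Sh: the jump after the first block (over the statements of `lawA`, `lawB`, `m1e`, `vk_bd`)
-/

open MeasureTheory ProbabilityTheory Filter Topology Set

namespace Vale.Agent.P146.Sh

open Vale.Agent.P157.Par
open Vale.Agent.P146.Gap
open Vale.Agent.P146.Pw2
open Vale.Agent.P146.Lb
open Vale.Agent.P367.Cl

/-- the growth of `M` over the blocks `d, …, l` up to the time `W` -/
theorem lawcb_grow {b μ W : ℝ} {n d l : ℕ} {r : ℕ → ℝ} (hr : BPath b n r) (hdl : d ≤ l)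
    (hl : l < n) (hlW : r l ≤ W) (hWl : W ≤ r (l + 1))
    (hM : ∀ i, d ≤ i → i ≤ l → ∀ t ∈ Icc 0 (r (i + 1) - r i), r i + t ≤ W →
      μ ≤ M1b n (gm n) r i t) :
    Ml n (gm n) r d + μ * (W - r d) ≤ Mb n (gm n) r l (W - r l) := by
  have hm := gm_exponents n
  -- one block
  have hone : ∀ i, d ≤ i → i ≤ l → ∀ T ∈ Icc 0 (r (i + 1) - r i), r i + T ≤ W →
      Mb n (gm n) r i 0 + μ * T ≤ Mb n (gm n) r i T := by
    intro i hdi hil T hT hTW
    have h1 := lreal_ge (f := Mb n (gm n) r i) (f' := M1b n (gm n) r i) (a := μ)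
      hT.1 ((Mb_cont hm hr.2.1 (by omega)).mono (Icc_subset_Icc_right hT.2))
      (fun s hs => Mb_deriv hm hr.2.1 (by omega) ⟨hs.1, hs.2.trans_le hT.2⟩)
      (fun s hs => hM i hdi hil s ⟨hs.1.le, (hs.2.trans_le hT.2).le⟩ (by linarith [hs.2]))
    linarith
  have hind : ∀ i, d + i ≤ l → Ml n (gm n) r d + μ * (r (d + i) - r d) ≤
      Ml n (gm n) r (d + i) := by
    intro i
    induction i with
    | zero => intro _; simp
    | succ i ih =>
      intro hi
      have h1 := ih (by omega)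
      have hli : d + i < n := by omega
      have h2 : r (d + i) ≤ r (d + i + 1) := len_mono hr (Nat.le_succ _) (by omega)
      have h3 : r (d + i + 1) ≤ r l := len_mono hr hi hl.le
      have h4 := hone (d + i) (by omega) (by omega) (r (d + i + 1) - r (d + i))
        ⟨by linarith, le_rfl⟩ (by linarith)
      rw [Mb_last hm hr.2.1 hli, Mb_zero hm hr.2.1 hli] at h4
      have e : d + (i + 1) = d + i + 1 := rfl
      rw [e]
      linarith
  have h5 := hind (l - d) (by omega)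
  rw [Nat.add_sub_cancel' hdl] at h5
  have h6 := hone l hdl le_rfl (W - r l) ⟨by linarith, by linarith⟩ (by linarith)
  rw [Mb_zero hm hr.2.1 hl] at h6
  linarith

theorem lawcb_of {b : ℝ} (_hb : 1 < b)
    (hlawA : ∃ c C : ℝ, 0 < c ∧ 1 ≤ C ∧ ∀ (n d : ℕ) (r : ℕ → ℝ),
    1 ≤ d → d ≤ n → IsMinD b n d r → gm n d ≤ c → C ≤ gm n d ^ 40 * (n + 1) →
      c * gm n d ≤ r d ∧ r d ≤ C * gm n d ∧ 2 * C * gm n d ≤ r n ∧
      ∀ l, d ≤ l → l < n → ∀ t ∈ Icc 0 (r (l + 1) - r l),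
        |Mb n (gm n) r l t - 1 / b ^ 2| ≤ gm n d ^ 8)
    (hlawB : ∃ c C : ℝ, 0 < c ∧ 1 ≤ C ∧ ∀ (n d : ℕ) (r : ℕ → ℝ),
    1 ≤ d → d ≤ n → IsMinD b n d r → gm n d ≤ c → C ≤ gm n d ^ 40 * (n + 1) →
      |kk n r ^ 2 * r d - 3 * gm n d * vv n r ^ 3| ≤ C * (gm n d * √(gm n d)) ∧
      ∫ s in (0 : ℝ)..(r d), (Rb n (gm n) r (d - 1) s - s / b ^ 2) ≤
        kk n r ^ 2 * r d ^ 4 / 72 + C * (gm n d ^ 4 * √(gm n d)))
    (hm1e : ∃ C : ℝ, 1 ≤ C ∧ ∀ (n : ℕ) (X : ℝ) (r : ℕ → ℝ), BPath b n r → 0 < X →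
    X ≤ 1 → ∀ l < n, gm n (l + 1) ≤ X → ∀ t ∈ Icc 0 (r (l + 1) - r l), r l + t ≤ X →
      |M1b n (gm n) r l t - (kk n r ^ 2 * (r l + t) - 2 * gm n (l + 1) * vv n r ^ 3)| ≤
        C * (X * √X))
    (hvk : ∃ c K : ℝ, 0 < c ∧ 1 ≤ K ∧ ∀ (n : ℕ) (r : ℕ → ℝ), BPath b n r →
      c ≤ vv n r ∧ vv n r ≤ 1 ∧ c ≤ kk n r ∧ kk n r ≤ K) :
    ∃ c C : ℝ, 0 < c ∧ 1 ≤ C ∧ ∀ (n d : ℕ) (r : ℕ → ℝ),
    1 ≤ d → d ≤ n → IsMinD b n d r → gm n d ≤ c → C ≤ gm n d ^ 40 * (n + 1) →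
      ∃ L : ℕ, d < L ∧ L ≤ 2 * d ∧ L ≤ n ∧ r (L - 1) ≤ r d + gm n d ^ 4 ∧
        3 / 2 * gm n d - C * (gm n d * √(gm n d)) ≤ gm n L := by
  obtain ⟨cA, CA, hcA, hCA, hA⟩ := hlawA
  obtain ⟨cB, CB, hcB, hCB, hB⟩ := hlawB
  obtain ⟨CM, hCM, hM⟩ := hm1e
  obtain ⟨c₀, K₀, hc₀, hK₀, hvk⟩ := hvk
  set A := CA + 2 with hAdef
  have hA3 : 3 ≤ A := by linarith
  set P := CB + CM * A ^ 2 + 2 with hP
  have hP0 : 0 < P := by positivity
  set Cf := CA + CB + P / (2 * c₀ ^ 3) with hCf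
  have p1 : 0 < P / (2 * c₀ ^ 3) := by positivity
  refine ⟨min (min cA cB) (1 / A), Cf, by positivity, by rw [hCf]; linarith,
    fun n d r hd1 hdn hmin hx hCn => ?_⟩
  set x := gm n d with hxdef
  have hx0 : 0 < x := grid_gm_pos hd1
  have hxA : x ≤ cA := hx.trans ((min_le_left _ _).trans (min_le_left _ _))
  have hxB : x ≤ cB := hx.trans ((min_le_left _ _).trans (min_le_right _ _))
  have hX1 : A * x ≤ 1 := by
    have h1 : x ≤ 1 / A := hx.trans (min_le_right _ _)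
    rw [le_div_iff₀ (by linarith)] at h1
    linarith
  have hx1 : x ≤ 1 := by nlinarith
  have hr := hmin.1
  have hm := gm_exponents n
  obtain ⟨hA1, hA2, hA3', hA4⟩ := hA n d r hd1 hdn hmin hxA (by rw [hCf] at hCn; linarith)
  obtain ⟨hB1, -⟩ := hB n d r hd1 hdn hmin hxB (by rw [hCf] at hCn; linarith)
  obtain ⟨hv0, hv1, hk0, hk1⟩ := hvk n r hr
  have hx4 : x ^ 4 ≤ x := by
    calc x ^ 4 ≤ x ^ 1 := pow_le_pow_of_le_one hx0.le hx1 (by norm_num)
      _ = x := pow_one x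
  have hx4p : 0 < x ^ 4 := by positivity
  -- the least level
  have hex : ∃ l, r d + x ^ 4 ≤ r l ∧ l ≤ n := ⟨n, by nlinarith, le_rfl⟩
  classical
  set L₀ := Nat.find hex with hL₀
  obtain ⟨hL1, hL2⟩ := Nat.find_spec hex
  rw [← hL₀] at hL1 hL2
  have hmin' : ∀ l < L₀, r l < r d + x ^ 4 := by
    intro l hl
    have := Nat.find_min hex hl
    push Not at this
    by_contra hcon
    push Not at hcon
    have := this hcon
    omega
  have hdL : d < L₀ := by
    by_contra hcon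
    push Not at hcon
    have := len_mono hr hcon hdn
    linarith
  rcases Nat.lt_or_ge (2 * d) L₀ with hcase | hcase
  · -- many levels
    refine ⟨2 * d, by omega, le_rfl, by omega, (hmin' _ (by omega)).le, ?_⟩
    have e1 : gm n (2 * d) = 2 * x := by
      rw [hxdef]
      unfold gm
      push_cast
      ring
    rw [e1]
    have e2 : 0 ≤ Cf * (x * √x) := by positivity
    linarith
  · refine ⟨L₀, hdL, hcase, hL2, (hmin' _ (by omega)).le, ?_⟩
    obtain ⟨l, hl⟩ : ∃ l, L₀ = l + 1 := ⟨L₀ - 1, by omega⟩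
    rw [hl] at hdL hcase hL1 hL2 ⊢
    have hln : l < n := by omega
    have hdl : d ≤ l := by omega
    have hrl : r l < r d + x ^ 4 := hmin' l (by omega)
    have hLX : gm n (l + 1) ≤ 2 * x := by
      have e1 : ((l + 1 : ℕ) : ℝ) ≤ 2 * d := by exact_mod_cast hcase
      rw [hxdef]
      unfold gm
      rw [← mul_div_assoc]
      exact div_le_div_of_nonneg_right e1 (by positivity)
    have hW : r d + x ^ 4 ≤ A * x := by
      rw [hAdef]
      nlinarith
    have hX0 : 0 < A * x := by positivity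
    set μ := kk n r ^ 2 * r d - 2 * gm n (l + 1) * vv n r ^ 3 - CM * (A * x * √(A * x)) with hμ
    have hvp : 0 < vv n r := hc₀.trans_le hv0
    have hgrow := lawcb_grow (μ := μ) (W := r d + x ^ 4) hr hdl hln hrl.le hL1
      (fun i hdi hil t ht htW => by
        have h1 : gm n (i + 1) ≤ gm n (l + 1) := len_gm_mono (by omega)
        have h2 := hM n (A * x) r hr hX0 hX1 i (by omega) (by
          refine h1.trans (hLX.trans ?_)
          nlinarith) t ht (by linarith)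
        have h3 := (abs_le.1 h2).1
        have h4 : r d ≤ r i := len_mono hr hdi (by omega)
        have h5 : kk n r ^ 2 * r d ≤ kk n r ^ 2 * (r i + t) :=
          mul_le_mul_of_nonneg_left (by linarith [ht.1]) (by positivity)
        have h6 : 2 * gm n (i + 1) * vv n r ^ 3 ≤ 2 * gm n (l + 1) * vv n r ^ 3 :=
          mul_le_mul_of_nonneg_right (by linarith) (by positivity)
        rw [hμ]
        linarith)
    have h7 := (abs_le.1 (hA4 l hdl hln (r d + x ^ 4 - r l) ⟨by linarith, by linarith⟩)).2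
    have h8 := (abs_le.1 (hA4 d le_rfl (by omega) 0 ⟨le_rfl, by
      have := len_mono hr (Nat.le_succ d) (by omega : d + 1 ≤ n)
      linarith⟩)).1
    rw [Mb_zero hm hr.2.1 (by omega)] at h8
    have h9 : μ * x ^ 4 ≤ 2 * x ^ 4 * x ^ 4 := by
      have e1 : r d + x ^ 4 - r d = x ^ 4 := by ring
      rw [e1] at hgrow
      have e2 : x ^ 8 = x ^ 4 * x ^ 4 := by ring
      rw [e2] at h7 h8
      linarith
    have h10 : μ ≤ 2 * x ^ 4 := le_of_mul_le_mul_right h9 hx4p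
    have h11 := (abs_le.1 hB1).1
    have h12 : CM * (A * x * √(A * x)) ≤ CM * A ^ 2 * (x * √x) := by
      have := mul_le_mul_of_nonneg_left (lawb_sqrt hx0.le (by linarith : (1 : ℝ) ≤ A))
        (by linarith : (0 : ℝ) ≤ CM)
      linarith
    have h13 : x ^ 4 ≤ x * √x := lawb_pow hx0 hx1 (by norm_num)
    have h14 : 3 * x * vv n r ^ 3 - P * (x * √x) ≤ 2 * gm n (l + 1) * vv n r ^ 3 := by
      rw [hP]
      rw [hμ] at h10
      linarith
    have h15 : P * (x * √x) ≤ 2 * vv n r ^ 3 * (P / (2 * c₀ ^ 3) * (x * √x)) := by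
      have e1 : c₀ ^ 3 ≤ vv n r ^ 3 := pow_le_pow_left₀ hc₀.le hv0 3
      have e2 : P * (x * √x) = 2 * c₀ ^ 3 * (P / (2 * c₀ ^ 3) * (x * √x)) := by
        field_simp
      rw [e2]
      exact mul_le_mul_of_nonneg_right (by linarith) (by positivity)
    have h16 : 2 * vv n r ^ 3 * (3 / 2 * x - P / (2 * c₀ ^ 3) * (x * √x)) ≤
        2 * vv n r ^ 3 * gm n (l + 1) := by
      linarith
    have h17 := le_of_mul_le_mul_left h16 (by positivity)
    have h18 : P / (2 * c₀ ^ 3) * (x * √x) ≤ Cf * (x * √x) :=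
      mul_le_mul_of_nonneg_right (by rw [hCf]; linarith) (by positivity)
    linarith

end Vale.Agent.P146.Sh
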