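import Mathlib.Probability.Moments.Basic
import Mathlib.Analysis.SpecialFunctions.Pow.Real

/-!
# P146, Sh: from sharp exponential moments to a sharp upper tail: Chernoff and tilting
-/

open MeasureTheory ProbabilityTheory Filter Topology Set

namespace Vale.Agent.P146.Sh

section tilt

variable {Ω : Type*} [MeasurableSpace Ω] {μ : Measure Ω} [IsProbabilityMeasure μ] {X : Ω → ℝ}

/-- Chernoff. -/
theorem ldp_chernoff (hX : ∀ x : ℝ, Integrable (fun ω => Real.exp (x * X ω)) μ) {x a : ℝ}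
    (hx : 0 ≤ x) : μ.real {ω | a ≤ X ω} ≤
      Real.exp (-(x * a)) * ∫ ω, Real.exp (x * X ω) ∂μ := by
  have h := measure_ge_le_exp_mul_mgf (μ := μ) (X := X) a hx (hX x)
  rw [neg_mul] at h
  exact h

/-- Tilting. -/
theorem ldp_tilt (hm : Measurable X) (hX : ∀ x : ℝ, Integrable (fun ω => Real.exp (x * X ω)) μ)
    {x h a b : ℝ} (hx : 0 ≤ x) (hh : 0 ≤ h) :
    ∫ ω, Real.exp (x * X ω) ∂μ ≤ Real.exp (x * b) * μ.real {ω | a ≤ X ω} +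
      Real.exp (h * a) * ∫ ω, Real.exp ((x - h) * X ω) ∂μ +
        Real.exp (-(h * b)) * ∫ ω, Real.exp ((x + h) * X ω) ∂μ := by
  have hms : MeasurableSet {ω | a ≤ X ω} := measurableSet_le measurable_const hm
  have hpt : ∀ ω, Real.exp (x * X ω) ≤ Real.exp (x * b) * ({ω | a ≤ X ω}.indicator 1 ω) +
      Real.exp (h * a) * Real.exp ((x - h) * X ω) +
        Real.exp (-(h * b)) * Real.exp ((x + h) * X ω) := by
    intro ω
    have p1 : 0 < Real.exp (h * a) * Real.exp ((x - h) * X ω) := by positivity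
    have p2 : 0 < Real.exp (-(h * b)) * Real.exp ((x + h) * X ω) := by positivity
    by_cases hA : a ≤ X ω
    · rw [Set.indicator_of_mem (by exact hA)]
      simp only [Pi.one_apply, mul_one]
      by_cases hB : X ω ≤ b
      · have : Real.exp (x * X ω) ≤ Real.exp (x * b) :=
          Real.exp_le_exp.2 (mul_le_mul_of_nonneg_left hB hx)
        linarith
      · push Not at hB
        have h1 : Real.exp (x * X ω) ≤ Real.exp (-(h * b)) * Real.exp ((x + h) * X ω) := by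
          rw [← Real.exp_add]
          apply Real.exp_le_exp.2
          nlinarith
        have := Real.exp_pos (x * b)
        linarith
    · rw [Set.indicator_of_notMem (by exact hA)]
      push Not at hA
      have h1 : Real.exp (x * X ω) ≤ Real.exp (h * a) * Real.exp ((x - h) * X ω) := by
        rw [← Real.exp_add]
        apply Real.exp_le_exp.2
        nlinarith
      simp only [mul_zero, zero_add]
      linarith
  have hi1 : Integrable (fun ω => Real.exp (x * b) * ({ω | a ≤ X ω}.indicator (1 : Ω → ℝ) ω)) μ :=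
    ((integrable_const (1 : ℝ)).indicator hms).const_mul _
  have hi2 : Integrable (fun ω => Real.exp (h * a) * Real.exp ((x - h) * X ω)) μ :=
    (hX (x - h)).const_mul _
  have hi3 : Integrable (fun ω => Real.exp (-(h * b)) * Real.exp ((x + h) * X ω)) μ :=
    (hX (x + h)).const_mul _
  refine (integral_mono (hX x) ((hi1.add hi2).add hi3) hpt).trans (le_of_eq ?_)
  rw [integral_add' (hi1.add hi2) hi3, integral_add' hi1 hi2, integral_const_mul,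
    integral_const_mul, integral_const_mul, integral_indicator_one hms]

end tilt

section poly

variable {δ : ℝ}

theorem ldp_p1 (h0 : 0 ≤ δ) (h1 : δ ≤ 1 / 10) :
    6 * δ + 7 * δ ^ 2 ≤ (1 + δ) ^ 5 * (1 - (1 - δ) ^ 6) := by
  have e1 : (1 - δ) ^ 6 ≤ 1 - 6 * δ + 15 * δ ^ 2 := by
    have h2 : 1 - 6 * δ + 15 * δ ^ 2 - (1 - δ) ^ 6 = δ ^ 3 * (20 - 15 * δ + 6 * δ ^ 2 - δ ^ 3) := by
      ring
    have h3 : 0 ≤ 20 - 15 * δ + 6 * δ ^ 2 - δ ^ 3 := by nlinarith [pow_nonneg h0 2, pow_nonneg h0 3]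
    nlinarith [mul_nonneg (pow_nonneg h0 3) h3]
  have e2 : 1 + 5 * δ ≤ (1 + δ) ^ 5 := by
    have h2 : (1 + δ) ^ 5 - (1 + 5 * δ) = δ ^ 2 * (10 + 10 * δ + 5 * δ ^ 2 + δ ^ 3) := by ring
    have h3 : 0 ≤ δ ^ 2 * (10 + 10 * δ + 5 * δ ^ 2 + δ ^ 3) := by positivity
    linarith
  have e3 : 0 ≤ 6 * δ - 15 * δ ^ 2 := by nlinarith
  calc 6 * δ + 7 * δ ^ 2 ≤ (1 + 5 * δ) * (6 * δ - 15 * δ ^ 2) := by
        nlinarith [mul_nonneg (pow_nonneg h0 2) (sub_nonneg.2 h1)]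
    _ ≤ (1 + δ) ^ 5 * (6 * δ - 15 * δ ^ 2) := mul_le_mul_of_nonneg_right e2 e3
    _ ≤ _ := mul_le_mul_of_nonneg_left (by linarith) (by positivity)

theorem ldp_p2 (h0 : 0 ≤ δ) (h1 : δ ≤ 1 / 10) :
    (1 + δ) ^ 5 * ((1 + δ) ^ 6 - 1) ≤ 6 * δ * (1 + 20 * δ) - 7 * δ ^ 2 := by
  have e1 : (1 + δ) ^ 6 - 1 ≤ 6 * δ + 18 * δ ^ 2 := by
    have h2 : 6 * δ + 18 * δ ^ 2 - ((1 + δ) ^ 6 - 1) =
        δ ^ 2 * (3 - 20 * δ - 15 * δ ^ 2 - 6 * δ ^ 3 - δ ^ 4) := by ring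
    have q2 : δ ^ 2 ≤ 1 / 100 := by nlinarith
    have q3 : δ ^ 3 ≤ 1 / 1000 := by nlinarith [pow_nonneg h0 2]
    have q4 : δ ^ 4 ≤ 1 / 10000 := by nlinarith [pow_nonneg h0 3]
    have h3 : 0 ≤ 3 - 20 * δ - 15 * δ ^ 2 - 6 * δ ^ 3 - δ ^ 4 := by linarith
    nlinarith [mul_nonneg (pow_nonneg h0 2) h3]
  have e2 : (1 + δ) ^ 5 ≤ 1 + 7 * δ := by
    have h2 : 1 + 7 * δ - (1 + δ) ^ 5 = δ * (2 - 10 * δ - 10 * δ ^ 2 - 5 * δ ^ 3 - δ ^ 4) := by ring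
    have q2 : δ ^ 2 ≤ 1 / 100 := by nlinarith
    have q3 : δ ^ 3 ≤ 1 / 1000 := by nlinarith [pow_nonneg h0 2]
    have q4 : δ ^ 4 ≤ 1 / 10000 := by nlinarith [pow_nonneg h0 3]
    have h3 : 0 ≤ 2 - 10 * δ - 10 * δ ^ 2 - 5 * δ ^ 3 - δ ^ 4 := by linarith
    nlinarith [mul_nonneg h0 h3]
  calc (1 + δ) ^ 5 * ((1 + δ) ^ 6 - 1) ≤ (1 + δ) ^ 5 * (6 * δ + 18 * δ ^ 2) :=
        mul_le_mul_of_nonneg_left e1 (by positivity)
    _ ≤ (1 + 7 * δ) * (6 * δ + 18 * δ ^ 2) := mul_le_mul_of_nonneg_right e2 (by positivity)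
    _ ≤ _ := by nlinarith [mul_nonneg (pow_nonneg h0 2) (sub_nonneg.2 h1)]

theorem ldp_p3 (h0 : 0 ≤ δ) (h1 : δ ≤ 1 / 10) : (1 + δ) ^ 6 ≤ 2 := by
  calc (1 + δ) ^ 6 ≤ (1 + 1 / 10) ^ 6 := pow_le_pow_left₀ (by linarith) (by linarith) 6
    _ ≤ 2 := by norm_num

end poly

section real

variable {p A δ e t n : ℝ}

theorem ldp_realL (hA : 0 < A) (h0 : 0 < δ) (h1 : δ ≤ 1 / 10) (he : 0 ≤ e)
    (he1 : 5 * e ≤ A * δ ^ 2) (ht : 0 < t) (hn : 0 ≤ n) {l1 l2 : ℝ}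
    (H1 : |l1 - ((1 + δ) * t) * (n * p) - A * n * ((1 + δ) * t) ^ 6| ≤
      e * n * ((1 + δ) * t) ^ 6)
    (H2 : |l2 - ((1 + δ) * t - δ * ((1 + δ) * t)) * (n * p) -
      A * n * ((1 + δ) * t - δ * ((1 + δ) * t)) ^ 6| ≤
        e * n * ((1 + δ) * t - δ * ((1 + δ) * t)) ^ 6) :
    (δ * ((1 + δ) * t)) * (n * (p + 6 * A * t ^ 5)) + l2 ≤ l1 - n * (5 * A * δ ^ 2 * t ^ 6) := by
  have hp1 := ldp_p1 h0.le h1
  have hp3 := ldp_p3 h0.le h1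
  have hx6 : ((1 + δ) * t) ^ 6 = (1 + δ) ^ 6 * t ^ 6 := by ring
  have hxm : ((1 + δ) * t - δ * ((1 + δ) * t)) ^ 6 = (1 - δ) ^ 6 * (1 + δ) ^ 6 * t ^ 6 := by ring
  rw [hx6] at H1
  rw [hxm] at H2
  obtain ⟨a1, -⟩ := abs_le.1 H1
  obtain ⟨-, b2⟩ := abs_le.1 H2
  have hm1 : (1 - δ) ^ 6 ≤ 1 := pow_le_one₀ (by linarith) (by linarith)
  have hm0 : 0 ≤ (1 - δ) ^ 6 := by positivity
  have hp0 : 1 ≤ (1 + δ) ^ 6 := one_le_pow₀ (by linarith)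
  have hnt : 0 ≤ n * t ^ 6 := by positivity
  have e4 : (1 + δ) * (6 * δ - (1 + δ) ^ 5 * (1 - (1 - δ) ^ 6)) ≤ -(7 * δ ^ 2) := by
    have q1 : 6 * δ - (1 + δ) ^ 5 * (1 - (1 - δ) ^ 6) ≤ -(7 * δ ^ 2) := by linarith
    have q2 : 0 ≤ δ ^ 2 := by positivity
    nlinarith
  have e4' : A * ((1 + δ) * (6 * δ - (1 + δ) ^ 5 * (1 - (1 - δ) ^ 6))) ≤ A * (-(7 * δ ^ 2)) :=
    mul_le_mul_of_nonneg_left e4 hA.le
  have q1 : (1 + δ) ^ 6 * ((1 - δ) ^ 6 + 1) ≤ 4 := by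
    calc (1 + δ) ^ 6 * ((1 - δ) ^ 6 + 1) ≤ 2 * (1 + 1) :=
          mul_le_mul hp3 (by linarith) (by linarith) (by norm_num)
      _ = 4 := by norm_num
  have e5 : e * ((1 + δ) ^ 6 * ((1 - δ) ^ 6 + 1)) ≤ e * 4 := mul_le_mul_of_nonneg_left q1 he
  have q2 : 0 ≤ A * δ ^ 2 := by positivity
  have e6 : n * t ^ 6 * (A * ((1 + δ) * (6 * δ - (1 + δ) ^ 5 * (1 - (1 - δ) ^ 6))) +
          e * ((1 + δ) ^ 6 * ((1 - δ) ^ 6 + 1))) ≤ n * t ^ 6 * (-(5 * A * δ ^ 2)) :=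
    mul_le_mul_of_nonneg_left (by linarith) hnt
  have e3 : n * t ^ 6 * (A * ((1 + δ) * (6 * δ - (1 + δ) ^ 5 * (1 - (1 - δ) ^ 6))) +
      e * ((1 + δ) ^ 6 * ((1 - δ) ^ 6 + 1))) = n * t ^ 6 * (A * ((1 + δ) * (6 * δ))) +
      (A * n * ((1 - δ) ^ 6 * (1 + δ) ^ 6 * t ^ 6) - A * n * ((1 + δ) ^ 6 * t ^ 6)) +
      (e * n * ((1 - δ) ^ 6 * (1 + δ) ^ 6 * t ^ 6) + e * n * ((1 + δ) ^ 6 * t ^ 6)) := by
    ring
  have e2 : (δ * ((1 + δ) * t)) * (n * (p + 6 * A * t ^ 5)) =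
      δ * ((1 + δ) * t) * (n * p) + n * t ^ 6 * (A * ((1 + δ) * (6 * δ))) := by ring
  have e7 : n * t ^ 6 * (-(5 * A * δ ^ 2)) = -(n * (5 * A * δ ^ 2 * t ^ 6)) := by ring
  have e8 : ((1 + δ) * t - δ * ((1 + δ) * t)) * (n * p) =
      (1 + δ) * t * (n * p) - δ * ((1 + δ) * t) * (n * p) := by ring
  rw [e2]
  rw [e8] at b2
  linarith

theorem ldp_realR (hA : 0 < A) (h0 : 0 < δ) (h1 : δ ≤ 1 / 10) (he : 0 ≤ e)
    (he1 : 5 * e ≤ A * δ ^ 2) (ht : 0 < t) (hn : 0 ≤ n) {l1 l2 : ℝ}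
    (H1 : |l1 - ((1 + δ) * t) * (n * p) - A * n * ((1 + δ) * t) ^ 6| ≤
      e * n * ((1 + δ) * t) ^ 6)
    (H2 : |l2 - ((1 + δ) * t + δ * ((1 + δ) * t)) * (n * p) -
      A * n * ((1 + δ) * t + δ * ((1 + δ) * t)) ^ 6| ≤
        e * n * ((1 + δ) * t + δ * ((1 + δ) * t)) ^ 6) :
    -((δ * ((1 + δ) * t)) * (n * (p + (1 + 20 * δ) * (6 * A * t ^ 5)))) + l2 ≤
      l1 - n * (5 * A * δ ^ 2 * t ^ 6) := by
  have hp2 := ldp_p2 h0.le h1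
  have hp3 := ldp_p3 h0.le h1
  have hx6 : ((1 + δ) * t) ^ 6 = (1 + δ) ^ 6 * t ^ 6 := by ring
  have hxm : ((1 + δ) * t + δ * ((1 + δ) * t)) ^ 6 = (1 + δ) ^ 6 * (1 + δ) ^ 6 * t ^ 6 := by ring
  rw [hx6] at H1
  rw [hxm] at H2
  obtain ⟨a1, -⟩ := abs_le.1 H1
  obtain ⟨-, b2⟩ := abs_le.1 H2
  have hp0 : 1 ≤ (1 + δ) ^ 6 := one_le_pow₀ (by linarith)
  have hnt : 0 ≤ n * t ^ 6 := by positivity
  have e4 : (1 + δ) * ((1 + δ) ^ 5 * ((1 + δ) ^ 6 - 1) - 6 * δ * (1 + 20 * δ)) ≤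
      -(7 * δ ^ 2) := by
    have q1 : (1 + δ) ^ 5 * ((1 + δ) ^ 6 - 1) - 6 * δ * (1 + 20 * δ) ≤ -(7 * δ ^ 2) := by linarith
    have q2 : 0 ≤ δ ^ 2 := by positivity
    nlinarith
  have e4' : A * ((1 + δ) * ((1 + δ) ^ 5 * ((1 + δ) ^ 6 - 1) - 6 * δ * (1 + 20 * δ))) ≤
      A * (-(7 * δ ^ 2)) := mul_le_mul_of_nonneg_left e4 hA.le
  have q1 : (1 + δ) ^ 6 * ((1 + δ) ^ 6 + 1) ≤ 6 := by
    calc (1 + δ) ^ 6 * ((1 + δ) ^ 6 + 1) ≤ 2 * (2 + 1) :=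
          mul_le_mul hp3 (by linarith) (by linarith) (by norm_num)
      _ = 6 := by norm_num
  have e5 : e * ((1 + δ) ^ 6 * ((1 + δ) ^ 6 + 1)) ≤ e * 6 := mul_le_mul_of_nonneg_left q1 he
  have q2 : 0 ≤ A * δ ^ 2 := by positivity
  have e6 : n * t ^ 6 * (A * ((1 + δ) * ((1 + δ) ^ 5 * ((1 + δ) ^ 6 - 1) -
      6 * δ * (1 + 20 * δ))) + e * ((1 + δ) ^ 6 * ((1 + δ) ^ 6 + 1))) ≤
      n * t ^ 6 * (-(5 * A * δ ^ 2)) :=
    mul_le_mul_of_nonneg_left (by linarith) hnt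
  have e3 : n * t ^ 6 * (A * ((1 + δ) * ((1 + δ) ^ 5 * ((1 + δ) ^ 6 - 1) -
      6 * δ * (1 + 20 * δ))) + e * ((1 + δ) ^ 6 * ((1 + δ) ^ 6 + 1))) =
      -(n * t ^ 6 * (A * ((1 + δ) * (6 * δ * (1 + 20 * δ))))) +
      (A * n * ((1 + δ) ^ 6 * (1 + δ) ^ 6 * t ^ 6) - A * n * ((1 + δ) ^ 6 * t ^ 6)) +
      (e * n * ((1 + δ) ^ 6 * (1 + δ) ^ 6 * t ^ 6) + e * n * ((1 + δ) ^ 6 * t ^ 6)) := by
    ring
  have e2 : (δ * ((1 + δ) * t)) * (n * (p + (1 + 20 * δ) * (6 * A * t ^ 5))) =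
      δ * ((1 + δ) * t) * (n * p) +
        n * t ^ 6 * (A * ((1 + δ) * (6 * δ * (1 + 20 * δ)))) := by ring
  have e7 : n * t ^ 6 * (-(5 * A * δ ^ 2)) = -(n * (5 * A * δ ^ 2 * t ^ 6)) := by ring
  have e8 : ((1 + δ) * t + δ * ((1 + δ) * t)) * (n * p) =
      (1 + δ) * t * (n * p) + δ * ((1 + δ) * t) * (n * p) := by ring
  rw [e2]
  rw [e8] at b2
  linarith

theorem ldp_realM (hA : 0 < A) (h0 : 0 < δ) (h1 : δ ≤ 1 / 10) (he : 0 ≤ e)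
    (ht : 0 < t) (hn : 0 ≤ n) {l1 q : ℝ}
    (H1 : |l1 - ((1 + δ) * t) * (n * p) - A * n * ((1 + δ) * t) ^ 6| ≤
      e * n * ((1 + δ) * t) ^ 6)
    (H : l1 - 1 ≤ ((1 + δ) * t) * (n * (p + (1 + 20 * δ) * (6 * A * t ^ 5))) + q) :
    -(5 * A * n * t ^ 6) - (138 * A * δ + 2 * e) * (n * t ^ 6) - 1 ≤ q := by
  have hp3 := ldp_p3 h0.le h1
  have hx6 : ((1 + δ) * t) ^ 6 = (1 + δ) ^ 6 * t ^ 6 := by ring
  rw [hx6] at H1
  obtain ⟨a1, -⟩ := abs_le.1 H1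
  have hp0 : 1 ≤ (1 + δ) ^ 6 := one_le_pow₀ (by linarith)
  have hnt : 0 ≤ n * t ^ 6 := by positivity
  have f1 : ((1 + δ) * t) * (n * (p + (1 + 20 * δ) * (6 * A * t ^ 5))) =
      (1 + δ) * t * (n * p) + n * t ^ 6 * (A * (6 * ((1 + δ) * (1 + 20 * δ)))) := by ring
  have q1 : 6 * ((1 + δ) * (1 + 20 * δ)) ≤ 6 + 138 * δ := by nlinarith
  have f2 : A * (6 * ((1 + δ) * (1 + 20 * δ))) ≤ A * (6 + 138 * δ) :=
    mul_le_mul_of_nonneg_left q1 hA.le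
  have f3 : n * t ^ 6 * (A * (6 * ((1 + δ) * (1 + 20 * δ)))) ≤
      n * t ^ 6 * (A * (6 + 138 * δ)) := mul_le_mul_of_nonneg_left f2 hnt
  have f4 : 1 * (A * (n * t ^ 6)) ≤ (1 + δ) ^ 6 * (A * (n * t ^ 6)) :=
    mul_le_mul_of_nonneg_right hp0 (by positivity)
  have f5 : (1 + δ) ^ 6 * (e * (n * t ^ 6)) ≤ 2 * (e * (n * t ^ 6)) :=
    mul_le_mul_of_nonneg_right hp3 (by positivity)
  have f6 : A * n * ((1 + δ) ^ 6 * t ^ 6) = (1 + δ) ^ 6 * (A * (n * t ^ 6)) := by ring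
  have f7 : e * n * ((1 + δ) ^ 6 * t ^ 6) = (1 + δ) ^ 6 * (e * (n * t ^ 6)) := by ring
  have f8 : n * t ^ 6 * (A * (6 + 138 * δ)) =
      5 * A * n * t ^ 6 + 1 * (A * (n * t ^ 6)) + 138 * A * δ * (n * t ^ 6) := by ring
  have f9 : (138 * A * δ + 2 * e) * (n * t ^ 6) =
      138 * A * δ * (n * t ^ 6) + 2 * (e * (n * t ^ 6)) := by ring
  rw [f9]
  rw [f1] at H
  rw [f6, f7] at a1
  linarith

theorem ldp_exp2 : Real.exp (-2) ≤ 1 / 4 := by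
  have q1 : (2 : ℝ) ≤ Real.exp 1 := by
    have := Real.add_one_le_exp (1 : ℝ)
    linarith
  have q2 : Real.exp (-2) * (Real.exp 1 * Real.exp 1) = 1 := by
    rw [← Real.exp_add, ← Real.exp_add]
    norm_num
  have q3 := Real.exp_pos (-2)
  have q4 : 4 ≤ Real.exp 1 * Real.exp 1 := by nlinarith
  nlinarith

theorem ldp_quarter {M M' c : ℝ} (hM : 0 < M) (hM' : 0 < M')
    (h : c + Real.log M' ≤ Real.log M - 2) : Real.exp c * M' ≤ M / 4 := by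
  calc Real.exp c * M' = Real.exp (c + Real.log M') := by
        rw [Real.exp_add, Real.exp_log hM']
    _ ≤ Real.exp (Real.log M + -2) := Real.exp_le_exp.2 (by linarith)
    _ = M * Real.exp (-2) := by rw [Real.exp_add, Real.exp_log hM]
    _ ≤ M * (1 / 4) := mul_le_mul_of_nonneg_left ldp_exp2 hM.le
    _ = M / 4 := by ring

end real

section core

variable {Ω : Type*} [MeasurableSpace Ω] {μ : Measure Ω} [IsProbabilityMeasure μ] {X : Ω → ℝ}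

/-- one `n`: the lower bound -/
theorem ldp_low (hm : Measurable X)
    (hX : ∀ x : ℝ, Integrable (fun ω => Real.exp (x * X ω)) μ) {p A : ℝ}
    {δ e t n : ℝ} (hA : 0 < A) (h0 : 0 < δ) (h1 : δ ≤ 1 / 10) (he : 0 ≤ e)
    (he1 : 5 * e ≤ A * δ ^ 2) (ht : 0 < t) (hn : 0 ≤ n)
    (H1 : |Real.log (∫ ω, Real.exp (((1 + δ) * t) * X ω) ∂μ) - ((1 + δ) * t) * (n * p) -
      A * n * ((1 + δ) * t) ^ 6| ≤ e * n * ((1 + δ) * t) ^ 6)
    (H2 : |Real.log (∫ ω, Real.exp (((1 + δ) * t - δ * ((1 + δ) * t)) * X ω) ∂μ) -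
      ((1 + δ) * t - δ * ((1 + δ) * t)) * (n * p) -
      A * n * ((1 + δ) * t - δ * ((1 + δ) * t)) ^ 6| ≤
        e * n * ((1 + δ) * t - δ * ((1 + δ) * t)) ^ 6)
    (H3 : |Real.log (∫ ω, Real.exp (((1 + δ) * t + δ * ((1 + δ) * t)) * X ω) ∂μ) -
      ((1 + δ) * t + δ * ((1 + δ) * t)) * (n * p) -
      A * n * ((1 + δ) * t + δ * ((1 + δ) * t)) ^ 6| ≤
        e * n * ((1 + δ) * t + δ * ((1 + δ) * t)) ^ 6)
    (hn2 : 2 ≤ n * (5 * A * δ ^ 2 * t ^ 6)) :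
    0 < μ.real {ω | n * (p + 6 * A * t ^ 5) ≤ X ω} ∧
    -(5 * A * n * t ^ 6) - (138 * A * δ + 2 * e) * (n * t ^ 6) - 1 ≤
      Real.log (μ.real {ω | n * (p + 6 * A * t ^ 5) ≤ X ω}) := by
  have k1 := integral_exp_pos (hX ((1 + δ) * t))
  have k2 := integral_exp_pos (hX ((1 + δ) * t - δ * ((1 + δ) * t)))
  have k3 := integral_exp_pos (hX ((1 + δ) * t + δ * ((1 + δ) * t)))
  have L := ldp_realL hA h0 h1 he he1 ht hn H1 H2
  have R := ldp_realR hA h0 h1 he he1 ht hn H1 H3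
  have L' := ldp_quarter k1 k2 (L.trans (by linarith))
  have R' := ldp_quarter k1 k3 (R.trans (by linarith))
  have T := ldp_tilt (μ := μ) (a := n * (p + 6 * A * t ^ 5))
    (b := n * (p + (1 + 20 * δ) * (6 * A * t ^ 5))) hm hX
    (show 0 ≤ (1 + δ) * t by positivity) (show 0 ≤ δ * ((1 + δ) * t) by positivity)
  generalize (∫ ω, Real.exp (((1 + δ) * t) * X ω) ∂μ) = M1 at *
  generalize μ.real {ω | n * (p + 6 * A * t ^ 5) ≤ X ω} = P at *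
  have T2 : M1 / 2 ≤ Real.exp (((1 + δ) * t) * (n * (p + (1 + 20 * δ) * (6 * A * t ^ 5)))) * P := by
    linarith
  have T3 : 0 < P := by
    have q1 : 0 < Real.exp (((1 + δ) * t) * (n * (p + (1 + 20 * δ) * (6 * A * t ^ 5)))) * P := by
      linarith
    exact pos_of_mul_pos_right q1 (Real.exp_pos _).le
  refine ⟨T3, ldp_realM hA h0 h1 he ht hn H1 ?_⟩
  have T4 : Real.log (M1 / 2) ≤
      ((1 + δ) * t) * (n * (p + (1 + 20 * δ) * (6 * A * t ^ 5))) + Real.log P := by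
    rw [← Real.log_exp (((1 + δ) * t) * (n * (p + (1 + 20 * δ) * (6 * A * t ^ 5)))),
      ← Real.log_mul (Real.exp_pos _).ne' T3.ne']
    exact Real.log_le_log (by positivity) T2
  rw [Real.log_div k1.ne' two_ne_zero] at T4
  have hl2 : Real.log 2 ≤ 1 := by
    have := Real.log_le_sub_one_of_pos (show (0 : ℝ) < 2 by norm_num)
    linarith
  linarith

/-- one `n`: the upper bound -/
theorem ldp_up (hX : ∀ x : ℝ, Integrable (fun ω => Real.exp (x * X ω)) μ) {p A e t n : ℝ}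
    (ht : 0 < t)
    (H : |Real.log (∫ ω, Real.exp (t * X ω) ∂μ) - t * (n * p) - A * n * t ^ 6| ≤ e * n * t ^ 6)
    (hP : 0 < μ.real {ω | n * (p + 6 * A * t ^ 5) ≤ X ω}) :
    Real.log (μ.real {ω | n * (p + 6 * A * t ^ 5) ≤ X ω}) ≤
      -(5 * A * n * t ^ 6) + e * n * t ^ 6 := by
  have k := integral_exp_pos (hX t)
  have h1 := Real.log_le_log hP (ldp_chernoff (a := n * (p + 6 * A * t ^ 5)) hX ht.le)
  rw [Real.log_mul (Real.exp_pos _).ne' k.ne', Real.log_exp] at h1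
  obtain ⟨-, h2⟩ := abs_le.1 H
  have h3 : t * (n * (p + 6 * A * t ^ 5)) = t * (n * p) + 6 * (A * n * t ^ 6) := by ring
  rw [h3] at h1
  linarith

end core

section asym

variable {Ω : ℕ → Type*} [∀ n, MeasurableSpace (Ω n)] {μ : ∀ n, Measure (Ω n)}
  [∀ n, IsProbabilityMeasure (μ n)] {X : ∀ n, Ω n → ℝ}

theorem ldp_t (hm : ∀ n, Measurable (X n))
    (hX : ∀ (n : ℕ) (x : ℝ), Integrable (fun ω => Real.exp (x * X n ω)) (μ n)) {p A : ℝ}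
    (hA : 0 < A)
    (H : ∀ ε : ℝ, 0 < ε → ∃ x₀ : ℝ, 0 < x₀ ∧ ∀ x : ℝ, 0 < x → x ≤ x₀ → ∀ᶠ n : ℕ in atTop,
      |Real.log (∫ ω, Real.exp (x * X n ω) ∂(μ n)) - x * (n * p) - A * n * x ^ 6| ≤
        ε * n * x ^ 6) {ε : ℝ} (hε : 0 < ε) :
    ∃ t₀ : ℝ, 0 < t₀ ∧ ∀ t : ℝ, 0 < t → t ≤ t₀ → ∀ᶠ n : ℕ in atTop,
      |Real.log ((μ n).real {ω | n * (p + 6 * A * t ^ 5) ≤ X n ω}) + 5 * A * n * t ^ 6| ≤
        ε * n * t ^ 6 := by
  obtain ⟨δ, h0, h1, hδ⟩ : ∃ δ : ℝ, 0 < δ ∧ δ ≤ 1 / 10 ∧ 138 * A * δ ≤ ε / 4 := by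
    refine ⟨min (1 / 10) (ε / (552 * A)), by positivity, min_le_left _ _, ?_⟩
    have h2 : min (1 / 10) (ε / (552 * A)) ≤ ε / (552 * A) := min_le_right _ _
    calc 138 * A * min (1 / 10) (ε / (552 * A)) ≤ 138 * A * (ε / (552 * A)) :=
          mul_le_mul_of_nonneg_left h2 (by positivity)
      _ = ε / 4 := by field_simp; norm_num
  obtain ⟨e, he, he1, he2⟩ : ∃ e : ℝ, 0 < e ∧ 5 * e ≤ A * δ ^ 2 ∧ 2 * e ≤ ε / 4 := by
    refine ⟨min (A * δ ^ 2 / 5) (ε / 8), by positivity, ?_, ?_⟩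
    · have := min_le_left (A * δ ^ 2 / 5) (ε / 8)
      linarith
    · have := min_le_right (A * δ ^ 2 / 5) (ε / 8)
      linarith
  obtain ⟨x₀, hx₀, hH⟩ := H e he
  refine ⟨x₀ / 2, by positivity, fun t ht ht0 => ?_⟩
  have c1 : 0 < (1 + δ) * t := by positivity
  have c2 : (1 + δ) * t ≤ x₀ := by nlinarith
  have c3 : 0 < (1 + δ) * t - δ * ((1 + δ) * t) := by nlinarith
  have c4 : (1 + δ) * t - δ * ((1 + δ) * t) ≤ x₀ := by nlinarith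
  have c5 : 0 < (1 + δ) * t + δ * ((1 + δ) * t) := by positivity
  have c6 : (1 + δ) * t + δ * ((1 + δ) * t) ≤ x₀ := by
    have : (1 + δ) * t + δ * ((1 + δ) * t) = (1 + δ) ^ 2 * t := by ring
    rw [this]
    have h2 : (1 + δ) ^ 2 ≤ 2 := by nlinarith
    nlinarith
  have n1 : ∀ᶠ n : ℕ in atTop, 2 ≤ (n : ℝ) * (5 * A * δ ^ 2 * t ^ 6) := by
    have h2 : 0 < 5 * A * δ ^ 2 * t ^ 6 := by positivity
    exact (tendsto_natCast_atTop_atTop.atTop_mul_const h2).eventually_ge_atTop 2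
  have n2 : ∀ᶠ n : ℕ in atTop, 1 ≤ (n : ℝ) * (ε / 4 * t ^ 6) := by
    have h2 : 0 < ε / 4 * t ^ 6 := by positivity
    exact (tendsto_natCast_atTop_atTop.atTop_mul_const h2).eventually_ge_atTop 1
  filter_upwards [hH t ht (by linarith), hH _ c1 c2, hH _ c3 c4, hH _ c5 c6, n1, n2]
    with n k0 k1 k2 k3 k4 k5
  have hn : (0 : ℝ) ≤ n := Nat.cast_nonneg n
  obtain ⟨hP, hlow⟩ := ldp_low (hm n) (hX n) hA h0 h1 he.le he1 ht hn k1 k2 k3 k4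
  have hup := ldp_up (hX n) ht k0 hP
  have hnt : 0 ≤ (n : ℝ) * t ^ 6 := by positivity
  have d1 : (138 * A * δ + 2 * e) * ((n : ℝ) * t ^ 6) ≤ (ε / 4 + ε / 4) * (n * t ^ 6) :=
    mul_le_mul_of_nonneg_right (add_le_add hδ he2) hnt
  have d2 : e * n * t ^ 6 ≤ ε * n * t ^ 6 := by
    have : e ≤ ε := by linarith
    rw [mul_assoc, mul_assoc]
    exact mul_le_mul_of_nonneg_right this hnt
  have d3 : ε * n * t ^ 6 = (ε / 4 + ε / 4) * (n * t ^ 6) + n * (ε / 4 * t ^ 6) +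
      n * (ε / 4 * t ^ 6) := by ring
  rw [abs_le]
  constructor
  · rw [d3]
    linarith
  · linarith

/-- from moments to the tail -/
theorem ldp_abs (hm : ∀ n, Measurable (X n))
    (hX : ∀ (n : ℕ) (x : ℝ), Integrable (fun ω => Real.exp (x * X n ω)) (μ n)) {p A : ℝ}
    (hA : 0 < A)
    (H : ∀ ε : ℝ, 0 < ε → ∃ x₀ : ℝ, 0 < x₀ ∧ ∀ x : ℝ, 0 < x → x ≤ x₀ → ∀ᶠ n : ℕ in atTop,
      |Real.log (∫ ω, Real.exp (x * X n ω) ∂(μ n)) - x * (n * p) - A * n * x ^ 6| ≤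
        ε * n * x ^ 6) :
    ∃ J : ℝ, 0 < J ∧ ∀ ε : ℝ, 0 < ε → ∃ s₀ : ℝ, 0 < s₀ ∧
    ∀ s : ℝ, 0 < s → s ≤ s₀ → ∀ᶠ n : ℕ in atTop,
      |Real.log ((μ n).real {ω | n * (p + s) ≤ X n ω}) + J * n * s ^ (6 / 5 : ℝ)| ≤
        ε * n * s ^ (6 / 5 : ℝ) := by
  have hA6 : 0 < 6 * A := by positivity
  have key : ∀ s : ℝ, 0 < s → ∃ t : ℝ, 0 < t ∧ s = 6 * A * t ^ 5 ∧
      s ^ (6 / 5 : ℝ) = (6 * A) ^ (6 / 5 : ℝ) * t ^ 6 := by
    intro s hs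
    refine ⟨(s / (6 * A)) ^ (1 / 5 : ℝ), by positivity, ?_, ?_⟩
    · rw [← Real.rpow_natCast, ← Real.rpow_mul (by positivity)]
      norm_num
      field_simp
    · rw [← Real.rpow_natCast, ← Real.rpow_mul (by positivity)]
      rw [show (1 / 5 : ℝ) * ((6 : ℕ) : ℝ) = 6 / 5 by norm_num, ← Real.mul_rpow (by positivity)
        (by positivity)]
      congr 1
      field_simp
  set κ : ℝ := (6 * A) ^ (6 / 5 : ℝ) with hκ
  have hκ0 : 0 < κ := by positivity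
  refine ⟨5 * A / κ, by positivity, fun ε hε => ?_⟩
  obtain ⟨t₀, ht₀, h⟩ := ldp_t hm hX hA H (show 0 < ε * κ by positivity)
  refine ⟨6 * A * t₀ ^ 5, by positivity, fun s hs hs0 => ?_⟩
  obtain ⟨t, ht, hst, hst2⟩ := key s hs
  have htt : t ≤ t₀ := by
    rw [hst] at hs0
    exact le_of_pow_le_pow_left₀ (by norm_num) ht₀.le (le_of_mul_le_mul_left hs0 hA6)
  filter_upwards [h t ht htt] with n hn
  rw [hst2, hst]
  have e1 : 5 * A / κ * n * (κ * t ^ 6) = 5 * A * n * t ^ 6 := by field_simp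
  have e2 : ε * n * (κ * t ^ 6) = ε * κ * n * t ^ 6 := by ring
  rw [e1, e2]
  exact hn

end asym

end Vale.Agent.P146.Sh
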