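import Vale.Agent.P146.Sh.ShFin
import Vale.Agent.P146.Sh.ShLdp0

/-!
# P146, Sh: the sharp upper tail
-/

open MeasureTheory ProbabilityTheory Filter Topology Set

namespace Vale.Agent.P146.Sh

open Vale.Agent.P157.Par
open Vale.Agent.P146.Gap
open Vale.Agent.P146.Pw2
open Vale.Agent.P146.Lb
open Vale.Agent.P367.Cl

theorem sharp_ldp {β : ℝ} (hβ : 1 < β) : ∃ J : ℝ, 0 < J ∧ ∀ ε : ℝ, 0 < ε → ∃ s₀ : ℝ, 0 < s₀ ∧
    ∀ s : ℝ, 0 < s → s ≤ s₀ → ∀ᶠ n : ℕ in atTop,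
      |Real.log ((disorder n).real {g | n * (Sx.pv β + s) ≤ freeEnergy n β g}) +
        J * n * s ^ (6 / 5 : ℝ)| ≤ ε * n * s ^ (6 / 5 : ℝ) := by
  obtain ⟨A, hA, H⟩ := sharp_moment hβ
  exact ldp_abs (μ := fun n => disorder n) (X := fun n g => freeEnergy n β g)
    (fun _ => Ub.measurable_free β) (fun n x => Sx.integrable_exp n β x) hA H

end Vale.Agent.P146.Sh
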