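import Vale.Agent.P146.Sh.ShFin

/-!
# P146, Sh: the sharp upper large deviations from the sharp exponential moments
-/

open MeasureTheory ProbabilityTheory Filter Topology Set

namespace Vale.Agent.P146.Sh

section Abs

variable {Ω : Type*} [MeasurableSpace Ω] {μ : Measure Ω} [IsProbabilityMeasure μ] {X : Ω → ℝ}

/-- tilting: the mass of the exponential moment is in the window `[S, T]` -/
theorem ldpb_window (hm : Measurable X)
    (hX : ∀ x : ℝ, Integrable (fun ω => Real.exp (x * X ω)) μ) {x h S T : ℝ} (hx : 0 ≤ x)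
    (hh : 0 ≤ h) : ∫ ω, Real.exp (x * X ω) ∂μ ≤
      Real.exp (h * S) * ∫ ω, Real.exp ((x - h) * X ω) ∂μ + Real.exp (x * T) *
        μ.real {ω | S ≤ X ω} + Real.exp (-(h * T)) * ∫ ω, Real.exp ((x + h) * X ω) ∂μ := by
  have hms : MeasurableSet {ω | S ≤ X ω} := measurableSet_le measurable_const hm
  have hpt : ∀ ω, Real.exp (x * X ω) ≤ Real.exp (h * S) * Real.exp ((x - h) * X ω) +
      Real.exp (x * T) * ({ω | S ≤ X ω}.indicator 1 ω) +
        Real.exp (-(h * T)) * Real.exp ((x + h) * X ω) := by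
    intro ω
    have p1 : 0 < Real.exp (h * S) * Real.exp ((x - h) * X ω) := by positivity
    have p2 := Real.exp_pos (x * T)
    have p3 : 0 < Real.exp (-(h * T)) * Real.exp ((x + h) * X ω) := by positivity
    by_cases hA : S ≤ X ω
    · rw [Set.indicator_of_mem (by exact hA)]
      simp only [Pi.one_apply, mul_one]
      by_cases hB : X ω ≤ T
      · have : Real.exp (x * X ω) ≤ Real.exp (x * T) :=
          Real.exp_le_exp.2 (mul_le_mul_of_nonneg_left hB hx)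
        linarith
      · push Not at hB
        have : Real.exp (x * X ω) ≤ Real.exp (-(h * T)) * Real.exp ((x + h) * X ω) := by
          rw [← Real.exp_add]
          apply Real.exp_le_exp.2
          have := mul_le_mul_of_nonneg_left hB.le hh
          linarith
        linarith
    · rw [Set.indicator_of_notMem (by exact hA)]
      push Not at hA
      have : Real.exp (x * X ω) ≤ Real.exp (h * S) * Real.exp ((x - h) * X ω) := by
        rw [← Real.exp_add]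
        apply Real.exp_le_exp.2
        have := mul_le_mul_of_nonneg_left hA.le hh
        linarith
      simp only [mul_zero, add_zero]
      linarith
  have hi0 : Integrable (fun ω => Real.exp (h * S) * Real.exp ((x - h) * X ω)) μ :=
    (hX _).const_mul _
  have hi1 : Integrable (fun ω => Real.exp (x * T) * ({ω | S ≤ X ω}.indicator (1 : Ω → ℝ) ω)) μ :=
    ((integrable_const (1 : ℝ)).indicator hms).const_mul _
  have hi2 : Integrable (fun ω => Real.exp (-(h * T)) * Real.exp ((x + h) * X ω)) μ :=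
    (hX _).const_mul _
  refine (integral_mono (hX x) ((hi0.add hi1).add hi2) hpt).trans (le_of_eq ?_)
  rw [integral_add' (hi0.add hi1) hi2, integral_add' hi0 hi1, integral_const_mul,
    integral_const_mul, integral_const_mul, integral_indicator_one hms]

/-- Chernoff -/
theorem ldpb_chernoff (hX : ∀ x : ℝ, Integrable (fun ω => Real.exp (x * X ω)) μ) {x S : ℝ}
    (hx : 0 ≤ x) : μ.real {ω | S ≤ X ω} ≤
      Real.exp (-(x * S)) * ∫ ω, Real.exp (x * X ω) ∂μ := by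
  have h := measure_ge_le_exp_mul_mgf (μ := μ) (X := X) S hx (hX x)
  rw [neg_mul] at h
  exact h

end Abs

/-! ### Elementary inequalities -/

theorem ldpb_minus {θ : ℝ} (h0 : 0 ≤ θ) (h1 : θ ≤ 1) : (1 - θ) ^ 6 ≤ 1 - 6 * θ + 15 * θ ^ 2 := by
  have e : 1 - 6 * θ + 15 * θ ^ 2 - (1 - θ) ^ 6 =
      θ ^ 3 * (20 - 15 * θ + 6 * θ ^ 2 - θ ^ 3) := by ring
  have h2 : 0 ≤ θ ^ 3 * (20 - 15 * θ + 6 * θ ^ 2 - θ ^ 3) := by
    refine mul_nonneg (by positivity) ?_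
    have : θ ^ 3 ≤ 1 := pow_le_one₀ h0 h1
    nlinarith [sq_nonneg θ]
  linarith

theorem ldpb_plus {θ : ℝ} (h0 : 0 ≤ θ) (h1 : θ ≤ 1 / 10) :
    (1 + θ) ^ 6 ≤ 1 + 6 * θ + 18 * θ ^ 2 ∧ (1 + θ) ^ 6 ≤ 2 := by
  have h2 : θ ^ 2 ≤ 1 / 100 := by nlinarith
  have h3 : θ ^ 3 ≤ 1 / 1000 := by nlinarith [sq_nonneg θ]
  have h4 : θ ^ 4 ≤ 1 / 10000 := by nlinarith [sq_nonneg θ, sq_nonneg (θ ^ 2)]
  have h3' : 0 ≤ θ ^ 3 := by positivity
  have h4' : 0 ≤ θ ^ 4 := by positivity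
  constructor
  · have e : 1 + 6 * θ + 18 * θ ^ 2 - (1 + θ) ^ 6 =
        θ ^ 2 * (3 - 20 * θ - 15 * θ ^ 2 - 6 * θ ^ 3 - θ ^ 4) := by ring
    have h5 : 0 ≤ θ ^ 2 * (3 - 20 * θ - 15 * θ ^ 2 - 6 * θ ^ 3 - θ ^ 4) := by
      refine mul_nonneg (by positivity) ?_
      linarith
    linarith
  · calc (1 + θ) ^ 6 ≤ (1 + 1 / 10) ^ 6 := by gcongr
      _ ≤ 2 := by norm_num

/-- the lower bound -/
theorem ldpb_low {Ω : Type*} [MeasurableSpace Ω] {μ : Measure Ω} [IsProbabilityMeasure μ]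
    {X : Ω → ℝ} (hXm : Measurable X) (hXi : ∀ x : ℝ, Integrable (fun ω => Real.exp (x * X ω)) μ)
    {A η θ x N s : ℝ} (hA : 0 < A) (hη0 : 0 < η) (hη1 : η ≤ A * θ ^ 2) (hθ0 : 0 < θ)
    (hθ1 : θ ≤ 1 / 10) (hx0 : 0 < x) (hN : 0 < N) (hsx : s = 6 * A * (1 - 5 * θ) * x ^ 5)
    (lb : Real.exp ((A - η) * N * x ^ 6) ≤ ∫ ω, Real.exp (x * X ω) ∂μ)
    (u3 : ∫ ω, Real.exp ((x - θ * x) * X ω) ∂μ ≤ Real.exp ((A + η) * N * (x - θ * x) ^ 6))
    (u4 : ∫ ω, Real.exp ((x + θ * x) * X ω) ∂μ ≤ Real.exp ((A + η) * N * (x + θ * x) ^ 6))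
    (t1 : Real.log 4 ≤ 5 * A * θ ^ 2 * x ^ 6 * N) :
    0 < μ.real {ω | N * s ≤ X ω} ∧
      -(N * (5 * A * x ^ 6) * (1 + 7 * θ)) - Real.log 2 ≤ Real.log (μ.real {ω | N * s ≤ X ω}) := by
  obtain ⟨P, hP⟩ : ∃ P : ℝ, P = μ.real {ω | N * s ≤ X ω} := ⟨_, rfl⟩
  obtain ⟨t, ht⟩ : ∃ t : ℝ, t = 6 * A * (1 + 5 * θ) * x ^ 5 := ⟨_, rfl⟩
  have hw := ldpb_window (μ := μ) hXm hXi (x := x) (h := θ * x) (S := N * s)
    (T := N * t) hx0.le (by positivity)
  rw [← hP] at hw ⊢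
  obtain ⟨w, hwd⟩ : ∃ w : ℝ, w = Real.exp ((A - η) * N * x ^ 6) := ⟨_, rfl⟩
  have hw0 : 0 < w := by rw [hwd]; exact Real.exp_pos _
  have hq : Real.exp (-(5 * A * θ ^ 2 * x ^ 6 * N)) ≤ 1 / 4 := by
    rw [Real.exp_neg, one_div]
    apply inv_anti₀ (by norm_num)
    rw [← Real.log_le_iff_le_exp (by norm_num)]
    exact t1
  have hθm := ldpb_minus hθ0.le (by linarith)
  obtain ⟨hθp, hθp2⟩ := ldpb_plus hθ0.le hθ1
  have b1 : Real.exp (θ * x * (N * s)) * ∫ ω, Real.exp ((x - θ * x) * X ω) ∂μ ≤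
      1 / 4 * w := by
    refine (mul_le_mul_of_nonneg_left u3 (Real.exp_pos _).le).trans ?_
    have e1 : Real.exp (θ * x * (N * s)) * Real.exp ((A + η) * N * (x - θ * x) ^ 6) =
        Real.exp (N * x ^ 6 * (6 * A * (1 - 5 * θ) * θ + (A + η) * (1 - θ) ^ 6 - (A - η))) * w := by
      rw [hwd, ← Real.exp_add, ← Real.exp_add]
      congr 1
      rw [hsx]
      ring
    rw [e1]
    refine mul_le_mul_of_nonneg_right (le_trans (Real.exp_le_exp.2 ?_) hq) hw0.le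
    have h1 : 6 * A * (1 - 5 * θ) * θ + (A + η) * (1 - θ) ^ 6 - (A - η) ≤ -(5 * A * θ ^ 2) := by
      have h2 : (A + η) * (1 - θ) ^ 6 ≤ (A + η) * (1 - 6 * θ + 15 * θ ^ 2) :=
        mul_le_mul_of_nonneg_left hθm (by positivity)
      have h3 : 1 - 6 * θ + 15 * θ ^ 2 ≤ 1 := by nlinarith
      have h4 : η * (1 - 6 * θ + 15 * θ ^ 2) ≤ η := by nlinarith
      nlinarith
    have h2 := mul_le_mul_of_nonneg_left h1 (by positivity : (0 : ℝ) ≤ N * x ^ 6)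
    refine h2.trans (le_of_eq ?_)
    ring
  have b2 : Real.exp (-(θ * x * (N * t))) * ∫ ω, Real.exp ((x + θ * x) * X ω) ∂μ ≤
      1 / 4 * w := by
    refine (mul_le_mul_of_nonneg_left u4 (Real.exp_pos _).le).trans ?_
    have e1 : Real.exp (-(θ * x * (N * t))) * Real.exp ((A + η) * N * (x + θ * x) ^ 6) =
        Real.exp (N * x ^ 6 * (-(6 * A * (1 + 5 * θ) * θ) + (A + η) * (1 + θ) ^ 6 -
          (A - η))) * w := by
      rw [hwd, ← Real.exp_add, ← Real.exp_add]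
      congr 1
      rw [ht]
      ring
    rw [e1]
    refine mul_le_mul_of_nonneg_right (le_trans (Real.exp_le_exp.2 ?_) hq) hw0.le
    have h1 : -(6 * A * (1 + 5 * θ) * θ) + (A + η) * (1 + θ) ^ 6 - (A - η) ≤
        -(5 * A * θ ^ 2) := by
      have h2 : A * (1 + θ) ^ 6 ≤ A * (1 + 6 * θ + 18 * θ ^ 2) :=
        mul_le_mul_of_nonneg_left hθp hA.le
      have h3 : η * (1 + θ) ^ 6 ≤ η * 2 := mul_le_mul_of_nonneg_left hθp2 hη0.le
      nlinarith
    have h2 := mul_le_mul_of_nonneg_left h1 (by positivity : (0 : ℝ) ≤ N * x ^ 6)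
    refine h2.trans (le_of_eq ?_)
    ring
  have hwlb : w ≤ ∫ ω, Real.exp (x * X ω) ∂μ := by rw [hwd]; exact lb
  have hPlow : Real.exp (-(x * (N * t))) * (1 / 2 * w) ≤ P := by
    have h1 : 1 / 2 * w ≤ Real.exp (x * (N * t)) * P := by linarith
    have h2 := mul_le_mul_of_nonneg_left h1 (Real.exp_pos (-(x * (N * t)))).le
    refine h2.trans (le_of_eq ?_)
    rw [← mul_assoc, ← Real.exp_add]
    simp
  refine ⟨lt_of_lt_of_le (by positivity) hPlow, ?_⟩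
  have h1 : Real.log (Real.exp (-(x * (N * t))) * (1 / 2 * w)) ≤ Real.log P :=
    Real.log_le_log (by positivity) hPlow
  have h2 : Real.log (Real.exp (-(x * (N * t))) * (1 / 2 * w)) =
      -(x * (N * t)) - Real.log 2 + (A - η) * N * x ^ 6 := by
    rw [Real.log_mul (Real.exp_pos _).ne' (by positivity), Real.log_exp,
      Real.log_mul (by norm_num) hw0.ne', hwd, Real.log_exp]
    rw [one_div, Real.log_inv]
    ring
  rw [h2] at h1
  have h3 : x * (N * t) - (A - η) * N * x ^ 6 ≤ N * (5 * A * x ^ 6) * (1 + 7 * θ) := by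
    have e1 : x * (N * t) - (A - η) * N * x ^ 6 =
        N * x ^ 6 * (6 * A * (1 + 5 * θ) - (A - η)) := by
      rw [ht]; ring
    have e2 : N * (5 * A * x ^ 6) * (1 + 7 * θ) = N * x ^ 6 * (5 * A * (1 + 7 * θ)) := by ring
    rw [e1, e2]
    refine mul_le_mul_of_nonneg_left ?_ (by positivity)
    nlinarith
  linarith

/-- the upper bound -/
theorem ldpb_up {Ω : Type*} [MeasurableSpace Ω] {μ : Measure Ω} [IsProbabilityMeasure μ]
    {X : Ω → ℝ} (hXi : ∀ x : ℝ, Integrable (fun ω => Real.exp (x * X ω)) μ)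
    {A η y N s : ℝ} (hy0 : 0 < y) (hsy : s = 6 * A * y ^ 5)
    (u1 : ∫ ω, Real.exp (y * X ω) ∂μ ≤ Real.exp ((A + η) * N * y ^ 6))
    (hP : 0 < μ.real {ω | N * s ≤ X ω}) :
    Real.log (μ.real {ω | N * s ≤ X ω}) ≤ -(N * (5 * A * y ^ 6)) + η * N * y ^ 6 := by
  have h1 := ldpb_chernoff (μ := μ) hXi (x := y) (S := N * s) hy0.le
  have h2 : μ.real {ω | N * s ≤ X ω} ≤
      Real.exp (-(y * (N * s))) * Real.exp ((A + η) * N * y ^ 6) :=
    h1.trans (mul_le_mul_of_nonneg_left u1 (Real.exp_pos _).le)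
  rw [← Real.exp_add] at h2
  have h3 := (Real.log_le_iff_le_exp hP).2 h2
  refine h3.trans (le_of_eq ?_)
  rw [hsy]
  ring

/-- the choice of `θ` -/
theorem ldpb_theta {J ε : ℝ} (hJ : 0 < J) (hε : 0 < ε) : ∃ θ : ℝ, 0 < θ ∧ θ ≤ 1 / 10 ∧
    J * ((1 - 5 * θ) ^ (-(6 / 5) : ℝ) * (1 + 7 * θ)) ≤ J + ε := by
  have hc : ContinuousAt (fun θ : ℝ => J * ((1 - 5 * θ) ^ (-(6 / 5) : ℝ) * (1 + 7 * θ))) 0 := by
    refine continuousAt_const.mul (ContinuousAt.mul ?_ ?_)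
    · refine ContinuousAt.rpow_const ?_ (Or.inl (by norm_num))
      fun_prop
    · fun_prop
  have h0 : (fun θ : ℝ => J * ((1 - 5 * θ) ^ (-(6 / 5) : ℝ) * (1 + 7 * θ))) 0 = J := by
    simp
  have h1 : ∀ᶠ θ in 𝓝 (0 : ℝ), J * ((1 - 5 * θ) ^ (-(6 / 5) : ℝ) * (1 + 7 * θ)) < J + ε := by
    have := hc.eventually (gt_mem_nhds (show _ < J + ε by rw [h0]; linarith))
    exact this
  obtain ⟨δ, hδ, h2⟩ := Metric.eventually_nhds_iff.1 h1
  refine ⟨min (δ / 2) (1 / 10), lt_min (by positivity) (by norm_num), min_le_right _ _,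
    (h2 ?_).le⟩
  rw [Real.dist_eq, sub_zero, abs_of_pos (lt_min (by positivity) (by norm_num))]
  exact lt_of_le_of_lt (min_le_left _ _) (by linarith)

/-- **Sharp upper large deviations from the sharp exponential moments.** -/
theorem sharp_ldp_of {β A : ℝ} (hA : 0 < A)
    (hmom : ∀ ε : ℝ, 0 < ε → ∃ x₀ : ℝ, 0 < x₀ ∧ ∀ x : ℝ, 0 < x → x ≤ x₀ → ∀ᶠ n : ℕ in atTop,
      |Real.log (∫ g, Real.exp (x * freeEnergy n β g) ∂(disorder n)) - x * (n * Sx.pv β) -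
        A * n * x ^ 6| ≤ ε * n * x ^ 6) :
    ∀ ε : ℝ, 0 < ε → ∃ s₀ : ℝ, 0 < s₀ ∧ ∀ s : ℝ, 0 < s → s ≤ s₀ → ∀ᶠ n : ℕ in atTop,
      |Real.log ((disorder n).real {g | n * (Sx.pv β + s) ≤ freeEnergy n β g}) +
        5 / 6 * (6 * A) ^ (-(1 / 5) : ℝ) * n * s ^ (6 / 5 : ℝ)| ≤ ε * n * s ^ (6 / 5 : ℝ) := by
  intro ε hε
  have h6A : 0 < 6 * A := by positivity
  obtain ⟨J, hJ⟩ : ∃ J : ℝ, J = 5 / 6 * (6 * A) ^ (-(1 / 5) : ℝ) := ⟨_, rfl⟩
  have hJ0 : 0 < J := by rw [hJ]; positivity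
  -- `J = 5 A (6 A)^(-6/5)`
  have hJA : J = 5 * A * (6 * A) ^ (-(6 / 5) : ℝ) := by
    have e : (6 * A) ^ (-(1 / 5) : ℝ) = 6 * A * (6 * A) ^ (-(6 / 5) : ℝ) := by
      rw [← Real.rpow_one_add' h6A.le (by norm_num)]
      norm_num
    rw [hJ, e]
    ring
  obtain ⟨θ, hθ0, hθ1, hθ⟩ := ldpb_theta hJ0 (show 0 < ε / 2 by positivity)
  obtain ⟨η, hη⟩ : ∃ η : ℝ, η = min (A * θ ^ 2) (ε * (6 * A) ^ (6 / 5 : ℝ)) := ⟨_, rfl⟩
  have hη0 : 0 < η := by rw [hη]; exact lt_min (by positivity) (by positivity)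
  have hη1 : η ≤ A * θ ^ 2 := by rw [hη]; exact min_le_left _ _
  have hη2 : η ≤ ε * (6 * A) ^ (6 / 5 : ℝ) := by rw [hη]; exact min_le_right _ _
  obtain ⟨x₀, hx₀, hm⟩ := hmom η hη0
  refine ⟨3 * A * (x₀ / 2) ^ 5, by positivity, fun s hs hss => ?_⟩
  have hs6 : 0 < s ^ (6 / 5 : ℝ) := by positivity
  -- the points
  have h5θ : 1 / 2 ≤ 1 - 5 * θ := by linarith
  have h5θ0 : 0 < 1 - 5 * θ := by linarith
  obtain ⟨y, hy⟩ : ∃ y : ℝ, y = (s / (6 * A)) ^ (1 / 5 : ℝ) := ⟨_, rfl⟩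
  have hsA : 0 < s / (6 * A) := by positivity
  have hy0 : 0 < y := by rw [hy]; positivity
  have hy5 : y ^ 5 = s / (6 * A) := by
    rw [hy, ← Real.rpow_natCast, ← Real.rpow_mul hsA.le]
    norm_num
  have hy6 : y ^ 6 = s ^ (6 / 5 : ℝ) * (6 * A) ^ (-(6 / 5) : ℝ) := by
    rw [hy, ← Real.rpow_natCast, ← Real.rpow_mul hsA.le, Real.div_rpow hs.le h6A.le,
      Real.rpow_neg h6A.le]
    norm_num
    rfl
  obtain ⟨x, hx⟩ : ∃ x : ℝ, x = (s / (6 * A * (1 - 5 * θ))) ^ (1 / 5 : ℝ) := ⟨_, rfl⟩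
  have hsA' : 0 < s / (6 * A * (1 - 5 * θ)) := by positivity
  have hx0 : 0 < x := by rw [hx]; positivity
  have hx5 : x ^ 5 = s / (6 * A * (1 - 5 * θ)) := by
    rw [hx, ← Real.rpow_natCast, ← Real.rpow_mul hsA'.le]
    norm_num
  have hx6 : x ^ 6 = s ^ (6 / 5 : ℝ) * (6 * A) ^ (-(6 / 5) : ℝ) * (1 - 5 * θ) ^ (-(6 / 5) : ℝ) := by
    have e : (s / (6 * A * (1 - 5 * θ))) ^ (6 / 5 : ℝ) =
        s ^ (6 / 5 : ℝ) * (6 * A) ^ (-(6 / 5) : ℝ) * (1 - 5 * θ) ^ (-(6 / 5) : ℝ) := by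
      rw [Real.div_rpow hs.le (by positivity), Real.mul_rpow h6A.le h5θ0.le, Real.rpow_neg h6A.le,
        Real.rpow_neg h5θ0.le]
      field_simp
    rw [← e, hx, ← Real.rpow_natCast, ← Real.rpow_mul hsA'.le]
    norm_num
  have hsx : s = 6 * A * (1 - 5 * θ) * x ^ 5 := by rw [hx5]; field_simp
  have hsy : s = 6 * A * y ^ 5 := by rw [hy5]; field_simp
  have hxx : x ≤ x₀ / 2 := by
    have h1 : x ^ 5 ≤ (x₀ / 2) ^ 5 := by
      have h2 : 3 * A * x ^ 5 ≤ 3 * A * (x₀ / 2) ^ 5 := by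
        refine le_trans ?_ hss
        rw [hsx]
        have : 3 * A ≤ 6 * A * (1 - 5 * θ) := by nlinarith
        exact mul_le_mul_of_nonneg_right this (by positivity)
      exact le_of_mul_le_mul_left h2 (by positivity)
    exact le_of_pow_le_pow_left₀ (by norm_num) (by positivity) h1
  have hyx : y ≤ x := by
    have h1 : y ^ 5 ≤ x ^ 5 := by
      rw [hy5, hx5]
      apply div_le_div_of_nonneg_left hs.le (by positivity)
      have : 6 * A * (1 - 5 * θ) ≤ 6 * A * 1 :=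
        mul_le_mul_of_nonneg_left (by linarith) h6A.le
      linarith
    exact le_of_pow_le_pow_left₀ (by norm_num) hx0.le h1
  have m1 := hm y hy0 (by linarith)
  have m2 := hm x hx0 (by linarith)
  have m3 := hm (x - θ * x) (by nlinarith) (by nlinarith)
  have m4 := hm (x + θ * x) (by positivity) (by nlinarith)
  have hx6p : 0 < x ^ 6 := by positivity
  -- large `n`
  have t1 : ∀ᶠ n : ℕ in atTop, Real.log 4 ≤ 5 * A * θ ^ 2 * x ^ 6 * n :=
    (tendsto_natCast_atTop_atTop.const_mul_atTop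
      (by positivity : 0 < 5 * A * θ ^ 2 * x ^ 6)).eventually_ge_atTop _
  have t2 : ∀ᶠ n : ℕ in atTop, Real.log 2 ≤ ε / 2 * s ^ (6 / 5 : ℝ) * n :=
    (tendsto_natCast_atTop_atTop.const_mul_atTop
      (by positivity : 0 < ε / 2 * s ^ (6 / 5 : ℝ))).eventually_ge_atTop _
  filter_upwards [m1, m2, m3, m4, t1, t2, eventually_ge_atTop 1] with n m1 m2 m3 m4 t1 t2 hn
  have hn0 : (0 : ℝ) < n := by exact_mod_cast hn
  rw [← hJ]
  obtain ⟨X, hXd⟩ : ∃ X : (Pair n → ℝ) → ℝ, X = fun g => freeEnergy n β g - n * Sx.pv β := ⟨_, rfl⟩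
  have hcen : ∀ z : ℝ, ∫ g, Real.exp (z * X g) ∂(disorder n) =
      Real.exp (-(z * (n * Sx.pv β))) * ∫ g, Real.exp (z * freeEnergy n β g) ∂(disorder n) := by
    intro z
    rw [← integral_const_mul, hXd]
    congr 1
    funext g
    rw [← Real.exp_add]
    congr 1
    ring
  have hXm : Measurable X := by rw [hXd]; exact (Ub.measurable_free β).sub_const _
  have hXi : ∀ z : ℝ, Integrable (fun g => Real.exp (z * X g)) (disorder n) := by
    intro z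
    have : (fun g => Real.exp (z * X g)) =
        fun g => Real.exp (-(z * (n * Sx.pv β))) * Real.exp (z * freeEnergy n β g) := by
      funext g
      rw [← Real.exp_add, hXd]
      congr 1
      ring
    rw [this]
    exact (Sx.integrable_exp n β z).const_mul _
  have hlog : ∀ z : ℝ, Real.log (∫ g, Real.exp (z * freeEnergy n β g) ∂(disorder n)) -
      z * (n * Sx.pv β) = Real.log (∫ g, Real.exp (z * X g) ∂(disorder n)) := by
    intro z
    rw [hcen, Real.log_mul (Real.exp_pos _).ne' (integral_exp_pos (Sx.integrable_exp n β z)).ne',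
      Real.log_exp]
    ring
  have hMpos : ∀ z : ℝ, 0 < ∫ g, Real.exp (z * X g) ∂(disorder n) := fun z =>
    integral_exp_pos (hXi z)
  rw [hlog, abs_le] at m1 m2 m3 m4
  -- upper and lower bounds of the moments
  have ub : ∀ z : ℝ, Real.log (∫ g, Real.exp (z * X g) ∂(disorder n)) - A * n * z ^ 6 ≤
      η * n * z ^ 6 → ∫ g, Real.exp (z * X g) ∂(disorder n) ≤ Real.exp ((A + η) * n * z ^ 6) := by
    intro z hz
    rw [← Real.log_le_iff_le_exp (hMpos z)]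
    linarith
  have lb : Real.exp ((A - η) * n * x ^ 6) ≤ ∫ g, Real.exp (x * X g) ∂(disorder n) := by
    rw [← Real.le_log_iff_exp_le (hMpos x)]
    linarith [m2.1]
  have u1 := ub y m1.2
  have u3 := ub _ m3.2
  have u4 := ub _ m4.2
  have hset : {g | n * (Sx.pv β + s) ≤ freeEnergy n β g} = {g | n * s ≤ X g} := by
    ext g
    simp only [Set.mem_ofPred_eq, hXd]
    constructor <;> intro hg <;> linarith
  rw [hset]
  obtain ⟨hPpos, hlow⟩ := ldpb_low (μ := disorder n) hXm hXi hA hη0 hη1 hθ0 hθ1 hx0 hn0 hsx lb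
    u3 u4 t1
  have hup := ldpb_up (μ := disorder n) hXi hy0 hsy u1 hPpos
  have hx6J : 5 * A * x ^ 6 = J * (1 - 5 * θ) ^ (-(6 / 5) : ℝ) * s ^ (6 / 5 : ℝ) := by
    rw [hx6, hJA]; ring
  have hy6J : 5 * A * y ^ 6 = J * s ^ (6 / 5 : ℝ) := by
    rw [hy6, hJA]; ring
  rw [abs_le]
  constructor
  · have h4 : n * (5 * A * x ^ 6) * (1 + 7 * θ) ≤ n * s ^ (6 / 5 : ℝ) * (J + ε / 2) := by
      have e1 : n * (5 * A * x ^ 6) * (1 + 7 * θ) =
          n * s ^ (6 / 5 : ℝ) * (J * ((1 - 5 * θ) ^ (-(6 / 5) : ℝ) * (1 + 7 * θ))) := by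
        rw [hx6J]; ring
      rw [e1]
      exact mul_le_mul_of_nonneg_left hθ (by positivity)
    have e2 : n * s ^ (6 / 5 : ℝ) * (J + ε / 2) =
        J * n * s ^ (6 / 5 : ℝ) + ε / 2 * s ^ (6 / 5 : ℝ) * n := by ring
    have e3 : ε * n * s ^ (6 / 5 : ℝ) =
        ε / 2 * s ^ (6 / 5 : ℝ) * n + ε / 2 * s ^ (6 / 5 : ℝ) * n := by ring
    rw [e2] at h4
    rw [e3]
    linarith
  · rw [hy6J] at hup
    have h5 : η * n * y ^ 6 ≤ ε * n * s ^ (6 / 5 : ℝ) := by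
      rw [hy6]
      have h6 : η * (6 * A) ^ (-(6 / 5) : ℝ) ≤ ε := by
        have h7 := mul_le_mul_of_nonneg_right hη2
          (by positivity : (0 : ℝ) ≤ (6 * A) ^ (-(6 / 5) : ℝ))
        refine h7.trans (le_of_eq ?_)
        rw [mul_assoc, ← Real.rpow_add h6A]
        norm_num
      have h8 := mul_le_mul_of_nonneg_right h6 (by positivity : (0 : ℝ) ≤ n * s ^ (6 / 5 : ℝ))
      have e1 : η * n * (s ^ (6 / 5 : ℝ) * (6 * A) ^ (-(6 / 5) : ℝ)) =
          η * (6 * A) ^ (-(6 / 5) : ℝ) * (n * s ^ (6 / 5 : ℝ)) := by ring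
      rw [e1]
      refine h8.trans (le_of_eq ?_)
      ring
    have e3 : (n : ℝ) * (J * s ^ (6 / 5 : ℝ)) = J * n * s ^ (6 / 5 : ℝ) := by ring
    rw [e3] at hup
    linarith

/-- the sharp large deviations -/
theorem sharp_ldp' {β : ℝ} (hβ : 1 < β) : ∃ A J : ℝ, 0 < A ∧ 0 < J ∧
    J = 5 / 6 * (6 * A) ^ (-(1 / 5) : ℝ) ∧
    (∀ ε : ℝ, 0 < ε → ∃ x₀ : ℝ, 0 < x₀ ∧ ∀ x : ℝ, 0 < x → x ≤ x₀ → ∀ᶠ n : ℕ in atTop,
      |Real.log (∫ g, Real.exp (x * freeEnergy n β g) ∂(disorder n)) - x * (n * Sx.pv β) -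
        A * n * x ^ 6| ≤ ε * n * x ^ 6) ∧
    ∀ ε : ℝ, 0 < ε → ∃ s₀ : ℝ, 0 < s₀ ∧ ∀ s : ℝ, 0 < s → s ≤ s₀ → ∀ᶠ n : ℕ in atTop,
      |Real.log ((disorder n).real {g | n * (Sx.pv β + s) ≤ freeEnergy n β g}) +
        J * n * s ^ (6 / 5 : ℝ)| ≤ ε * n * s ^ (6 / 5 : ℝ) := by
  obtain ⟨A, hA, h⟩ := sharp_moment hβ
  exact ⟨A, _, hA, by positivity, rfl, h, sharp_ldp_of hA h⟩

end Vale.Agent.P146.Sh
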