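import Vale.Agent.P146.Sh.ShKv

/-!
# P146, Sh: the derivative of the second moment along the first blocks, from the bounds of `vv`, `kk`
-/

open MeasureTheory ProbabilityTheory Filter Topology Set

namespace Vale.Agent.P146.Sh

open Vale.Agent.P157.Par
open Vale.Agent.P146.Gap
open Vale.Agent.P146.Pw2
open Vale.Agent.P146.Lb
open Vale.Agent.P367.Cl

theorem m1b_track {n : ℕ} {r : ℕ → ℝ} (hr : Path n r) (h0 : r 0 = 0) {g : ℕ → ℝ → ℝ} {B : ℝ}
    (hB : 0 ≤ B) (p : ℕ) (hc : ∀ l < n, ContinuousOn (g l) (Icc 0 (r (l + 1) - r l)))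
    (hz : g 0 0 = 0) (hm : ∀ l, l + 1 < n → g l (r (l + 1) - r l) = g (l + 1) 0)
    (hd : ∀ l < n, ∀ t ∈ Ioo 0 (r (l + 1) - r l), ∃ d, HasDerivAt (g l) d t ∧
      |d| ≤ B * (r l + t) ^ p) :
    ∀ l < n, ∀ t ∈ Icc 0 (r (l + 1) - r l), |g l t| ≤ B * (r l + t) ^ (p + 1) := by
  have nn : ∀ l ≤ n, 0 ≤ r l := fun l hl => by
    induction l with
    | zero => exact h0.ge
    | succ l ih => exact (ih (by omega)).trans (hr.2 l (by omega))
  have key : ∀ l < n, |g l 0| ≤ B * r l ^ (p + 1) → ∀ t ∈ Icc 0 (r (l + 1) - r l),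
      |g l t| ≤ B * (r l + t) ^ (p + 1) := fun l hl h1 t ht => by
    have hl0 := nn l hl.le
    have h2 := kv_slope (f := g l) (T := t) (B := B * (r l + t) ^ p)
      ((hc l hl).mono (Icc_subset_Icc le_rfl ht.2)) (fun s hs => by
        obtain ⟨d, e1, e2⟩ := hd l hl s ⟨hs.1, hs.2.trans_le ht.2⟩
        refine ⟨d, e1, e2.trans (mul_le_mul_of_nonneg_left ?_ hB)⟩
        exact pow_le_pow_left₀ (by linarith [hs.1]) (by linarith [hs.2]) p)
      (t := t) ⟨ht.1, le_rfl⟩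
    have h3 : |g l t| ≤ |g l t - g l 0| + |g l 0| := by
      have := abs_add_le (g l t - g l 0) (g l 0)
      rwa [sub_add_cancel] at this
    have h4 : r l ^ (p + 1) ≤ (r l + t) ^ p * r l := by
      rw [pow_succ]
      exact mul_le_mul_of_nonneg_right (pow_le_pow_left₀ hl0 (by linarith [ht.1]) p) hl0
    have h5 := mul_le_mul_of_nonneg_left h4 hB
    have h6 : B * (r l + t) ^ (p + 1) = B * (r l + t) ^ p * t + B * ((r l + t) ^ p * r l) := by
      ring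
    linarith
  intro l
  induction l with
  | zero =>
    intro hl
    refine key 0 hl ?_
    rw [hz, h0]
    simp
  | succ l ih =>
    intro hl
    refine key (l + 1) hl ?_
    have hl' : l < n := by omega
    have h1 := ih hl' (r (l + 1) - r l) ⟨sub_nonneg.2 (hr.2 l hl'), le_rfl⟩
    rw [hm l hl, add_sub_cancel] at h1
    exact h1

/-- The algebra of the estimate. -/
theorem m1b_alg {c K K' C1 C2 C3 C4 Ct X σ w S m P3 R Q v v' k k4 : ℝ} (hc : 0 < c)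
    (hK : 1 ≤ K) (hK' : 1 ≤ K') (h3 : 0 ≤ C3) (h4 : 0 ≤ C4) (hCt : 0 ≤ Ct * C2)
    (h12 : 0 ≤ C1 * C2) (hX : 0 ≤ X) (hσ : 0 ≤ σ) (hσX : σ ≤ X) (hw : 0 ≤ w)
    (hS1 : σ * w ≤ S) (hS2 : X * X ≤ S) (hm : 0 ≤ m) (hmX : m ≤ X)
    (b1 : c ≤ v) (b2 : v ≤ 1) (b3 : c ≤ k) (b4 : k ≤ K') (b5 : 0 ≤ v') (b6 : v' ≤ 1)
    (b7 : |k4| ≤ K) (e1 : |v' ^ 2 * P3 - k4 ^ 2 * R| ≤ Ct * C2 * (σ * w))
    (e2 : |Q - v' ^ 3| ≤ 3 * (C1 * C2) * σ) (e3 : |P3| ≤ K ^ 2 * σ) (e3' : 0 ≤ R) (e3'' : R ≤ σ)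
    (e4 : |R - v ^ 2 * σ| ≤ C4 * σ ^ 2) (e5 : |v' - v| ≤ C3 * σ) (e6 : |k4 + k| ≤ C3 * w) :
    |P3 - 2 * m * Q - (k ^ 2 * σ - 2 * m * v ^ 3)| ≤
      ((2 * C3 * K ^ 2 + Ct * C2 + (K + K') * C3 + K' ^ 2 * C4) / c ^ 2 +
        6 * (C1 * C2 + C3)) * S := by
  have hc2 : 0 < c ^ 2 := by positivity
  have hv2 : c ^ 2 ≤ v ^ 2 := pow_le_pow_left₀ hc.le b1 2
  have hσ2 : σ * σ ≤ S := (mul_le_mul hσX hσX hσ hX).trans hS2
  have hXσ : X * σ ≤ S := (mul_le_mul_of_nonneg_left hσX hX).trans hS2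
  have hS : 0 ≤ S := (mul_nonneg hX hX).trans hS2
  have hv0 : 0 ≤ v := hc.le.trans b1
  have hk0 : 0 ≤ k := hc.le.trans b3
  -- the first part
  have f1 : |(v ^ 2 - v' ^ 2) * P3| ≤ 2 * C3 * K ^ 2 * S := by
    have : v ^ 2 - v' ^ 2 = -((v' - v) * (v + v')) := by ring
    rw [abs_mul, this, abs_neg, abs_mul, abs_of_nonneg (show 0 ≤ v + v' by linarith)]
    calc |v' - v| * (v + v') * |P3| ≤ C3 * σ * 2 * (K ^ 2 * σ) := by
          refine mul_le_mul (mul_le_mul e5 (by linarith) (by linarith) (by positivity)) e3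
            (abs_nonneg _) (by positivity)
      _ = 2 * C3 * K ^ 2 * (σ * σ) := by ring
      _ ≤ 2 * C3 * K ^ 2 * S := mul_le_mul_of_nonneg_left hσ2 (by positivity)
  have f2 : |v' ^ 2 * P3 - k4 ^ 2 * R| ≤ Ct * C2 * S :=
    e1.trans (mul_le_mul_of_nonneg_left hS1 hCt)
  have f3 : |(k4 ^ 2 - k ^ 2) * R| ≤ (K + K') * C3 * S := by
    have : k4 ^ 2 - k ^ 2 = (k4 + k) * (k4 - k) := by ring
    rw [abs_mul, this, abs_mul, abs_of_nonneg e3']
    have g1 : |k4 - k| ≤ K + K' := (abs_sub _ _).trans (by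
      rw [abs_of_nonneg hk0]
      linarith)
    calc |k4 + k| * |k4 - k| * R ≤ C3 * w * (K + K') * σ := by
          refine mul_le_mul (mul_le_mul e6 g1 (abs_nonneg _) (by positivity)) e3'' e3'
            (by positivity)
      _ = (K + K') * C3 * (σ * w) := by ring
      _ ≤ (K + K') * C3 * S := mul_le_mul_of_nonneg_left hS1 (by positivity)
  have f4 : |k ^ 2 * (R - v ^ 2 * σ)| ≤ K' ^ 2 * C4 * S := by
    rw [abs_mul, abs_of_nonneg (sq_nonneg k)]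
    calc k ^ 2 * |R - v ^ 2 * σ| ≤ K' ^ 2 * (C4 * σ ^ 2) :=
          mul_le_mul (pow_le_pow_left₀ hk0 b4 2) e4 (abs_nonneg _) (by positivity)
      _ = K' ^ 2 * C4 * (σ * σ) := by ring
      _ ≤ K' ^ 2 * C4 * S := mul_le_mul_of_nonneg_left hσ2 (by positivity)
  set T := 2 * C3 * K ^ 2 + Ct * C2 + (K + K') * C3 + K' ^ 2 * C4 with hT
  have hT0 : 0 ≤ T := by positivity
  have f5 : |v ^ 2 * (P3 - k ^ 2 * σ)| ≤ T * S := by
    have : v ^ 2 * (P3 - k ^ 2 * σ) = (v ^ 2 - v' ^ 2) * P3 + (v' ^ 2 * P3 - k4 ^ 2 * R) +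
        (k4 ^ 2 - k ^ 2) * R + k ^ 2 * (R - v ^ 2 * σ) := by ring
    rw [this]
    have g1 := abs_add_le ((v ^ 2 - v' ^ 2) * P3 + (v' ^ 2 * P3 - k4 ^ 2 * R) +
        (k4 ^ 2 - k ^ 2) * R) (k ^ 2 * (R - v ^ 2 * σ))
    have g2 := abs_add_le ((v ^ 2 - v' ^ 2) * P3 + (v' ^ 2 * P3 - k4 ^ 2 * R))
      ((k4 ^ 2 - k ^ 2) * R)
    have g3 := abs_add_le ((v ^ 2 - v' ^ 2) * P3) (v' ^ 2 * P3 - k4 ^ 2 * R)
    rw [hT]
    linarith
  have f6 : |P3 - k ^ 2 * σ| ≤ T / c ^ 2 * S := by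
    rw [abs_mul, abs_of_nonneg (sq_nonneg v)] at f5
    have : c ^ 2 * |P3 - k ^ 2 * σ| ≤ T * S :=
      (mul_le_mul_of_nonneg_right hv2 (abs_nonneg _)).trans f5
    rw [div_mul_eq_mul_div, le_div_iff₀ hc2]
    linarith
  -- the second part
  have f7 : |2 * m * (Q - v ^ 3)| ≤ 6 * (C1 * C2 + C3) * S := by
    have g1 : |v' ^ 3 - v ^ 3| ≤ 3 * (C3 * σ) := by
      have : v' ^ 3 - v ^ 3 = (v' - v) * (v' ^ 2 + v' * v + v ^ 2) := by ring
      have g0 : 0 ≤ v' ^ 2 + v' * v + v ^ 2 := by positivity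
      rw [this, abs_mul, abs_of_nonneg g0, mul_comm 3]
      exact mul_le_mul e5 (by nlinarith) g0 (by positivity)
    have g2 : |Q - v ^ 3| ≤ 3 * (C1 * C2) * σ + 3 * (C3 * σ) := by
      have : Q - v ^ 3 = (Q - v' ^ 3) + (v' ^ 3 - v ^ 3) := by ring
      rw [this]
      exact (abs_add_le _ _).trans (add_le_add e2 g1)
    rw [abs_mul, abs_of_nonneg (show 0 ≤ 2 * m by linarith)]
    calc 2 * m * |Q - v ^ 3| ≤ 2 * X * (3 * (C1 * C2) * σ + 3 * (C3 * σ)) :=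
          mul_le_mul (by linarith) g2 (abs_nonneg _) (by linarith)
      _ = 6 * (C1 * C2 + C3) * (X * σ) := by ring
      _ ≤ 6 * (C1 * C2 + C3) * S := mul_le_mul_of_nonneg_left hXσ (by positivity)
  have e : P3 - 2 * m * Q - (k ^ 2 * σ - 2 * m * v ^ 3) =
      (P3 - k ^ 2 * σ) - 2 * m * (Q - v ^ 3) := by ring
  rw [e]
  have := abs_sub (P3 - k ^ 2 * σ) (2 * m * (Q - v ^ 3))
  linarith

theorem m1e_of (b : ℝ)
    (hbd : ∃ c K : ℝ, 0 < c ∧ 1 ≤ K ∧ ∀ (n : ℕ) (r : ℕ → ℝ), BPath b n r →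
      c ≤ vv n r ∧ vv n r ≤ 1 ∧ c ≤ kk n r ∧ kk n r ≤ K) :
    ∃ C : ℝ, 1 ≤ C ∧ ∀ (n : ℕ) (X : ℝ) (r : ℕ → ℝ), BPath b n r → 0 < X →
    X ≤ 1 → ∀ l < n, gm n (l + 1) ≤ X → ∀ t ∈ Icc 0 (r (l + 1) - r l), r l + t ≤ X →
      |M1b n (gm n) r l t - (kk n r ^ 2 * (r l + t) - 2 * gm n (l + 1) * vv n r ^ 3)| ≤
        C * (X * √X) := by
  obtain ⟨K, hK, hcl⟩ := gb_class b
  obtain ⟨C1, hC1, htay⟩ := tay hK
  obtain ⟨C2, hC2, hmom⟩ := mom b
  obtain ⟨C3, hC3, hkv⟩ := kv b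
  obtain ⟨c, K', hc, hK', hbd⟩ := hbd
  obtain ⟨C4, hC4, hM1⟩ := M1b_bd b
  refine ⟨max ((2 * C3 * K ^ 2 + (C1 * (2 * K)) * C2 + (K + K') * C3 + K' ^ 2 * C4) / c ^ 2 +
        6 * (C1 * C2 + C3)) 1, le_max_right _ _, ?_⟩
  intro n X r hr hX hX1 l hl hgX t ht hσX
  have hm := gm_exponents n
  have hp := hr.2.1
  obtain ⟨g0, g1⟩ := sp7_exp_of hm l hl
  have hrl : 0 ≤ r l := len_nonneg hr hl.le
  have hσ : 0 ≤ r l + t := add_nonneg hrl ht.1
  obtain ⟨hAK, h5⟩ := hcl n r hr l hl t ht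
  obtain ⟨-, m2, m3⟩ := hmom n r hr l hl t ht
  obtain ⟨k1, k2⟩ := hkv n r hr l hl t ht
  obtain ⟨v1, v2, v3, v4⟩ := hbd n r hr
  have hT := htay _ hAK h5
  have hR := dec_Rb_le hm hp hr.1 hl ht
  -- the second moment
  have hM : ∀ l < n, ∀ t ∈ Icc 0 (r (l + 1) - r l),
      |Mb n (gm n) r l t - vv n r ^ 2| ≤ C4 * (r l + t) ^ (0 + 1) := by
    refine m1b_track hp hr.1 (g := fun l t => Mb n (gm n) r l t - vv n r ^ 2) (by linarith) 0
      (fun l hl => (Mb_cont hm hp hl).sub continuousOn_const) ?_ (fun l hl => ?_)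
      (fun l hl t ht => ⟨M1b n (gm n) r l t, (Mb_deriv hm hp hl ht).sub_const _, ?_⟩)
    · have hn : 0 < n := by omega
      change Mb n (gm n) r 0 0 - vv n r ^ 2 = 0
      rw [Mb_zero hm hp hn, Ml, ee_zero hr.1]
      simp only [vv, sub_self]
    · rw [Mb_last hm hp (by omega), Mb_zero hm hp hl]
    · rw [pow_zero, mul_one]
      exact hM1 n (gm n) r hm hr l hl t (Ioo_subset_Icc_self ht)
  have hR2 : ∀ l < n, ∀ t ∈ Icc 0 (r (l + 1) - r l),
      |Rb n (gm n) r l t - vv n r ^ 2 * (r l + t)| ≤ C4 * (r l + t) ^ (1 + 1) := by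
    refine m1b_track hp hr.1 (g := fun l t => Rb n (gm n) r l t - vv n r ^ 2 * (r l + t))
      (by linarith) 1
      (fun l hl => (Rb_cont hm hp hl).sub (by fun_prop)) ?_ (fun l hl => ?_)
      (fun l hl t ht => ⟨Mb n (gm n) r l t - vv n r ^ 2, ?_, ?_⟩)
    · have hn : 0 < n := by omega
      change Rb n (gm n) r 0 0 - vv n r ^ 2 * (r 0 + 0) = 0
      rw [Rb_zero hm hp hn, Lb.spR_zero hm hp hr.1 (Nat.zero_le n) hr.1, hr.1]
      ring
    · rw [Rb_last hm hp (by omega), Rb_zero hm hp hl]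
      ring
    · have h1 := Rb_deriv hm hp hl ht
      have h2 : HasDerivAt (fun t => vv n r ^ 2 * (r l + t)) (vv n r ^ 2) t := by
        simpa using ((hasDerivAt_id t).const_add (r l)).const_mul (vv n r ^ 2)
      exact h1.sub h2
    · simpa using hM l hl t (Ioo_subset_Icc_self ht)
  -- the pieces
  set G := Gb n (gm n) r l t with hG
  set P3 := Bt n (gm n) r l t (fun x => iteratedDeriv 3 G x ^ 2) with hP3
  set Q := Bt n (gm n) r l t (fun x => iteratedDeriv 2 G x ^ 3) with hQ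
  have c1 : Sp7Cb (iteratedDeriv 1 G) := blk2_cb ⟨K, hAK.adm⟩ 0
  have c2 : Sp7Cb (iteratedDeriv 2 G) := blk2_cb ⟨K, hAK.adm⟩ 1
  have c3 : Sp7Cb (iteratedDeriv 3 G) := blk2_cb ⟨K, hAK.adm⟩ 2
  have hmn : ∀ x : ℝ, 0 ≤ min 1 |x| := fun x => le_min zero_le_one (abs_nonneg x)
  have a1 : ∀ x, |iteratedDeriv 1 G x| ≤ min 1 |x| := fun x => by
    refine le_min (vari_abs1 hAK.adm x) ?_
    have hd : ∀ y, HasDerivAt (iteratedDeriv 1 G) (iteratedDeriv 2 G y) y := fun y =>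
      GoodX.good_hd hAK.adm.smb.smooth 1 y
    have h10 : iteratedDeriv 1 G 0 = 0 := GoodX.good_odd hAK.adm.even (by decide)
    have := tay_lip hd (B := 1) (x := x) fun z _ => by
      rw [abs_of_pos (vari_d2_01 hAK.adm z).1]
      exact (vari_d2_01 hAK.adm z).2
    rwa [h10, sub_zero, one_mul] at this
  have hM1e : M1b n (gm n) r l t = P3 - 2 * gm n (l + 1) * Q := by
    have e : (fun x => iteratedDeriv 3 G x ^ 2 - 2 * gm n (l + 1) * iteratedDeriv 2 G x ^ 3) =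
        fun x => iteratedDeriv 3 G x ^ 2 + -(2 * gm n (l + 1)) * iteratedDeriv 2 G x ^ 3 := by
      funext x
      ring
    rw [M1b, ← hG, e, kv_add hm hp hl ht (sp7_cb_sq c3) (nest_cb_smul _ (nest_cb_pow c2 3)),
      kv_smul]
    ring
  have e1 : |iteratedDeriv 2 G 0 ^ 2 * P3 - iteratedDeriv 4 G 0 ^ 2 * Rb n (gm n) r l t| ≤
      (C1 * (2 * K)) * C2 * ((r l + t) * √(r l + t)) := by
    have h1 := kv_dev hm hp hl ht (c := 0)
      (sp7_cb_add (nest_cb_smul (iteratedDeriv 2 G 0 ^ 2) (sp7_cb_sq c3))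
        (nest_cb_smul (-(iteratedDeriv 4 G 0 ^ 2)) (sp7_cb_sq c1)))
      (nest_cb_smul (C1 * (2 * K)) (kv_min_cb 3)) (fun x => by
        have q1 := (hT x).2.2
        have q2 : |iteratedDeriv 3 G x * iteratedDeriv 2 G 0 + iteratedDeriv 4 G 0 *
            iteratedDeriv 1 G x| ≤ 2 * K * min 1 |x| := by
          refine (abs_add_le _ _).trans ?_
          rw [abs_mul, abs_mul]
          have w1 : |iteratedDeriv 3 G x| ≤ K * min 1 |x| :=
            (hAK.k3 x).trans (mul_le_mul_of_nonneg_left (a1 x) (by linarith))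
          have w2 : |iteratedDeriv 2 G 0| ≤ 1 := by
            rw [abs_of_pos (vari_d2_01 hAK.adm 0).1]
            exact (vari_d2_01 hAK.adm 0).2
          have w3 : |iteratedDeriv 4 G 0| ≤ K :=
            (hAK.k4 0).trans (mul_le_of_le_one_right (by linarith) (vari_d2_01 hAK.adm 0).2)
          have w4 := mul_le_mul w1 w2 (abs_nonneg _)
            (mul_nonneg (show 0 ≤ K by linarith) (hmn x))
          have w5 := mul_le_mul w3 (a1 x) (abs_nonneg _) (by linarith)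
          linarith
        have e : iteratedDeriv 2 G 0 ^ 2 * iteratedDeriv 3 G x ^ 2 +
            -(iteratedDeriv 4 G 0 ^ 2) * iteratedDeriv 1 G x ^ 2 - 0 =
            (iteratedDeriv 3 G x * iteratedDeriv 2 G 0 - iteratedDeriv 4 G 0 *
              iteratedDeriv 1 G x) * (iteratedDeriv 3 G x * iteratedDeriv 2 G 0 +
              iteratedDeriv 4 G 0 * iteratedDeriv 1 G x) := by ring
        change |iteratedDeriv 2 G 0 ^ 2 * iteratedDeriv 3 G x ^ 2 +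
            -(iteratedDeriv 4 G 0 ^ 2) * iteratedDeriv 1 G x ^ 2 - 0| ≤ _
        rw [e, abs_mul]
        calc _ ≤ (C1 * (min 1 |x|) ^ 2) * (2 * K * min 1 |x|) :=
              mul_le_mul q1 q2 (abs_nonneg _)
                (mul_nonneg (by linarith) (pow_nonneg (hmn x) 2))
          _ = C1 * (2 * K) * (min 1 |x|) ^ 3 := by ring)
    rw [kv_add hm hp hl ht (nest_cb_smul (iteratedDeriv 2 G 0 ^ 2) (sp7_cb_sq c3))
        (nest_cb_smul (-(iteratedDeriv 4 G 0 ^ 2)) (sp7_cb_sq c1)), kv_smul, kv_smul,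
      kv_smul, sub_zero] at h1
    have h2 : Bt n (gm n) r l t (fun x => iteratedDeriv 1 G x ^ 2) = Rb n (gm n) r l t := rfl
    rw [h2, neg_mul, ← sub_eq_add_neg] at h1
    refine h1.trans ?_
    calc C1 * (2 * K) * Bt n (gm n) r l t (fun x => min 1 |x| ^ 3) ≤
        C1 * (2 * K) * (C2 * ((r l + t) * √(r l + t))) :=
          mul_le_mul_of_nonneg_left m3 (by positivity)
      _ = _ := by ring
  have e2 : |Q - iteratedDeriv 2 G 0 ^ 3| ≤ 3 * (C1 * C2) * (r l + t) := by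
    have h1 := kv_dev hm hp hl ht (c := iteratedDeriv 2 G 0 ^ 3) (nest_cb_pow c2 3)
      (nest_cb_smul (3 * C1) (kv_min_cb 2)) (fun x => by
        have q1 := (hT x).1
        have y1 := vari_d2_01 hAK.adm x
        have y2 := vari_d2_01 hAK.adm 0
        have e : iteratedDeriv 2 G x ^ 3 - iteratedDeriv 2 G 0 ^ 3 =
            (iteratedDeriv 2 G x - iteratedDeriv 2 G 0) * (iteratedDeriv 2 G x ^ 2 +
              iteratedDeriv 2 G x * iteratedDeriv 2 G 0 + iteratedDeriv 2 G 0 ^ 2) := by ring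
        have y3 : 0 ≤ iteratedDeriv 2 G x ^ 2 +
              iteratedDeriv 2 G x * iteratedDeriv 2 G 0 + iteratedDeriv 2 G 0 ^ 2 := by
          have := mul_nonneg y1.1.le y2.1.le
          positivity
        have y4 : iteratedDeriv 2 G x ^ 2 +
              iteratedDeriv 2 G x * iteratedDeriv 2 G 0 + iteratedDeriv 2 G 0 ^ 2 ≤ 3 := by
          have z1 := pow_le_one₀ (n := 2) y1.1.le y1.2
          have z2 := pow_le_one₀ (n := 2) y2.1.le y2.2
          have z3 := mul_le_one₀ y1.2 y2.1.le y2.2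
          linarith
        change |iteratedDeriv 2 G x ^ 3 - iteratedDeriv 2 G 0 ^ 3| ≤ _
        rw [e, abs_mul, abs_of_nonneg y3]
        calc _ ≤ (C1 * (min 1 |x|) ^ 2) * 3 := mul_le_mul q1 y4 y3
                (mul_nonneg (by linarith) (pow_nonneg (hmn x) 2))
          _ = 3 * C1 * (min 1 |x|) ^ 2 := by ring)
    rw [kv_smul] at h1
    refine h1.trans ?_
    calc 3 * C1 * Bt n (gm n) r l t (fun x => min 1 |x| ^ 2) ≤ 3 * C1 * (C2 * (r l + t)) :=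
          mul_le_mul_of_nonneg_left m2 (by positivity)
      _ = _ := by ring
  have e3 : |P3| ≤ K ^ 2 * (r l + t) := by
    have h1 := blk2_mono hm hp hl ht (sp7_cb_const 0) (sp7_cb_sq c3) fun x => sq_nonneg _
    rw [blk2_const hm hp hl ht] at h1
    have h2 := blk2_mono hm hp hl ht (sp7_cb_sq c3) (nest_cb_smul (K ^ 2) (sp7_cb_sq c1))
      fun x => by
        have := pow_le_pow_left₀ (abs_nonneg _) (hAK.k3 x) 2
        rwa [mul_pow, sq_abs, sq_abs] at this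
    rw [kv_smul] at h2
    have h3 : Bt n (gm n) r l t (fun x => iteratedDeriv 1 G x ^ 2) = Rb n (gm n) r l t := rfl
    rw [h3] at h2
    have h4 := mul_le_mul_of_nonneg_left hR (sq_nonneg K)
    rw [hP3, abs_of_nonneg h1]
    exact h2.trans h4
  have e3' : 0 ≤ Rb n (gm n) r l t := by
    have h1 := blk2_mono hm hp hl ht (sp7_cb_const 0) (sp7_cb_sq c1) fun x => sq_nonneg _
    rw [blk2_const hm hp hl ht] at h1
    exact h1
  have hw : √(r l + t) ≤ √X := Real.sqrt_le_sqrt hσX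
  have hS1 : (r l + t) * √(r l + t) ≤ X * √X :=
    mul_le_mul hσX hw (Real.sqrt_nonneg _) hX.le
  have hS2 : X * X ≤ X * √X := by
    refine mul_le_mul_of_nonneg_left ?_ hX.le
    have h1 := Real.sqrt_nonneg X
    have h2 := Real.sq_sqrt hX.le
    have h3 : √X ≤ 1 := Real.sqrt_le_one.2 hX1
    nlinarith
  have w3 : |iteratedDeriv 4 G 0| ≤ K :=
    (hAK.k4 0).trans (mul_le_of_le_one_right (by linarith) (vari_d2_01 hAK.adm 0).2)
  rw [hM1e]
  refine (m1b_alg (c := c) (K := K) (K' := K') (C1 := C1) (C2 := C2) (C3 := C3) (C4 := C4)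
    (Ct := C1 * (2 * K)) (X := X) (σ := r l + t) (w := √(r l + t)) (S := X * √X)
    (m := gm n (l + 1)) (P3 := P3) (R := Rb n (gm n) r l t) (Q := Q) (v := vv n r)
    (v' := iteratedDeriv 2 G 0) (k := kk n r) (k4 := iteratedDeriv 4 G 0) hc hK hK' (by linarith)
    (by linarith) (by positivity) (by positivity) hX.le hσ hσX (Real.sqrt_nonneg _) hS1 hS2
    g0.le hgX v1 v2 v3 v4 (vari_d2_01 hAK.adm 0).1.le (vari_d2_01 hAK.adm 0).2 w3 e1 e2 e3 e3'
    hR (hR2 l hl t ht) k1 k2).trans ?_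
  exact mul_le_mul_of_nonneg_right (le_max_left _ _) (by positivity)

end Vale.Agent.P146.Sh
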