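import Mathlib

/-!
# P146, Sh: real analysis for the brick `nwg`
-/

open MeasureTheory Set

namespace Vale.Agent.P146.Sh

lemma nwg_max_int {R t : ℝ} {g : ℝ → ℝ} (hg : Continuous g) (h0 : 0 ≤ t) (h1 : t ≤ R) :
    ∫ u in (0:ℝ)..R, max u t * g u = t * (∫ u in (0:ℝ)..t, g u) + ∫ u in t..R, u * g u := by
  have hc : Continuous fun u : ℝ => max u t * g u := by fun_prop
  rw [← intervalIntegral.integral_add_adjacent_intervals (hc.intervalIntegrable 0 t)
    (hc.intervalIntegrable t R), ← intervalIntegral.integral_const_mul]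
  congr 1
  · refine intervalIntegral.integral_congr fun u hu => ?_
    rw [uIcc_of_le h0] at hu
    rw [max_eq_right hu.2]
  · refine intervalIntegral.integral_congr fun u hu => ?_
    rw [uIcc_of_le h1] at hu
    rw [max_eq_left hu.1]

lemma nwg_one {R p p' B : ℝ} {g : ℝ → ℝ} (hg : Continuous g) (h0 : 0 ≤ p) (h1 : p ≤ R)
    (h0' : 0 ≤ p') (h1' : p' ≤ R) (hB : ∀ u ∈ Icc (0:ℝ) R, |g u| ≤ B) :
    (p - p') * (∫ u in (0:ℝ)..p, g u)
      ≤ (∫ u in (0:ℝ)..R, (max u p - max u p') * g u) + B * (p' - p) ^ 2 := by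
  have hc : ∀ t : ℝ, Continuous fun u : ℝ => max u t * g u := fun t => by fun_prop
  have e1 : ∫ u in (0:ℝ)..R, (max u p - max u p') * g u
      = (∫ u in (0:ℝ)..R, max u p * g u) - ∫ u in (0:ℝ)..R, max u p' * g u := by
    rw [← intervalIntegral.integral_sub ((hc p).intervalIntegrable _ _)
      ((hc p').intervalIntegrable _ _)]
    refine intervalIntegral.integral_congr fun u _ => ?_
    ring
  have hug : Continuous fun u : ℝ => u * g u := by fun_prop
  have e2 : (∫ u in p..R, u * g u) - ∫ u in p'..R, u * g u = - ∫ u in p'..p, u * g u := by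
    rw [← intervalIntegral.integral_add_adjacent_intervals (hug.intervalIntegrable p' p)
      (hug.intervalIntegrable p R)]
    ring
  have e3 : (∫ u in (0:ℝ)..p, g u) = (∫ u in (0:ℝ)..p', g u) + ∫ u in p'..p, g u :=
    (intervalIntegral.integral_add_adjacent_intervals (hg.intervalIntegrable 0 p')
      (hg.intervalIntegrable p' p)).symm
  have e4 : ∫ u in p'..p, (p' - u) * g u = p' * (∫ u in p'..p, g u) - ∫ u in p'..p, u * g u := by
    rw [← intervalIntegral.integral_const_mul,
      ← intervalIntegral.integral_sub ((hg.const_mul p').intervalIntegrable _ _)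
      (hug.intervalIntegrable _ _)]
    refine intervalIntegral.integral_congr fun u _ => ?_
    ring
  have hbd : |∫ u in p'..p, (p' - u) * g u| ≤ (B * |p - p'|) * |p - p'| := by
    have := intervalIntegral.norm_integral_le_of_norm_le_const (a := p') (b := p)
      (f := fun u => (p' - u) * g u) (C := B * |p - p'|) (fun u hu => ?_)
    · simpa using this
    · have hu' : u ∈ uIcc p' p := uIoc_subset_uIcc hu
      have huI : u ∈ Icc (0:ℝ) R := by
        rcases le_total p' p with h | h
        · rw [uIcc_of_le h] at hu'; exact ⟨h0'.trans hu'.1, hu'.2.trans h1⟩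
        · rw [uIcc_of_ge h] at hu'; exact ⟨h0.trans hu'.1, hu'.2.trans h1'⟩
      have h2 : |p' - u| ≤ |p - p'| := by
        rcases le_total p' p with h | h
        · rw [uIcc_of_le h] at hu'
          rw [abs_of_nonpos (by linarith [hu'.1]), abs_of_nonneg (by linarith)]
          linarith [hu'.2]
        · rw [uIcc_of_ge h] at hu'
          rw [abs_of_nonneg (by linarith [hu'.2]), abs_of_nonpos (by linarith)]
          linarith [hu'.1]
      rw [Real.norm_eq_abs, abs_mul, mul_comm B]
      exact mul_le_mul h2 (hB u huI) (abs_nonneg _) (abs_nonneg _)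
  have hbd2 : (B * |p - p'|) * |p - p'| = B * (p' - p) ^ 2 := by
    rw [mul_assoc, ← pow_two, sq_abs]; ring
  rw [hbd2] at hbd
  have hlow := (abs_le.mp hbd).1
  rw [e1, nwg_max_int hg h0 h1, nwg_max_int hg h0' h1']
  have e5 := e4
  nlinarith [e2, e3, e4, hlow]

end Vale.Agent.P146.Sh
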