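import Vale.Agent.P146.Sh.ShDefs
import Vale.Agent.P146.Sh.ShNwgCore

/-!
# P146, Sh: the brick `nwg`
-/

open MeasureTheory Set

namespace Vale.Agent.P146.Sh

lemma nwg_Aw_cont (n L : ℕ) (R : ℝ) (ρ : ℕ → ℝ) : Continuous (Aw n L R ρ) := by
  unfold Aw
  fun_prop

theorem nwg {n L : ℕ} {R v a B : ℝ} {ρ ρ' : ℕ → ℝ} (hR : 0 ≤ R) (hv : 0 ≤ v) (ha : 0 ≤ a)
    (h0 : ∀ l < L, 0 ≤ ρ l ∧ ρ l ≤ R) (h0' : ∀ l < L, 0 ≤ ρ' l ∧ ρ' l ≤ R)
    (hB : (L : ℝ) / ((n : ℝ) + 1) * R + a * R ^ 2 ≤ B) :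
    -(v ^ 3 * (1 / ((n : ℝ) + 1) * ∑ l ∈ Finset.range L, (ρ' l - ρ l) *
      ∫ u in (0 : ℝ)..(ρ l), (Aw n L R ρ u - a * (R ^ 2 - u ^ 2)))) ≤
      Nw n L R v a ρ' - Nw n L R v a ρ +
        v ^ 3 * B * (1 / ((n : ℝ) + 1) * ∑ l ∈ Finset.range L, (ρ' l - ρ l) ^ 2) := by
  set δ : ℝ := 1 / ((n : ℝ) + 1) with hδ
  have hδ0 : 0 < δ := by positivity
  set g : ℝ → ℝ := fun u => Aw n L R ρ u - a * (R ^ 2 - u ^ 2) with hg
  set g' : ℝ → ℝ := fun u => Aw n L R ρ' u - a * (R ^ 2 - u ^ 2) with hg'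
  have hgc : Continuous g := by
    have := nwg_Aw_cont n L R ρ
    fun_prop
  have hgc' : Continuous g' := by
    have := nwg_Aw_cont n L R ρ'
    fun_prop
  have hgB : ∀ u ∈ Icc (0:ℝ) R, |g u| ≤ B := by
    intro u hu
    have hA0 : 0 ≤ Aw n L R ρ u := by
      unfold Aw
      refine Finset.sum_nonneg fun j hj => ?_
      have := h0 j (Finset.mem_range.mp hj)
      have h2 : max u (ρ j) ≤ R := max_le hu.2 this.2
      exact mul_nonneg hδ0.le (by linarith)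
    have hA1 : Aw n L R ρ u ≤ (L : ℝ) / ((n : ℝ) + 1) * R := by
      unfold Aw
      calc ∑ j ∈ Finset.range L, 1 / ((n : ℝ) + 1) * (R - max u (ρ j))
          ≤ ∑ _j ∈ Finset.range L, δ * R := by
            refine Finset.sum_le_sum fun j hj => ?_
            have h2 : 0 ≤ max u (ρ j) := le_max_of_le_left hu.1
            exact mul_le_mul_of_nonneg_left (by linarith) hδ0.le
        _ = (L : ℝ) / ((n : ℝ) + 1) * R := by
            rw [Finset.sum_const, Finset.card_range, nsmul_eq_mul, hδ]; ring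
    have hu2 : u ^ 2 ≤ R ^ 2 := pow_le_pow_left₀ hu.1 hu.2 2
    have h3 : 0 ≤ a * (R ^ 2 - u ^ 2) := mul_nonneg ha (by linarith)
    have h4 : a * (R ^ 2 - u ^ 2) ≤ a * R ^ 2 := mul_le_mul_of_nonneg_left (by nlinarith [sq_nonneg u]) ha
    have h5 : 0 ≤ (L : ℝ) / ((n : ℝ) + 1) * R := by positivity
    have h6 : 0 ≤ a * R ^ 2 := by positivity
    simp only [hg]
    rw [abs_le]
    constructor <;> linarith
  -- step 1
  have h1 : ∫ u in (0:ℝ)..R, (g u ^ 2 + 2 * ((g' u - g u) * g u)) ≤ ∫ u in (0:ℝ)..R, g' u ^ 2 := by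
    apply intervalIntegral.integral_mono_on hR
    · exact Continuous.intervalIntegrable (by fun_prop) _ _
    · exact Continuous.intervalIntegrable (by fun_prop) _ _
    · intro u _
      nlinarith [sq_nonneg (g' u - g u)]
  have h2 : ∫ u in (0:ℝ)..R, (g u ^ 2 + 2 * ((g' u - g u) * g u))
      = (∫ u in (0:ℝ)..R, g u ^ 2) + 2 * ∫ u in (0:ℝ)..R, (g' u - g u) * g u := by
    rw [intervalIntegral.integral_add (Continuous.intervalIntegrable (by fun_prop) _ _)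
      (Continuous.intervalIntegrable (by fun_prop) _ _), intervalIntegral.integral_const_mul]
  -- step 2
  have h3 : ∀ u, (g' u - g u) * g u
      = ∑ j ∈ Finset.range L, δ * ((max u (ρ j) - max u (ρ' j)) * g u) := by
    intro u
    have : g' u - g u = ∑ j ∈ Finset.range L, δ * (max u (ρ j) - max u (ρ' j)) := by
      simp only [hg, hg', Aw]
      rw [sub_sub_sub_cancel_right, ← Finset.sum_sub_distrib]
      refine Finset.sum_congr rfl fun j _ => ?_
      ring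
    rw [this, Finset.sum_mul]
    refine Finset.sum_congr rfl fun j _ => ?_
    ring
  have h4 : ∫ u in (0:ℝ)..R, (g' u - g u) * g u
      = ∑ j ∈ Finset.range L, δ * ∫ u in (0:ℝ)..R, (max u (ρ j) - max u (ρ' j)) * g u := by
    simp only [h3]
    rw [intervalIntegral.integral_finsetSum]
    · refine Finset.sum_congr rfl fun j _ => ?_
      rw [intervalIntegral.integral_const_mul]
    · intro j _
      exact Continuous.intervalIntegrable (by fun_prop) _ _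
  -- step 3
  have h5 : -(∑ l ∈ Finset.range L, (ρ' l - ρ l) * ∫ u in (0 : ℝ)..(ρ l), g u)
      ≤ (∑ j ∈ Finset.range L, ∫ u in (0:ℝ)..R, (max u (ρ j) - max u (ρ' j)) * g u)
        + B * ∑ l ∈ Finset.range L, (ρ' l - ρ l) ^ 2 := by
    rw [← Finset.sum_neg_distrib, Finset.mul_sum, ← Finset.sum_add_distrib]
    refine Finset.sum_le_sum fun l hl => ?_
    have hl' := Finset.mem_range.mp hl
    have := nwg_one hgc (h0 l hl').1 (h0 l hl').2 (h0' l hl').1 (h0' l hl').2 hgB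
    linarith
  have h6 : Nw n L R v a ρ' - Nw n L R v a ρ
      = v ^ 3 / 2 * ((∫ u in (0:ℝ)..R, g' u ^ 2) - ∫ u in (0:ℝ)..R, g u ^ 2) := by
    unfold Nw
    simp only [hg, hg']
    ring
  rw [h6]
  have hv3 : 0 ≤ v ^ 3 := by positivity
  have h7 : 2 * (δ * ∑ j ∈ Finset.range L, ∫ u in (0:ℝ)..R, (max u (ρ j) - max u (ρ' j)) * g u)
      ≤ (∫ u in (0:ℝ)..R, g' u ^ 2) - ∫ u in (0:ℝ)..R, g u ^ 2 := by
    rw [Finset.mul_sum, ← h4]
    linarith
  have h8 := mul_le_mul_of_nonneg_left h5 (mul_nonneg hv3 hδ0.le)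
  have h9 := mul_le_mul_of_nonneg_left h7 hv3
  calc -(v ^ 3 * (δ * ∑ l ∈ Finset.range L, (ρ' l - ρ l) * ∫ u in (0 : ℝ)..(ρ l), g u))
      = v ^ 3 * δ * -(∑ l ∈ Finset.range L, (ρ' l - ρ l) * ∫ u in (0 : ℝ)..(ρ l), g u) := by ring
    _ ≤ _ := h8
    _ ≤ _ := by linarith

end Vale.Agent.P146.Sh
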