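import Vale.Agent.P146.Sh.ShNwg
import Vale.Agent.P146.Sh.ShDefs

/-!
# P146, Sh: one step along a segment of paths with the same sum of squares (`step` with the
statement `expd` as a hypothesis)
-/

open MeasureTheory ProbabilityTheory Filter Topology Set

namespace Vale.Agent.P146.Sh

open Vale.Agent.P157.Par
open Vale.Agent.P146.Gap
open Vale.Agent.P146.Pw2
open Vale.Agent.P146.Lb
open Vale.Agent.P367.Cl

/-- The algebra of one step. -/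
lemma step_alg {L : ℕ} {δ μ w E : ℝ} (hδ : 0 ≤ δ) {ρ ρ' S J : ℕ → ℝ}
    (hs : ∑ l ∈ Finset.range L, ρ' l ^ 2 = ∑ l ∈ Finset.range L, ρ l ^ 2)
    (hS : ∀ l < L, |S l - (μ * ρ l + 2 * w * J l)| ≤ E) :
    -(1 / 2 * (δ * ∑ l ∈ Finset.range L, S l * (ρ' l - ρ l))) ≤
      μ / 4 * (δ * ∑ l ∈ Finset.range L, (ρ' l - ρ l) ^ 2) +
      -(w * (δ * ∑ l ∈ Finset.range L, (ρ' l - ρ l) * J l)) +
      E / 2 * (δ * ∑ l ∈ Finset.range L, |ρ' l - ρ l|) := by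
  have h1 : ∑ l ∈ Finset.range L, ρ l * (ρ' l - ρ l) =
      -(1 / 2) * ∑ l ∈ Finset.range L, (ρ' l - ρ l) ^ 2 := by
    have e : ∑ l ∈ Finset.range L, (ρ' l - ρ l) ^ 2 =
        ∑ l ∈ Finset.range L, ρ' l ^ 2 - ∑ l ∈ Finset.range L, ρ l ^ 2
          - 2 * ∑ l ∈ Finset.range L, ρ l * (ρ' l - ρ l) := by
      rw [Finset.mul_sum, ← Finset.sum_sub_distrib, ← Finset.sum_sub_distrib]
      exact Finset.sum_congr rfl fun l _ => by ring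
    rw [e, hs]
    ring
  have h2 : -(∑ l ∈ Finset.range L, S l * (ρ' l - ρ l)) ≤
      -(μ * ∑ l ∈ Finset.range L, ρ l * (ρ' l - ρ l)) +
      -(2 * w * ∑ l ∈ Finset.range L, (ρ' l - ρ l) * J l) +
      E * ∑ l ∈ Finset.range L, |ρ' l - ρ l| := by
    rw [Finset.mul_sum, Finset.mul_sum, Finset.mul_sum, ← Finset.sum_neg_distrib,
      ← Finset.sum_neg_distrib, ← Finset.sum_neg_distrib, ← Finset.sum_add_distrib,
      ← Finset.sum_add_distrib]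
    refine Finset.sum_le_sum fun l hl => ?_
    have h3 := hS l (Finset.mem_range.1 hl)
    have h4 : -((S l - (μ * ρ l + 2 * w * J l)) * (ρ' l - ρ l)) ≤ E * |ρ' l - ρ l| := by
      calc -((S l - (μ * ρ l + 2 * w * J l)) * (ρ' l - ρ l))
          ≤ |(S l - (μ * ρ l + 2 * w * J l)) * (ρ' l - ρ l)| := neg_le_abs _
        _ = |S l - (μ * ρ l + 2 * w * J l)| * |ρ' l - ρ l| := abs_mul _ _
        _ ≤ E * |ρ' l - ρ l| := mul_le_mul_of_nonneg_right h3 (abs_nonneg _)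
    linarith
  rw [h1] at h2
  have h5 := mul_le_mul_of_nonneg_left h2 hδ
  linarith

theorem step_of {b : ℝ} (D : ℝ)
    (hex : ∃ C : ℝ, 1 ≤ C ∧ ∀ (n L : ℕ) (R X v a : ℝ) (ρ : ℕ → ℝ),
      Fam b n L R ρ ρ → 1 ≤ L → L ≤ n → 0 < X → X ≤ 1 → R ≤ X → gm n L ≤ X → 0 ≤ v → v ≤ 1 →
      |v - vv n ρ| ≤ D * √X → |4 * v ^ 3 * a - kk n ρ ^ 2| ≤ D * √X →
      ∃ μ : ℝ, 0 ≤ μ ∧ μ ≤ 1 ∧ ∀ l < L, |spR n (gm n) ρ l - (μ * ρ l + 2 * v ^ 3 *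
        ∫ u in (0 : ℝ)..(ρ l), (Aw n L R ρ u - a * (R ^ 2 - u ^ 2)))| ≤ C * (X ^ 3 * √X)) :
    ∃ C : ℝ, 1 ≤ C ∧ ∀ (n L : ℕ) (R X v a : ℝ)
    (ρ ρ' : ℕ → ℝ), Fam b n L R ρ ρ → Fam b n L R ρ ρ' → 1 ≤ L → L ≤ n → 0 < X → X ≤ 1 → R ≤ X →
    gm n L ≤ X → 0 ≤ v → v ≤ 1 → 0 ≤ a → a ≤ D → |v - vv n ρ| ≤ D * √X →
    |4 * v ^ 3 * a - kk n ρ ^ 2| ≤ D * √X →
    ∑ l ∈ Finset.range L, ρ' l ^ 2 = ∑ l ∈ Finset.range L, ρ l ^ 2 →
    SKr b n (gm n) ρ' ≤ SKr b n (gm n) ρ + (Nw n L R v a ρ' - Nw n L R v a ρ) +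
      C * (1 / ((n : ℝ) + 1) * ∑ l ∈ Finset.range L, (ρ' l - ρ l) ^ 2) +
      C * (X ^ 3 * √X) * (1 / ((n : ℝ) + 1) * ∑ l ∈ Finset.range L, |ρ' l - ρ l|) := by
  obtain ⟨C₁, hC₁, hexpd⟩ := hex
  refine ⟨C₁ + |D| + 2, by linarith [abs_nonneg D], ?_⟩
  intro n L R X v a ρ ρ' hF hF' hL hLn hX hX1 hRX hgX hv hv1 ha haD hvv hkk hsum
  obtain ⟨μ, hμ0, hμ1, hS⟩ := hexpd n L R X v a ρ hF hL hLn hX hX1 hRX hgX hv hv1 hvv hkk
  have hn : (0 : ℝ) < (n : ℝ) + 1 := by positivity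
  have hδ : (0 : ℝ) ≤ 1 / ((n : ℝ) + 1) := by positivity
  have hρ0 : ∀ l < L, 0 ≤ ρ l ∧ ρ l ≤ R := fun l hl =>
    ⟨hF.path.2.1.nonneg l (by omega), hF.le l hl⟩
  have hρ0' : ∀ l < L, 0 ≤ ρ' l ∧ ρ' l ≤ R := fun l hl =>
    ⟨hF'.path.2.1.nonneg l (by omega), hF'.le l hl⟩
  have hR : 0 ≤ R := (hρ0 0 (by omega)).1.trans (hρ0 0 (by omega)).2
  have hB : (L : ℝ) / ((n : ℝ) + 1) * R + a * R ^ 2 ≤ 1 + |D| := by
    have h1 : (L : ℝ) / ((n : ℝ) + 1) ≤ 1 := by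
      have : gm n L = (L : ℝ) / ((n : ℝ) + 1) := rfl
      rw [← this]
      exact hgX.trans hX1
    have h2 : (0 : ℝ) ≤ (L : ℝ) / ((n : ℝ) + 1) := by positivity
    have h3 : R ≤ 1 := hRX.trans hX1
    have h4 : R ^ 2 ≤ 1 := pow_le_one₀ hR h3
    have h5 : a ≤ |D| := haD.trans (le_abs_self D)
    have h6 : a * R ^ 2 ≤ |D| := (mul_le_of_le_one_right ha h4).trans h5
    have h7 : (L : ℝ) / ((n : ℝ) + 1) * R ≤ 1 := mul_le_one₀ h1 hR h3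
    linarith
  have hN := nwg (n := n) (v := v) hR hv ha hρ0 hρ0' hB
  have hT := tangent_path (gm_exponents n) hF.path.2.1 hF'.path.2.1
  have htop : ∀ l, L ≤ l → ρ' l = ρ l := fun l hl => hF'.top l hl
  -- the sums over all levels
  have hsplit : ∀ f : ℕ → ℝ, (∀ l, L ≤ l → f l = 0) →
      ∑ l ∈ Finset.range (n + 1), f l = ∑ l ∈ Finset.range L, f l := by
    intro f hf
    symm
    apply Finset.sum_subset (Finset.range_mono (by omega))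
    intro l _ hl
    exact hf l (by simpa using hl)
  have hsp : ∑ l ∈ Finset.range (n + 1), (gm n (l + 1) - gm n l) * spR n (gm n) ρ l *
      (ρ' l - ρ l) = 1 / ((n : ℝ) + 1) * ∑ l ∈ Finset.range L, spR n (gm n) ρ l * (ρ' l - ρ l) := by
    rw [hsplit _ (fun l hl => by rw [htop l hl]; ring), Finset.mul_sum]
    exact Finset.sum_congr rfl fun l _ => by rw [gm_sub]; ring
  have hq : ∑ l ∈ Finset.range (n + 1), (gm n (l + 1) - gm n l) * ρ' l ^ 2 =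
      ∑ l ∈ Finset.range (n + 1), (gm n (l + 1) - gm n l) * ρ l ^ 2 := by
    have h1 : ∑ l ∈ Finset.range (n + 1), (gm n (l + 1) - gm n l) * (ρ' l ^ 2 - ρ l ^ 2) = 0 := by
      rw [hsplit _ (fun l hl => by rw [htop l hl]; ring)]
      have h2 : ∑ l ∈ Finset.range L, (gm n (l + 1) - gm n l) * (ρ' l ^ 2 - ρ l ^ 2) =
          1 / ((n : ℝ) + 1) * (∑ l ∈ Finset.range L, ρ' l ^ 2 - ∑ l ∈ Finset.range L, ρ l ^ 2) := by
        rw [← Finset.sum_sub_distrib, Finset.mul_sum]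
        exact Finset.sum_congr rfl fun l _ => by rw [gm_sub]
      rw [h2, hsum]
      ring
    have h3 : ∑ l ∈ Finset.range (n + 1), (gm n (l + 1) - gm n l) * (ρ' l ^ 2 - ρ l ^ 2) =
        ∑ l ∈ Finset.range (n + 1), (gm n (l + 1) - gm n l) * ρ' l ^ 2 -
        ∑ l ∈ Finset.range (n + 1), (gm n (l + 1) - gm n l) * ρ l ^ 2 := by
      rw [← Finset.sum_sub_distrib]
      exact Finset.sum_congr rfl fun l _ => by ring
    linarith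
  have hA := step_alg (w := v ^ 3) hδ hsum hS
  rw [hsp] at hT
  have hSK : SKr b n (gm n) ρ' - SKr b n (gm n) ρ =
      spinPart n (gm n) ρ' - spinPart n (gm n) ρ := by
    unfold SKr
    rw [hq]
    ring
  set Q : ℝ := 1 / ((n : ℝ) + 1) * ∑ l ∈ Finset.range L, (ρ' l - ρ l) ^ 2 with hQ
  set P : ℝ := 1 / ((n : ℝ) + 1) * ∑ l ∈ Finset.range L, |ρ' l - ρ l| with hP
  have hQ0 : 0 ≤ Q := mul_nonneg hδ (Finset.sum_nonneg fun l _ => sq_nonneg _)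
  have hP0 : 0 ≤ P := mul_nonneg hδ (Finset.sum_nonneg fun l _ => abs_nonneg _)
  have hE0 : 0 ≤ X ^ 3 * √X := by positivity
  have hv3 : v ^ 3 ≤ 1 := pow_le_one₀ hv hv1
  have hv30 : 0 ≤ v ^ 3 := by positivity
  have hD0 := abs_nonneg D
  have i1 : μ / 4 * Q ≤ 1 * Q := mul_le_mul_of_nonneg_right (by linarith) hQ0
  have i2 : v ^ 3 * (1 + |D|) * Q ≤ (1 + |D|) * Q :=
    mul_le_mul_of_nonneg_right (mul_le_of_le_one_left (by linarith) hv3) hQ0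
  have i3 : C₁ * (X ^ 3 * √X) / 2 * P ≤ (C₁ + |D| + 2) * (X ^ 3 * √X) * P := by
    apply mul_le_mul_of_nonneg_right _ hP0
    rw [mul_div_right_comm]
    exact mul_le_mul_of_nonneg_right (by linarith) hE0
  have i4 : 0 ≤ C₁ * Q := mul_nonneg (by linarith) hQ0
  linarith [hT, hA, hN, hSK, i1, i2, i3, i4]

end Vale.Agent.P146.Sh
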