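import Vale.Agent.P146.Sh.ShSeg0
import Vale.Agent.P146.Sh.ShKvc
import Vale.Agent.P146.Sh.ShStep

/-!
# P146, Sh: the segment of squares between two paths with the same sum of squares
-/

open MeasureTheory ProbabilityTheory Filter Topology Set

namespace Vale.Agent.P146.Sh

open Vale.Agent.P157.Par
open Vale.Agent.P146.Gap
open Vale.Agent.P146.Pw2
open Vale.Agent.P146.Lb
open Vale.Agent.P367.Cl

theorem seg {b : ℝ} (hb : 0 < b) (D : ℝ) : ∃ C : ℝ, 1 ≤ C ∧ ∀ (n L : ℕ) (R X v a : ℝ)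
    (ρ ρ' : ℕ → ℝ), Fam b n L R ρ ρ → Fam b n L R ρ ρ' → 1 ≤ L → L ≤ n → 0 < X → X ≤ 1 → R ≤ X →
    gm n L ≤ X → 0 ≤ v → v ≤ 1 → 0 ≤ a → a ≤ D → |v - vv n ρ| ≤ D * √X →
    |4 * v ^ 3 * a - kk n ρ ^ 2| ≤ D * √X →
    ∑ l ∈ Finset.range L, ρ' l ^ 2 = ∑ l ∈ Finset.range L, ρ l ^ 2 →
    SKr b n (gm n) ρ' ≤ SKr b n (gm n) ρ + (Nw n L R v a ρ' - Nw n L R v a ρ) +
      C * (X ^ 3 * √X) * (1 / ((n : ℝ) + 1) * ∑ l ∈ Finset.range L, |ρ' l - ρ l|) :=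
  seg_of (kvc b) (vk_bd b) (fun D => step hb D) D

end Vale.Agent.P146.Sh
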