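import Vale.Agent.P146.Sh.ShDefs

/-!
# P146, Sh, ShSeg0: the segment of squares, `seg` with its inputs as hypotheses
-/

open MeasureTheory ProbabilityTheory Filter Topology Set

namespace Vale.Agent.P146.Sh

open Vale.Agent.P157.Par
open Vale.Agent.P146.Gap
open Vale.Agent.P146.Pw2
open Vale.Agent.P146.Lb
open Vale.Agent.P367.Cl

/-- The segment of squares between two paths. -/
noncomputable def segP (N L : ℕ) (ρ ρ' : ℕ → ℝ) (k l : ℕ) : ℝ :=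
  if l < L then √((1 - (k : ℝ) / N) * ρ l ^ 2 + (k : ℝ) / N * ρ' l ^ 2) else ρ l

section basic

variable {N L : ℕ} {ρ ρ' : ℕ → ℝ}

lemma segP_ge {k l : ℕ} (hl : L ≤ l) : segP N L ρ ρ' k l = ρ l := by
  unfold segP
  rw [if_neg (by omega)]

lemma segP_lt {k l : ℕ} (hl : l < L) : segP N L ρ ρ' k l =
    √((1 - (k : ℝ) / N) * ρ l ^ 2 + (k : ℝ) / N * ρ' l ^ 2) := by
  unfold segP
  rw [if_pos hl]

lemma segP_zero (h0 : ∀ l < L, 0 ≤ ρ l) : segP N L ρ ρ' 0 = ρ := by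
  funext l
  rcases lt_or_ge l L with hl | hl
  · rw [segP_lt hl]
    simp [Real.sqrt_sq (h0 l hl)]
  · exact segP_ge hl

lemma segP_last (hN : 0 < N) (h0 : ∀ l < L, 0 ≤ ρ' l) (ht : ∀ l, L ≤ l → ρ' l = ρ l) :
    segP N L ρ ρ' N = ρ' := by
  have hN' : (N : ℝ) ≠ 0 := by positivity
  funext l
  rcases lt_or_ge l L with hl | hl
  · rw [segP_lt hl, div_self hN']
    simp [Real.sqrt_sq (h0 l hl)]
  · rw [segP_ge hl, ht l hl]

lemma seg_wt (hN : 0 < N) {k : ℕ} (hk : k ≤ N) : 0 ≤ (k : ℝ) / N ∧ 0 ≤ 1 - (k : ℝ) / N := by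
  have hN' : (0 : ℝ) < N := by positivity
  refine ⟨by positivity, ?_⟩
  have : (k : ℝ) / N ≤ 1 := by
    rw [div_le_one hN']
    exact_mod_cast hk
  linarith

lemma segP_sq (hN : 0 < N) {k l : ℕ} (hk : k ≤ N) (hl : l < L) : segP N L ρ ρ' k l ^ 2 =
    (1 - (k : ℝ) / N) * ρ l ^ 2 + (k : ℝ) / N * ρ' l ^ 2 := by
  obtain ⟨h1, h2⟩ := seg_wt hN hk
  rw [segP_lt hl, Real.sq_sqrt (by positivity)]

lemma segP_nonneg {k l : ℕ} (hl : l < L) : 0 ≤ segP N L ρ ρ' k l := by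
  rw [segP_lt hl]
  exact Real.sqrt_nonneg _

lemma segP_le (hN : 0 < N) {k l : ℕ} (hk : k ≤ N) (hl : l < L) {R : ℝ} (h0 : 0 ≤ ρ l)
    (h0' : 0 ≤ ρ' l) (h1 : ρ l ≤ R) (h1' : ρ' l ≤ R) : segP N L ρ ρ' k l ≤ R := by
  obtain ⟨w1, w2⟩ := seg_wt hN hk
  have hR : 0 ≤ R := h0.trans h1
  rw [segP_lt hl]
  refine Real.sqrt_le_iff.2 ⟨hR, ?_⟩
  have e1 : ρ l ^ 2 ≤ R ^ 2 := pow_le_pow_left₀ h0 h1 2
  have e2 : ρ' l ^ 2 ≤ R ^ 2 := pow_le_pow_left₀ h0' h1' 2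
  nlinarith [mul_le_mul_of_nonneg_left e1 w2, mul_le_mul_of_nonneg_left e2 w1]

lemma segP_fam {b : ℝ} {n : ℕ} {R : ℝ} (hL : 1 ≤ L) (hLn : L ≤ n) (h : Fam b n L R ρ ρ)
    (h' : Fam b n L R ρ ρ') (hN : 0 < N) {k : ℕ} (hk : k ≤ N) (q : ℕ → ℝ)
    (hq : ∀ l, L ≤ l → ρ l = q l) : Fam b n L R q (segP N L ρ ρ' k) := by
  obtain ⟨p0, p1, p2⟩ := h.path
  obtain ⟨p0', p1', p2'⟩ := h'.path
  have nn : ∀ l ≤ n, 0 ≤ ρ l := fun l hl => by
    induction l with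
    | zero => exact p0.ge
    | succ l ih => exact (ih (by omega)).trans (p1.2 l (by omega))
  have nn' : ∀ l ≤ n, 0 ≤ ρ' l := fun l hl => by
    induction l with
    | zero => exact p0'.ge
    | succ l ih => exact (ih (by omega)).trans (p1'.2 l (by omega))
  obtain ⟨w1, w2⟩ := seg_wt hN hk
  have hle : ∀ l < L, segP N L ρ ρ' k l ≤ R := fun l hl =>
    segP_le hN hk hl (nn l (by omega)) (nn' l (by omega)) (h.le l hl) (h'.le l hl)
  refine ⟨⟨?_, ⟨?_, fun l hl => ?_⟩, ?_⟩, hle, ?_, fun l hl => ?_⟩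
  · rw [segP_lt (by omega), p0, p0']
    simp
  · rw [segP_lt (by omega)]
    exact Real.sqrt_nonneg _
  · rcases lt_or_ge l L with hl1 | hl1
    · rcases lt_or_ge (l + 1) L with hl2 | hl2
      · rw [segP_lt hl1, segP_lt hl2]
        refine Real.sqrt_le_sqrt ?_
        have e1 : ρ l ^ 2 ≤ ρ (l + 1) ^ 2 := pow_le_pow_left₀ (nn l (by omega)) (p1.2 l hl) 2
        have e2 : ρ' l ^ 2 ≤ ρ' (l + 1) ^ 2 := pow_le_pow_left₀ (nn' l (by omega)) (p1'.2 l hl) 2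
        exact add_le_add (mul_le_mul_of_nonneg_left e1 w2) (mul_le_mul_of_nonneg_left e2 w1)
      · have e : l + 1 = L := by omega
        rw [segP_ge hl2, e]
        exact (hle l hl1).trans h.ge
    · rw [segP_ge hl1, segP_ge (by omega)]
      exact p1.2 l hl
  · rw [segP_ge hLn]
    exact p2
  · rw [segP_ge le_rfl]
    exact h.ge
  · rw [segP_ge hl]
    exact hq l hl

lemma seg_sqrt_sub {a c : ℝ} (ha : 0 ≤ a) (hc : 0 ≤ c) : |√a - √c| ≤ √|a - c| := by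
  refine Real.le_sqrt_of_sq_le ?_
  rw [sq_abs]
  have h1 := Real.sq_sqrt ha
  have h2 := Real.sq_sqrt hc
  have h3 := Real.sqrt_nonneg a
  have h4 := Real.sqrt_nonneg c
  rcases le_total (√a) (√c) with h | h
  · have : (√a - √c) ^ 2 ≤ c - a := by nlinarith
    exact this.trans (by rw [abs_sub_comm]; exact le_abs_self _)
  · have : (√a - √c) ^ 2 ≤ a - c := by nlinarith
    exact this.trans (le_abs_self _)

lemma segP_diff (hN : 0 < N) {k l : ℕ} (hk : k + 1 ≤ N) (hl : l < L) {R : ℝ} (h0 : 0 ≤ ρ l)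
    (h0' : 0 ≤ ρ' l) (h1 : ρ l ≤ R) (h1' : ρ' l ≤ R) :
    |segP N L ρ ρ' (k + 1) l - segP N L ρ ρ' k l| ≤ R / √N := by
  obtain ⟨w1, w2⟩ := seg_wt hN hk
  obtain ⟨w1', w2'⟩ := seg_wt hN (show k ≤ N by omega)
  have hR : 0 ≤ R := h0.trans h1
  have hN' : (0 : ℝ) < N := by positivity
  rw [segP_lt hl, segP_lt hl]
  refine (seg_sqrt_sub (by positivity) (by positivity)).trans ?_
  have e : (1 - ((k + 1 : ℕ) : ℝ) / N) * ρ l ^ 2 + ((k + 1 : ℕ) : ℝ) / N * ρ' l ^ 2 -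
      ((1 - (k : ℝ) / N) * ρ l ^ 2 + (k : ℝ) / N * ρ' l ^ 2) = (ρ' l ^ 2 - ρ l ^ 2) / N := by
    push_cast
    field_simp
    ring
  rw [e, abs_div, abs_of_pos hN', Real.sqrt_div (abs_nonneg _)]
  gcongr
  refine Real.sqrt_le_iff.2 ⟨hR, ?_⟩
  have e1 : ρ l ^ 2 ≤ R ^ 2 := pow_le_pow_left₀ h0 h1 2
  have e2 : ρ' l ^ 2 ≤ R ^ 2 := pow_le_pow_left₀ h0' h1' 2
  rw [abs_le]
  constructor <;> nlinarith [sq_nonneg (ρ l), sq_nonneg (ρ' l)]

lemma segP_tel (hN : 0 < N) {l : ℕ} (hl : l < L) (h0 : 0 ≤ ρ l) (h0' : 0 ≤ ρ' l) :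
    ∑ k ∈ Finset.range N, |segP N L ρ ρ' (k + 1) l - segP N L ρ ρ' k l| = |ρ' l - ρ l| := by
  have hN' : (0 : ℝ) < N := by positivity
  have z0 : segP N L ρ ρ' 0 l = ρ l := by
    rw [segP_lt hl]
    simp [Real.sqrt_sq h0]
  have z1 : segP N L ρ ρ' N l = ρ' l := by
    rw [segP_lt hl, div_self hN'.ne']
    simp [Real.sqrt_sq h0']
  have key : ∀ k, ((1 - ((k + 1 : ℕ) : ℝ) / N) * ρ l ^ 2 + ((k + 1 : ℕ) : ℝ) / N * ρ' l ^ 2) -
      ((1 - (k : ℝ) / N) * ρ l ^ 2 + (k : ℝ) / N * ρ' l ^ 2) = (ρ' l ^ 2 - ρ l ^ 2) / N := by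
    intro k
    push_cast
    field_simp
    ring
  rcases le_total (ρ l) (ρ' l) with h | h
  · have e1 : ρ l ^ 2 ≤ ρ' l ^ 2 := pow_le_pow_left₀ h0 h 2
    have hp : 0 ≤ (ρ' l ^ 2 - ρ l ^ 2) / N := div_nonneg (by linarith) hN'.le
    have : ∀ k ∈ Finset.range N, |segP N L ρ ρ' (k + 1) l - segP N L ρ ρ' k l| =
        segP N L ρ ρ' (k + 1) l - segP N L ρ ρ' k l := fun k _ => by
      refine abs_of_nonneg (sub_nonneg.2 ?_)
      rw [segP_lt hl, segP_lt hl]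
      refine Real.sqrt_le_sqrt ?_
      linarith [key k]
    rw [Finset.sum_congr rfl this, Finset.sum_range_sub (fun k => segP N L ρ ρ' k l), z0, z1,
      abs_of_nonneg (by linarith)]
  · have e1 : ρ' l ^ 2 ≤ ρ l ^ 2 := pow_le_pow_left₀ h0' h 2
    have hp : 0 ≤ (ρ l ^ 2 - ρ' l ^ 2) / N := div_nonneg (by linarith) hN'.le
    have e2 : (ρ' l ^ 2 - ρ l ^ 2) / N = -((ρ l ^ 2 - ρ' l ^ 2) / N) := by ring
    have : ∀ k ∈ Finset.range N, |segP N L ρ ρ' (k + 1) l - segP N L ρ ρ' k l| =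
        -(segP N L ρ ρ' (k + 1) l - segP N L ρ ρ' k l) := fun k _ => by
      refine abs_of_nonpos (sub_nonpos.2 ?_)
      rw [segP_lt hl, segP_lt hl]
      refine Real.sqrt_le_sqrt ?_
      linarith [key k]
    rw [Finset.sum_congr rfl this, Finset.sum_neg_distrib,
      Finset.sum_range_sub (fun k => segP N L ρ ρ' k l), z0, z1, abs_of_nonpos (by linarith)]

end basic

theorem seg_of {b : ℝ}
    (hkvc : ∃ C : ℝ, 1 ≤ C ∧ ∀ (n L : ℕ) (s : ℝ) (r ρ : ℕ → ℝ), BPath b n r →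
      BPath b n ρ → 1 ≤ L → L ≤ n → (∀ l, L ≤ l → ρ l = r l) → r (L - 1) ≤ s → ρ (L - 1) ≤ s →
      s ≤ r L → |vv n ρ - vv n r| ≤ C * s ∧ |kk n ρ - kk n r| ≤ C * √s)
    (hbd : ∃ c K : ℝ, 0 < c ∧ 1 ≤ K ∧ ∀ (n : ℕ) (r : ℕ → ℝ), BPath b n r →
      c ≤ vv n r ∧ vv n r ≤ 1 ∧ c ≤ kk n r ∧ kk n r ≤ K)
    (hstep : ∀ D : ℝ, ∃ C : ℝ, 1 ≤ C ∧ ∀ (n L : ℕ) (R X v a : ℝ)
      (ρ ρ' : ℕ → ℝ), Fam b n L R ρ ρ → Fam b n L R ρ ρ' → 1 ≤ L → L ≤ n → 0 < X → X ≤ 1 → R ≤ X →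
      gm n L ≤ X → 0 ≤ v → v ≤ 1 → 0 ≤ a → a ≤ D → |v - vv n ρ| ≤ D * √X →
      |4 * v ^ 3 * a - kk n ρ ^ 2| ≤ D * √X →
      ∑ l ∈ Finset.range L, ρ' l ^ 2 = ∑ l ∈ Finset.range L, ρ l ^ 2 →
      SKr b n (gm n) ρ' ≤ SKr b n (gm n) ρ + (Nw n L R v a ρ' - Nw n L R v a ρ) +
        C * (1 / ((n : ℝ) + 1) * ∑ l ∈ Finset.range L, (ρ' l - ρ l) ^ 2) +
        C * (X ^ 3 * √X) * (1 / ((n : ℝ) + 1) * ∑ l ∈ Finset.range L, |ρ' l - ρ l|)) (D : ℝ) :
    ∃ C : ℝ, 1 ≤ C ∧ ∀ (n L : ℕ) (R X v a : ℝ)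
    (ρ ρ' : ℕ → ℝ), Fam b n L R ρ ρ → Fam b n L R ρ ρ' → 1 ≤ L → L ≤ n → 0 < X → X ≤ 1 → R ≤ X →
    gm n L ≤ X → 0 ≤ v → v ≤ 1 → 0 ≤ a → a ≤ D → |v - vv n ρ| ≤ D * √X →
    |4 * v ^ 3 * a - kk n ρ ^ 2| ≤ D * √X →
    ∑ l ∈ Finset.range L, ρ' l ^ 2 = ∑ l ∈ Finset.range L, ρ l ^ 2 →
    SKr b n (gm n) ρ' ≤ SKr b n (gm n) ρ + (Nw n L R v a ρ' - Nw n L R v a ρ) +
      C * (X ^ 3 * √X) * (1 / ((n : ℝ) + 1) * ∑ l ∈ Finset.range L, |ρ' l - ρ l|) := by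
  obtain ⟨C₁, hC₁, h1⟩ := hkvc
  obtain ⟨c₂, K, hc₂, hK, h2⟩ := hbd
  obtain ⟨C, hC, h3⟩ := hstep (D + C₁ * (2 * K))
  refine ⟨C, hC, ?_⟩
  intro n L R X v a ρ ρ' hρ hρ' hL hLn hX hX1 hRX hgX hv hv1 ha haD hvv hkk hsum
  have p0 : ρ 0 = 0 := hρ.path.1
  have hR0 : 0 ≤ R := by
    have := hρ.le 0 (by omega)
    rwa [p0] at this
  have nn : ∀ l < L, 0 ≤ ρ l := fun l hl => by
    have hl' : l ≤ n := by omega
    clear hl
    induction l with
    | zero => exact p0.ge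
    | succ l ih => exact (ih (by omega)).trans (hρ.path.2.1.2 l (by omega))
  have nn' : ∀ l < L, 0 ≤ ρ' l := fun l hl => by
    have hl' : l ≤ n := by omega
    clear hl
    induction l with
    | zero => exact hρ'.path.1.ge
    | succ l ih => exact (ih (by omega)).trans (hρ'.path.2.1.2 l (by omega))
  have hsX : √R ≤ √X := Real.sqrt_le_sqrt hRX
  have hX2 : X ≤ √X := by
    have := Real.sqrt_nonneg X
    have h' := Real.sq_sqrt hX.le
    have h'' : √X ≤ 1 := Real.sqrt_le_one.2 hX1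
    nlinarith
  have hX0 : 0 ≤ √X := Real.sqrt_nonneg X
  have hn0 : (0 : ℝ) < 1 / ((n : ℝ) + 1) := by positivity
  -- the inequality for `N` steps
  have main : ∀ N : ℕ, 0 < N → SKr b n (gm n) ρ' ≤ SKr b n (gm n) ρ +
      (Nw n L R v a ρ' - Nw n L R v a ρ) +
      C * (1 / ((n : ℝ) + 1) * (R / √N * ∑ l ∈ Finset.range L, |ρ' l - ρ l|)) +
      C * (X ^ 3 * √X) * (1 / ((n : ℝ) + 1) * ∑ l ∈ Finset.range L, |ρ' l - ρ l|) := by
    intro N hN
    set P : ℕ → ℕ → ℝ := segP N L ρ ρ' with hP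
    have st : ∀ k < N, SKr b n (gm n) (P (k + 1)) ≤ SKr b n (gm n) (P k) +
        (Nw n L R v a (P (k + 1)) - Nw n L R v a (P k)) +
        C * (1 / ((n : ℝ) + 1) * ∑ l ∈ Finset.range L, R / √N * |P (k + 1) l - P k l|) +
        C * (X ^ 3 * √X) *
          (1 / ((n : ℝ) + 1) * ∑ l ∈ Finset.range L, |P (k + 1) l - P k l|) := by
      intro k hk
      have f0 : Fam b n L R ρ (P k) := segP_fam hL hLn hρ hρ' hN hk.le ρ (fun _ _ => rfl)
      have f1 : Fam b n L R (P k) (P k) := segP_fam hL hLn hρ hρ' hN hk.le (P k)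
        (fun l hl => (segP_ge hl).symm)
      have f2 : Fam b n L R (P k) (P (k + 1)) := segP_fam hL hLn hρ hρ' hN hk (P k)
        (fun l hl => (segP_ge hl).symm)
      obtain ⟨e1, e2⟩ := h1 n L R ρ (P k) hρ.path f0.path hL hLn f0.top (hρ.le _ (by omega))
        (f0.le _ (by omega)) hρ.ge
      obtain ⟨-, -, b1, b2⟩ := h2 n ρ hρ.path
      obtain ⟨-, -, b3, b4⟩ := h2 n (P k) f0.path
      have e3 : C₁ * R ≤ C₁ * (2 * K) * √X := by
        have : R ≤ 2 * K * √X := by nlinarith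
        nlinarith
      have e4 : |kk n (P k) ^ 2 - kk n ρ ^ 2| ≤ C₁ * (2 * K) * √X := by
        have : kk n (P k) ^ 2 - kk n ρ ^ 2 = (kk n (P k) - kk n ρ) * (kk n (P k) + kk n ρ) := by
          ring
        rw [this, abs_mul, abs_of_nonneg (show 0 ≤ kk n (P k) + kk n ρ by linarith)]
        have h5 : |kk n (P k) - kk n ρ| ≤ C₁ * √X :=
          e2.trans (mul_le_mul_of_nonneg_left hsX (by linarith))
        calc |kk n (P k) - kk n ρ| * (kk n (P k) + kk n ρ) ≤ (C₁ * √X) * (2 * K) := by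
              refine mul_le_mul h5 (by linarith) (by linarith) (by positivity)
          _ = C₁ * (2 * K) * √X := by ring
      have hD : a ≤ D + C₁ * (2 * K) := by
        have : 0 ≤ C₁ * (2 * K) := by positivity
        linarith
      have g1 : |v - vv n (P k)| ≤ (D + C₁ * (2 * K)) * √X := by
        have : |v - vv n (P k)| ≤ |v - vv n ρ| + |vv n (P k) - vv n ρ| := by
          have e : v - vv n (P k) = (v - vv n ρ) - (vv n (P k) - vv n ρ) := by ring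
          rw [e]
          exact abs_sub _ _
        nlinarith
      have g2 : |4 * v ^ 3 * a - kk n (P k) ^ 2| ≤ (D + C₁ * (2 * K)) * √X := by
        have : |4 * v ^ 3 * a - kk n (P k) ^ 2| ≤ |4 * v ^ 3 * a - kk n ρ ^ 2| +
            |kk n (P k) ^ 2 - kk n ρ ^ 2| := by
          have e : 4 * v ^ 3 * a - kk n (P k) ^ 2 = (4 * v ^ 3 * a - kk n ρ ^ 2) -
            (kk n (P k) ^ 2 - kk n ρ ^ 2) := by ring
          rw [e]
          exact abs_sub _ _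
        nlinarith
      have hs2 : ∀ j ≤ N, ∑ l ∈ Finset.range L, P j l ^ 2 = ∑ l ∈ Finset.range L, ρ l ^ 2 := by
        intro j hj
        have : ∀ l ∈ Finset.range L, P j l ^ 2 = (1 - (j : ℝ) / N) * ρ l ^ 2 +
            (j : ℝ) / N * ρ' l ^ 2 := fun l hl => segP_sq hN hj (Finset.mem_range.1 hl)
        rw [Finset.sum_congr rfl this, Finset.sum_add_distrib, ← Finset.mul_sum,
          ← Finset.mul_sum, hsum]
        ring
      have s3 := h3 n L R X v a (P k) (P (k + 1)) f1 f2 hL hLn hX hX1 hRX hgX hv hv1 ha hD g1 g2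
        (by rw [hs2 (k + 1) hk, hs2 k hk.le])
      refine s3.trans ?_
      gcongr with l hl
      have hl' := Finset.mem_range.1 hl
      have d1 := segP_diff (R := R) hN hk hl' (nn l hl') (nn' l hl') (hρ.le l hl') (hρ'.le l hl')
      rw [← sq_abs, sq]
      exact mul_le_mul_of_nonneg_right d1 (abs_nonneg _)
    have tot : SKr b n (gm n) (P N) ≤ SKr b n (gm n) (P 0) +
        (Nw n L R v a (P N) - Nw n L R v a (P 0)) +
        ∑ k ∈ Finset.range N, (C * (1 / ((n : ℝ) + 1) *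
          ∑ l ∈ Finset.range L, R / √N * |P (k + 1) l - P k l|) +
        C * (X ^ 3 * √X) *
          (1 / ((n : ℝ) + 1) * ∑ l ∈ Finset.range L, |P (k + 1) l - P k l|)) := by
      have : ∀ M ≤ N, SKr b n (gm n) (P M) ≤ SKr b n (gm n) (P 0) +
        (Nw n L R v a (P M) - Nw n L R v a (P 0)) +
        ∑ k ∈ Finset.range M, (C * (1 / ((n : ℝ) + 1) *
          ∑ l ∈ Finset.range L, R / √N * |P (k + 1) l - P k l|) +
        C * (X ^ 3 * √X) *
          (1 / ((n : ℝ) + 1) * ∑ l ∈ Finset.range L, |P (k + 1) l - P k l|)) := by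
        intro M hM
        induction M with
        | zero => simp
        | succ M ih =>
          have := st M (by omega)
          have := ih (by omega)
          rw [Finset.sum_range_succ]
          linarith
      exact this N le_rfl
    have hPN : P N = ρ' := segP_last hN nn' (fun l hl => hρ'.top l hl)
    have hP0 : P 0 = ρ := segP_zero nn
    rw [hPN, hP0] at tot
    refine tot.trans (le_of_eq ?_)
    rw [Finset.sum_add_distrib, ← Finset.mul_sum, ← Finset.mul_sum, ← Finset.mul_sum,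
      ← Finset.mul_sum]
    have ex : ∑ k ∈ Finset.range N, ∑ l ∈ Finset.range L, |P (k + 1) l - P k l| =
        ∑ l ∈ Finset.range L, |ρ' l - ρ l| := by
      rw [Finset.sum_comm]
      refine Finset.sum_congr rfl fun l hl => ?_
      have hl' := Finset.mem_range.1 hl
      exact segP_tel hN hl' (nn l hl') (nn' l hl')
    have ex2 : ∑ k ∈ Finset.range N, ∑ l ∈ Finset.range L, R / √N * |P (k + 1) l - P k l| =
        R / √N * ∑ l ∈ Finset.range L, |ρ' l - ρ l| := by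
      rw [← ex, Finset.mul_sum]
      refine Finset.sum_congr rfl fun k _ => ?_
      rw [Finset.mul_sum]
    rw [ex, ex2]
    ring
  have lim : Tendsto (fun N : ℕ => SKr b n (gm n) ρ +
      (Nw n L R v a ρ' - Nw n L R v a ρ) +
      C * (1 / ((n : ℝ) + 1) * (R / √(N : ℝ) * ∑ l ∈ Finset.range L, |ρ' l - ρ l|)) +
      C * (X ^ 3 * √X) * (1 / ((n : ℝ) + 1) * ∑ l ∈ Finset.range L, |ρ' l - ρ l|)) atTop
      (𝓝 (SKr b n (gm n) ρ + (Nw n L R v a ρ' - Nw n L R v a ρ) +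
      C * (1 / ((n : ℝ) + 1) * (0 * ∑ l ∈ Finset.range L, |ρ' l - ρ l|)) +
      C * (X ^ 3 * √X) * (1 / ((n : ℝ) + 1) * ∑ l ∈ Finset.range L, |ρ' l - ρ l|))) := by
    have h0 : Tendsto (fun N : ℕ => R / √(N : ℝ)) atTop (𝓝 0) :=
      Tendsto.div_atTop tendsto_const_nhds
        (Real.tendsto_sqrt_atTop.comp tendsto_natCast_atTop_atTop)
    exact ((((h0.mul_const _).const_mul _).const_mul _).const_add _).add_const _
  have fin := ge_of_tendsto lim (Filter.eventually_atTop.2 ⟨1, fun N hN => main N (by omega)⟩)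
  simpa using fin

end Vale.Agent.P146.Sh
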