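import Vale.Agent.P146.Sh.ShDefs
import Vale.Agent.P146.Sx.Fin5

/-!
# P146, Sh: the sharp constant: skeleton (NEVER import this file)

Every section is one task / one file `Vale/Agent/P146/Sh/Sh<name>.lean` (namespace
`Vale.Agent.P146.Sh`, same `open`s as here). `G = Gb n (gm n) r l t` is the function at the time
`r l + t`, `Bt` the average at this time.

Plan. `V(x) = inf` over exponents `≥ x`. First block `[0, R]` of the minimiser for `x = gm n d`: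
`h = Rb - s/b²`, `h(0) = h(R) = 0`, `h'(R) ≈ 0`, `h'' = M1b ≈ κ² s - 2 x v³`, so `κ² R ≈ 3 x v³`,
`∫ h ≈ κ² R⁴ / 72`. (UP) `V(x + δ) ≤ V(x) + δ/2 ∫ h ≈ V(x) + 5 B x⁴ δ`, `B = 9/80 v¹² / κ⁶`.
(DOWN) replacing the exponent `x` on `[0, R]` by `2 a t`, `a = κ² / (4 v³)`: `V(0) ≤ V(x) - B x⁵`.
Hence `(V(x) - V(0)) / x⁵` is almost monotone and has a limit `A`.
-/

open MeasureTheory ProbabilityTheory Filter Topology Set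

namespace Vale.Agent.P146.Sh

open Vale.Agent.P157.Par
open Vale.Agent.P146.Gap
open Vale.Agent.P146.Pw2
open Vale.Agent.P146.Lb
open Vale.Agent.P367.Cl

section K5

/-! ### ShK5.lean. `jets_k6`, `jets_f7`, `fj_s5`: pattern of `Gap/Jets.lean`. Then `adm_flow` with
`j = 4`, `κ = 5`, `E = 10 fj3 fj4` (pattern of `aks_unif`, Pw2/T1Adm.lean, and of `fl_aks`,
`fl_bk`, Pw2/T1Nest2.lean): `|F⁽⁵⁾| ≤ A exp (5 s) F''`. -/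

variable {g : ℝ} {F : ℝ → ℝ}

theorem fj_s5 (h : SmB F) (hg : 0 < g) {s : ℝ} (hs : 0 < s) (x : ℝ) :
    HasDerivAt (fun s => fj g F 5 s x)
      (1 / 2 * fj g F 7 s x + g * (10 * fj g F 3 s x * fj g F 4 s x
        + 5 * fj g F 2 s x * fj g F 5 s x + fj g F 1 s x * fj g F 6 s x)) s := by sorry

theorem gb_class (b : ℝ) : ∃ K : ℝ, 1 ≤ K ∧ ∀ (n : ℕ) (r : ℕ → ℝ), BPath b n r → ∀ l < n,
    ∀ t ∈ Icc 0 (r (l + 1) - r l), AK K (Gb n (gm n) r l t) ∧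
      ∀ x, |iteratedDeriv 5 (Gb n (gm n) r l t) x| ≤ K := by sorry

end K5

section TAY

/-! ### ShTay.lean (calculus): Taylor at `0`; `G''' 0 = G' 0 = 0` (`GoodX.good_odd`). -/

theorem tay {K : ℝ} (hK : 1 ≤ K) : ∃ C : ℝ, 1 ≤ C ∧ ∀ G : ℝ → ℝ, AK K G →
    (∀ x, |iteratedDeriv 5 G x| ≤ K) → ∀ x,
      |iteratedDeriv 2 G x - iteratedDeriv 2 G 0| ≤ C * (min 1 |x|) ^ 2 ∧
      |iteratedDeriv 4 G x - iteratedDeriv 4 G 0| ≤ C * min 1 |x| ∧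
      |iteratedDeriv 3 G x * iteratedDeriv 2 G 0 - iteratedDeriv 4 G 0 * iteratedDeriv 1 G x| ≤
        C * (min 1 |x|) ^ 2 := by sorry

end TAY

section MOM

/-! ### ShMom.lean. `min 1 |x| ≤ K |G'|` (`AK.low`, `fl_bk`), `Bt (G'²) = Rb ≤ r l + t`
(`dec_Rb_le`), `Bt (G'⁴) ≤ 3 (r l + t)²`: by `bt_deriv` the derivative of `t ↦ Bt (G_t'⁴)` is
`6 Bt (G'² G''²) ≤ 6 Rb` (compare `Rb_deriv`), matching at the levels as `Rb_zero`, `Rb_last`.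
Third power: `2 y³ ≤ √σ y² + y⁴ / √σ`; first power: `2 y ≤ √σ + y² / √σ`, `σ = r l + t`. -/

theorem mom (b : ℝ) : ∃ C : ℝ, 1 ≤ C ∧ ∀ (n : ℕ) (r : ℕ → ℝ), BPath b n r → ∀ l < n,
    ∀ t ∈ Icc 0 (r (l + 1) - r l),
      Bt n (gm n) r l t (fun x => min 1 |x|) ≤ C * √(r l + t) ∧
      Bt n (gm n) r l t (fun x => (min 1 |x|) ^ 2) ≤ C * (r l + t) ∧
      Bt n (gm n) r l t (fun x => (min 1 |x|) ^ 3) ≤ C * ((r l + t) * √(r l + t)) := by sorry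

end MOM

section KV

/-! ### ShKv.lean (imports ShK5, ShTay, ShMom). `d/dt Bt (G'') = -m Mb ∈ [-1, 0]`,
`d/dt Bt (G'''') = -m Bt (3 G'''² + 4 G'' G'''')` bounded (`bt_deriv`, `fj_s2`, `fj_s4`), and
`|Bt (G'') - G'' 0| ≤ C Bt (min 1 |x|)²`, `|Bt (G'''') - G'''' 0| ≤ C Bt (min 1 |x|)`. -/

theorem kv (b : ℝ) : ∃ C : ℝ, 1 ≤ C ∧ ∀ (n : ℕ) (r : ℕ → ℝ), BPath b n r → ∀ l < n,
    ∀ t ∈ Icc 0 (r (l + 1) - r l),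
      |iteratedDeriv 2 (Gb n (gm n) r l t) 0 - vv n r| ≤ C * (r l + t) ∧
      |iteratedDeriv 4 (Gb n (gm n) r l t) 0 + kk n r| ≤ C * √(r l + t) := by sorry

end KV

section KVC

/-! ### ShKvc.lean (imports ShKv): `Gb n (gm n) r (L-1) (s - r (L-1)) = gstep (gm n L) (r L - s)
(Fl n (gm n) r L)` is the same for both paths. -/

theorem kvc (b : ℝ) : ∃ C : ℝ, 1 ≤ C ∧ ∀ (n L : ℕ) (s : ℝ) (r ρ : ℕ → ℝ), BPath b n r →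
    BPath b n ρ → 1 ≤ L → L ≤ n → (∀ l, L ≤ l → ρ l = r l) → r (L - 1) ≤ s → ρ (L - 1) ≤ s →
    s ≤ r L → |vv n ρ - vv n r| ≤ C * s ∧ |kk n ρ - kk n r| ≤ C * √s := by sorry

end KVC

section BD

/-! ### ShBd.lean: `fl_bk` (`low0`, `le1`, `k4`) and `inv_cascade` with `inv_lc` (Sx/Inv.lean):
`0 ≤ bet c F 0` gives `-F⁽⁴⁾ 0 ≥ 2 c F'' 0 ^ 2`, `c = exp (-2 b²)`. -/

theorem vk_bd (b : ℝ) : ∃ c K : ℝ, 0 < c ∧ 1 ≤ K ∧ ∀ (n : ℕ) (r : ℕ → ℝ), BPath b n r →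
    c ≤ vv n r ∧ vv n r ≤ 1 ∧ c ≤ kk n r ∧ kk n r ≤ K := by sorry

end BD

section M1E

/-! ### ShM1.lean (imports ShK5, ShTay, ShMom, ShKv, ShBd). `M1b = Bt (G'''²) - 2 m Bt (G''³)`;
with `v' = G'' 0`, `k' = -G⁽⁴⁾ 0`: `|v'² G'''² - k'² G'²| ≤ C (min 1 |x|)³` (`tay`, and
`|G'|, |G'''| ≤ C min 1 |x|`), `Bt (G'²) = Rb`, `|Rb - vv² (r l + t)| ≤ C (r l + t)²` (`Rb_deriv`,
`Mb_deriv`, `M1b_bd`, `Ml 0 = vv²`), then `kv`. -/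

theorem m1e (b : ℝ) : ∃ C : ℝ, 1 ≤ C ∧ ∀ (n : ℕ) (X : ℝ) (r : ℕ → ℝ), BPath b n r → 0 < X →
    X ≤ 1 → ∀ l < n, gm n (l + 1) ≤ X → ∀ t ∈ Icc 0 (r (l + 1) - r l), r l + t ≤ X →
      |M1b n (gm n) r l t - (kk n r ^ 2 * (r l + t) - 2 * gm n (l + 1) * vv n r ^ 3)| ≤
        C * (X * √X) := by sorry

end M1E

section PIECE

/-! ### ShPiece.lean (real analysis, imports Mathlib). Blocks `[ρ l, top l]`, exponents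
`δ (l + 1)`. Downwards: `M(u) = μ - 2 v³ a (R² - u²) + 2 v³ A(u)` up to `E (R - u)`,
`A(u) = ∑_{j<L} δ (R - max u (ρ j))` has slope `-δ (l + 1)` on the block `l`. Then integrate. -/

theorem piece {L : ℕ} (hL : 1 ≤ L) {δ R E v a : ℝ} (hδ : 0 ≤ δ) (hE : 0 ≤ E) {ρ top S : ℕ → ℝ}
    (h0 : ρ 0 = 0) (hmono : ∀ l < L, ρ l ≤ top l) (htop : ∀ l, l + 1 < L → top l = ρ (l + 1))
    (htopL : top (L - 1) = R) {Rf Mf M1f : ℕ → ℝ → ℝ}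
    (hRc : ∀ l < L, ContinuousOn (Rf l) (Icc 0 (top l - ρ l)))
    (hMc : ∀ l < L, ContinuousOn (Mf l) (Icc 0 (top l - ρ l)))
    (hR : ∀ l < L, ∀ t ∈ Ioo 0 (top l - ρ l), HasDerivAt (Rf l) (Mf l t) t)
    (hM : ∀ l < L, ∀ t ∈ Ioo 0 (top l - ρ l), HasDerivAt (Mf l) (M1f l t) t)
    (h1 : ∀ l < L, ∀ t ∈ Ioo 0 (top l - ρ l),
      |M1f l t - (4 * v ^ 3 * a * (ρ l + t) - 2 * v ^ 3 * (δ * ((l : ℝ) + 1)))| ≤ E)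
    (hR0 : ∀ l < L, Rf l 0 = S l) (hS0 : S 0 = 0)
    (hRt : ∀ l, l + 1 < L → Rf l (top l - ρ l) = S (l + 1))
    (hMm : ∀ l, l + 1 < L → Mf l (top l - ρ l) = Mf (l + 1) 0) :
    ∀ l < L, |S l - (Mf (L - 1) (R - ρ (L - 1)) * ρ l + 2 * v ^ 3 *
      ∫ u in (0 : ℝ)..(ρ l), ((∑ j ∈ Finset.range L, δ * (R - max u (ρ j)))
        - a * (R ^ 2 - u ^ 2)))| ≤ E * R * ρ l := by sorry

end PIECE

section EXPD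

/-! ### ShExpd.lean (imports ShPiece, ShM1, ShBd): `piece` with `Rf = Rb`, `Mf = Mb`, `M1f = M1b`,
`S = spR`, `top l = ρ (l+1)` for `l + 1 < L`, `R` for `l = L - 1` (`R ≤ ρ L`). `D` is arbitrary. -/

theorem expd (b D : ℝ) : ∃ C : ℝ, 1 ≤ C ∧ ∀ (n L : ℕ) (R X v a : ℝ) (ρ : ℕ → ℝ),
    Fam b n L R ρ ρ → 1 ≤ L → L ≤ n → 0 < X → X ≤ 1 → R ≤ X → gm n L ≤ X → 0 ≤ v → v ≤ 1 →
    |v - vv n ρ| ≤ D * √X → |4 * v ^ 3 * a - kk n ρ ^ 2| ≤ D * √X →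
    ∃ μ : ℝ, 0 ≤ μ ∧ μ ≤ 1 ∧ ∀ l < L, |spR n (gm n) ρ l - (μ * ρ l + 2 * v ^ 3 *
      ∫ u in (0 : ℝ)..(ρ l), (Aw n L R ρ u - a * (R ^ 2 - u ^ 2)))| ≤ C * (X ^ 3 * √X) := by sorry

end EXPD

section NWG

/-! ### ShNwg.lean (real analysis, imports ShDefs): `(A' - A*)² - (A - A*)² ≥ 2 (A' - A) (A - A*)`,
`A' - A = δ ∑ (max u (ρ j) - max u (ρ' j))`, `|A - A*| ≤ B`. -/

theorem nwg {n L : ℕ} {R v a B : ℝ} {ρ ρ' : ℕ → ℝ} (hR : 0 ≤ R) (hv : 0 ≤ v) (ha : 0 ≤ a)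
    (h0 : ∀ l < L, 0 ≤ ρ l ∧ ρ l ≤ R) (h0' : ∀ l < L, 0 ≤ ρ' l ∧ ρ' l ≤ R)
    (hB : (L : ℝ) / ((n : ℝ) + 1) * R + a * R ^ 2 ≤ B) :
    -(v ^ 3 * (1 / ((n : ℝ) + 1) * ∑ l ∈ Finset.range L, (ρ' l - ρ l) *
      ∫ u in (0 : ℝ)..(ρ l), (Aw n L R ρ u - a * (R ^ 2 - u ^ 2)))) ≤
      Nw n L R v a ρ' - Nw n L R v a ρ +
        v ^ 3 * B * (1 / ((n : ℝ) + 1) * ∑ l ∈ Finset.range L, (ρ' l - ρ l) ^ 2) := by sorry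

end NWG

section STEP

/-! ### ShStep.lean (imports ShExpd, ShNwg): `tangent_path` (Gap/Link.lean) at `ρ`,
`gm n (l+1) - gm n l = 1/(n+1)` (`gm_sub`), `expd`, `nwg`. The term `μ ρ l` gives
`-(μ/2) δ ∑ ρ (ρ' - ρ) = (μ/4) δ ∑ (ρ' - ρ)²` because `∑ ρ'² = ∑ ρ²`. -/

theorem step {b : ℝ} (hb : 0 < b) (D : ℝ) : ∃ C : ℝ, 1 ≤ C ∧ ∀ (n L : ℕ) (R X v a : ℝ)
    (ρ ρ' : ℕ → ℝ), Fam b n L R ρ ρ → Fam b n L R ρ ρ' → 1 ≤ L → L ≤ n → 0 < X → X ≤ 1 → R ≤ X →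
    gm n L ≤ X → 0 ≤ v → v ≤ 1 → 0 ≤ a → a ≤ D → |v - vv n ρ| ≤ D * √X →
    |4 * v ^ 3 * a - kk n ρ ^ 2| ≤ D * √X →
    ∑ l ∈ Finset.range L, ρ' l ^ 2 = ∑ l ∈ Finset.range L, ρ l ^ 2 →
    SKr b n (gm n) ρ' ≤ SKr b n (gm n) ρ + (Nw n L R v a ρ' - Nw n L R v a ρ) +
      C * (1 / ((n : ℝ) + 1) * ∑ l ∈ Finset.range L, (ρ' l - ρ l) ^ 2) +
      C * (X ^ 3 * √X) * (1 / ((n : ℝ) + 1) * ∑ l ∈ Finset.range L, |ρ' l - ρ l|) := by sorry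

end STEP

section SEG

/-! ### ShSeg.lean (imports ShStep, ShKvc): `N` steps along `ρ_k l = √((1 - k/N) ρ² + (k/N) ρ'²)`
(`ρ_k l = ρ l` for `L ≤ l`); `∑ ρ_k²` is constant, `k ↦ ρ_k l` is monotone, `kvc` with `s = R`
(`√R ≤ √X`, `|kk² - kk²| ≤ 2 K |kk - kk|`) keeps the hypotheses with another `D`; `N → ∞` for
fixed `n`: `∑_k (Δρ_k)² ≤ max_k |Δρ_k| * |ρ' - ρ| → 0`. -/

theorem seg {b : ℝ} (hb : 0 < b) (D : ℝ) : ∃ C : ℝ, 1 ≤ C ∧ ∀ (n L : ℕ) (R X v a : ℝ)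
    (ρ ρ' : ℕ → ℝ), Fam b n L R ρ ρ → Fam b n L R ρ ρ' → 1 ≤ L → L ≤ n → 0 < X → X ≤ 1 → R ≤ X →
    gm n L ≤ X → 0 ≤ v → v ≤ 1 → 0 ≤ a → a ≤ D → |v - vv n ρ| ≤ D * √X →
    |4 * v ^ 3 * a - kk n ρ ^ 2| ≤ D * √X →
    ∑ l ∈ Finset.range L, ρ' l ^ 2 = ∑ l ∈ Finset.range L, ρ l ^ 2 →
    SKr b n (gm n) ρ' ≤ SKr b n (gm n) ρ + (Nw n L R v a ρ' - Nw n L R v a ρ) +
      C * (X ^ 3 * √X) * (1 / ((n : ℝ) + 1) * ∑ l ∈ Finset.range L, |ρ' l - ρ l|) := by sorry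

end SEG

section LAWA

/-! ### ShLawA.lean (imports Lb/LLen, ShM1, ShBd): `lenD`, `lastD`, `unifD` (with `len_e`; for the
blocks `l ≥ d` of length `0`: the next / previous block of positive length, `Mb_zero`, `Mb_last`).
Upper bound of `r d = R`: `k = Mb - 1/b²` on the block `d - 1` is convex (`M2b_nonneg`),
`∫_0^R k = 0` (`statD`, `Rb_last`), `k R ≤ x⁸`, `k' 0 ≥ -2 x` (`M1b_low`) and `k' (C₁ x) ≥ x`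
(`m1e`, `C₁ = 4/c²`) if `C₁ x ≤ R`: if `R > 5 C₁ x` then `k 0 < 0`, hence `∫ k < 0`. -/

theorem lawA {b : ℝ} (hb : 1 < b) : ∃ c C : ℝ, 0 < c ∧ 1 ≤ C ∧ ∀ (n d : ℕ) (r : ℕ → ℝ),
    1 ≤ d → d ≤ n → IsMinD b n d r → gm n d ≤ c → C ≤ gm n d ^ 40 * (n + 1) →
      c * gm n d ≤ r d ∧ r d ≤ C * gm n d ∧ 2 * C * gm n d ≤ r n ∧
      ∀ l, d ≤ l → l < n → ∀ t ∈ Icc 0 (r (l + 1) - r l),
        |Mb n (gm n) r l t - 1 / b ^ 2| ≤ gm n d ^ 8 := by sorry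

end LAWA

section FB

/-! ### ShFb.lean (real analysis, imports Mathlib): `f t = f R - g R (R - t) + ∫_t^R (s - t) g1 s`. -/

theorem fb_real {R E K y ε : ℝ} {f g g1 : ℝ → ℝ} (hR : 0 < R) (hE : 0 ≤ E)
    (hf : ContinuousOn f (Icc 0 R)) (hg : ContinuousOn g (Icc 0 R))
    (h1 : ∀ t ∈ Ioo 0 R, HasDerivAt f (g t) t) (h2 : ∀ t ∈ Ioo 0 R, HasDerivAt g (g1 t) t)
    (h3 : ∀ t ∈ Ioo 0 R, |g1 t - (K * t - 2 * y)| ≤ E) (hf0 : f 0 = 0) (hfR : f R = 0)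
    (hgR : |g R| ≤ ε) :
    |K * R ^ 3 / 3 - y * R ^ 2| ≤ E * R ^ 2 + ε * R ∧
      ∫ t in (0 : ℝ)..R, f t ≤ K * R ^ 4 / 72 + E * R ^ 3 + ε * R ^ 2 := by sorry

end FB

section LAWB

/-! ### ShLawB.lean (imports ShLawA, ShFb, ShM1): the block `d - 1`, `f = Rb - t/b²`,
`g = Mb - 1/b²`, `g1 = M1b`, `X = max C 1 * gm n d`, `statD`, `Rb_zero`, `spR_zero`, `Rb_last`. -/

theorem lawB {b : ℝ} (hb : 1 < b) : ∃ c C : ℝ, 0 < c ∧ 1 ≤ C ∧ ∀ (n d : ℕ) (r : ℕ → ℝ),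
    1 ≤ d → d ≤ n → IsMinD b n d r → gm n d ≤ c → C ≤ gm n d ^ 40 * (n + 1) →
      |kk n r ^ 2 * r d - 3 * gm n d * vv n r ^ 3| ≤ C * (gm n d * √(gm n d)) ∧
      ∫ s in (0 : ℝ)..(r d), (Rb n (gm n) r (d - 1) s - s / b ^ 2) ≤
        kk n r ^ 2 * r d ^ 4 / 72 + C * (gm n d ^ 4 * √(gm n d)) := by sorry

end LAWB

section LAWC

/-! ### ShLawC.lean (imports ShLawA, ShM1, ShLawB): the jump after the first block. `L₀` the least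
level with `r d + x⁴ ≤ r L₀`, `L = min L₀ (2 d)`. If `L = L₀`: `Mb` increases by at most `2 x⁸` on
`[r d, r d + x⁴]`, where `M1b ≥ κ² r d - 2 gm n L v³ - C x √x` (`m1e`; induction as `hind` in
`lenD`, Lb/LLen.lean), and `κ² r d ≈ 3 x v³`. -/

theorem lawC {b : ℝ} (hb : 1 < b) : ∃ c C : ℝ, 0 < c ∧ 1 ≤ C ∧ ∀ (n d : ℕ) (r : ℕ → ℝ),
    1 ≤ d → d ≤ n → IsMinD b n d r → gm n d ≤ c → C ≤ gm n d ^ 40 * (n + 1) →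
      ∃ L : ℕ, d < L ∧ L ≤ 2 * d ∧ L ≤ n ∧ r (L - 1) ≤ r d + gm n d ^ 4 ∧
        3 / 2 * gm n d - C * (gm n d * √(gm n d)) ≤ gm n L := by sorry

end LAWC

section COMP

/-! ### ShComp.lean (real analysis, imports ShDefs): the competitor `ρ l = min R (c l)` with `c`
by the intermediate value theorem (`∑ ρ² = (L - d) R²`); then `c ≈ 1 / (2 a (n + 1))`: with
`K = R / c`: `K = 3 d / 2 + O(1)` if `K ≤ L`, `K² (3 (L - d) + O(1)) = L³` if `K > L`. (Any other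
competitor is fine.) -/

theorem comp {D : ℝ} (hD : 1 ≤ D) : ∃ c C : ℝ, 0 < c ∧ 1 ≤ C ∧ ∀ (n d L : ℕ) (R a x : ℝ),
    x = (d : ℝ) / ((n : ℝ) + 1) → 1 ≤ d → d < L → L ≤ 2 * d → 0 < R → 1 / D ≤ a → a ≤ D →
    x ≤ c → C ≤ x ^ 40 * ((n : ℝ) + 1) → |a * R - 3 / 4 * x| ≤ D * (x * √x) →
    3 / 2 * x - D * (x * √x) ≤ (L : ℝ) / ((n : ℝ) + 1) →
    ∃ ρ : ℕ → ℝ, ρ 0 = 0 ∧ (∀ l, l + 1 < L → ρ l ≤ ρ (l + 1)) ∧ (∀ l < L, 0 ≤ ρ l ∧ ρ l ≤ R) ∧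
      ∑ l ∈ Finset.range L, ρ l ^ 2 = ((L : ℝ) - d) * R ^ 2 ∧
      ∀ u ∈ Icc 0 R, |Aw n L R ρ u - a * (R ^ 2 - u ^ 2)| ≤ C * (x ^ 2 * √x) := by sorry

end COMP

section QUART

/-! ### ShQuart.lean (imports Mathlib). With `y = a R / x`: the integral is
`x⁵ / a³ * y³ (1/3 - 5 y / 6 + 8 y² / 15)`, minimal on `y ≥ 1/2` at `y = 3/4`. -/

theorem quart {R a x : ℝ} (hx : 0 < x) (ha : 0 < a) (h : x / 2 ≤ a * R) :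
    9 / 2560 * x ^ 5 / a ^ 3 ≤
      ∫ u in (0 : ℝ)..R, (x * (R - u) - a * (R ^ 2 - u ^ 2)) ^ 2 := by sorry

end QUART

section DOWN

/-! ### ShDown.lean (imports ShSeg, ShKvc, ShLawB, ShLawC, ShComp, ShQuart). `L` of `lawC`,
`R = r d`, `ρ l = 0` (`l < d`), `R` (`d ≤ l < L`), `r l` (`L ≤ l`): `SKr ρ ≤ SKr r + x⁸`
(`tangent_path` at `r`, `statD`), `Aw n L R ρ u = x (R - u)`, `kvc` with `s = r (L - 1)`;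
`ρ'` of `comp`, `v = vv n r`, `a = kk² / (4 v³)`, `X = C x`. -/

theorem down {b : ℝ} (hb : 1 < b) : ∃ c C : ℝ, 0 < c ∧ 1 ≤ C ∧ ∀ (n d : ℕ) (r : ℕ → ℝ),
    1 ≤ d → d ≤ n → IsMinD b n d r → gm n d ≤ c → C ≤ gm n d ^ 40 * (n + 1) →
      ∃ r', BPath b n r' ∧ SKr b n (gm n) r' + 9 / 80 * vv n r ^ 12 / kk n r ^ 6 * gm n d ^ 5 ≤
        SKr b n (gm n) r + C * (gm n d ^ 5 * √(gm n d)) := by sorry

end DOWN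

section UP

/-! ### ShUp.lean (imports ShLawA, ShLawB, ShBd): `r' = Function.update r d 0`: the exponent on
`[0, r d]` becomes `gm n (d+1)`: `gstep_diff`, `Rf_tilt4` as in `l1` (Lb/LOne.lean; `one_spin`,
`one_sum`). -/

theorem up {b : ℝ} (hb : 1 < b) : ∃ c C : ℝ, 0 < c ∧ 1 ≤ C ∧ ∀ (n d : ℕ) (r : ℕ → ℝ),
    1 ≤ d → d < n → IsMinD b n d r → gm n d ≤ c → C ≤ gm n d ^ 40 * (n + 1) →
      ∃ r', BPath b n r' ∧ (∀ l < d + 1, r' l = 0) ∧ SKr b n (gm n) r' ≤ SKr b n (gm n) r +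
        1 / ((n : ℝ) + 1) * (9 / 16 * vv n r ^ 12 / kk n r ^ 6 * gm n d ^ 4 +
          C * (gm n d ^ 4 * √(gm n d))) := by sorry

end UP

section ITER

/-! ### ShIter.lean (imports ShDown, ShUp, ShBd): with `D(d) = V_n(d) - V_n(0) ≥ 0`:
`D(d+1) ≤ D(d) (1 + 5 δ / x) + C δ x⁴ √x`, `1 + 5 δ / x ≤ ((x + δ) / x)⁵`; sum `δ / √x_d`. -/

theorem iter {b : ℝ} (hb : 1 < b) : ∃ c C : ℝ, 0 < c ∧ 1 ≤ C ∧ ∀ (n d₁ d₂ : ℕ)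
    (r₀ r₁ r₂ : ℕ → ℝ), 1 ≤ d₁ → d₁ ≤ d₂ → d₂ ≤ n → IsMinD b n 0 r₀ → IsMinD b n d₁ r₁ →
    IsMinD b n d₂ r₂ → gm n d₂ ≤ c → C ≤ gm n d₁ ^ 40 * (n + 1) →
      (SKr b n (gm n) r₂ - SKr b n (gm n) r₀) / gm n d₂ ^ 5 ≤
        (SKr b n (gm n) r₁ - SKr b n (gm n) r₀) / gm n d₁ ^ 5 + C * √(gm n d₂) := by sorry

end ITER

section GRID

/-! ### ShGrid.lean (imports ShDefs, Sx/Fin5, Pw2/T1Grid). (1) a grid path which vanishes below `d`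
as a path with first exponent `gm n d` (reindex; compare Sx/Gap5 `exp_ge5_par`). (2) `grid_path`
with the additional property `gm n l < μ 1 → q l = p 0`. (3) `grid_bpath`. `BddBelow` of the sets:
Sx/Fin5 `moment`. -/

theorem vx_le {b : ℝ} (hb : 1 < b) {n d : ℕ} (hd : 1 ≤ d) (hdn : d ≤ n) {r : ℕ → ℝ}
    (hr : BPath b n r) (h0 : ∀ l < d, r l = 0) : Vx b (gm n d) ≤ SKr b n (gm n) r := by sorry

theorem vx_ge {b : ℝ} (hb : 1 < b) {n d : ℕ} (hd : 1 ≤ d) (hdn : d ≤ n) {x : ℝ} (hx : 0 < x)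
    (hx1 : x ≤ 1) (hdx : gm n (d - 1) < x) {r : ℕ → ℝ} (hr : IsMinD b n d r) :
    SKr b n (gm n) r ≤ Vx b x + 2 * b ^ 2 / (n + 1) := by sorry

theorem p0_le {b : ℝ} (hb : 1 < b) {n : ℕ} {r : ℕ → ℝ} (hr : BPath b n r) :
    P0 b ≤ SKr b n (gm n) r := by sorry

theorem p0_ge {b : ℝ} (hb : 1 < b) {n : ℕ} {r : ℕ → ℝ} (hr : IsMinD b n 0 r) :
    SKr b n (gm n) r ≤ P0 b + 2 * b ^ 2 / (n + 1) := by sorry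

/-- upper bound (`exp_ge5_par`) -/
theorem vx_up {b : ℝ} (hb : 1 < b) : ∃ C : ℝ, 1 ≤ C ∧ ∀ x : ℝ, 0 < x → x ≤ 1 →
    Vx b x ≤ P0 b + C * x ^ 5 := by sorry

end GRID

section LIM

/-! ### ShLim.lean (imports ShIter, ShGrid, Lb/LOne): `iter` with `d_i = ⌈x_i (n+1)⌉`, `n → ∞`:
`G(x) = (Vx b x - P0 b) / x⁵` satisfies `G x₂ ≤ G x₁ + C √x₂` for `x₁ < x₂ ≤ c`; bounded
(`vx_up`), bounded below by a positive constant (`l1`). -/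

theorem lim_A {b : ℝ} (hb : 1 < b) : ∃ A : ℝ, 0 < A ∧
    Tendsto (fun x => (Vx b x - P0 b) / x ^ 5) (𝓝[>] 0) (𝓝 A) := by sorry

end LIM

section FIN

/-! ### ShFin.lean (imports ShLim, Ub/GueF, Ld/LdRate): Guerra `≤`; `≥` at `x_d = gm K d ≤ x`,
`rate_lower_d`, monotonicity of `x ↦ (1/x) log E exp (x F)`. -/

theorem sharp_moment {β : ℝ} (hβ : 1 < β) : ∃ A : ℝ, 0 < A ∧ ∀ ε : ℝ, 0 < ε → ∃ x₀ : ℝ, 0 < x₀ ∧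
    ∀ x : ℝ, 0 < x → x ≤ x₀ → ∀ᶠ n : ℕ in atTop,
      |Real.log (∫ g, Real.exp (x * freeEnergy n β g) ∂(disorder n)) - x * (n * Sx.pv β) -
        A * n * x ^ 6| ≤ ε * n * x ^ 6 := by sorry

end FIN

section LDP

/-! ### ShLdp.lean (imports ShFin): `J = (5/6) (6 A)^(-1/5)`; Chernoff, tilting. -/

theorem sharp_ldp {β : ℝ} (hβ : 1 < β) : ∃ J : ℝ, 0 < J ∧ ∀ ε : ℝ, 0 < ε → ∃ s₀ : ℝ, 0 < s₀ ∧
    ∀ s : ℝ, 0 < s → s ≤ s₀ → ∀ᶠ n : ℕ in atTop,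
      |Real.log ((disorder n).real {g | n * (Sx.pv β + s) ≤ freeEnergy n β g}) +
        J * n * s ^ (6 / 5 : ℝ)| ≤ ε * n * s ^ (6 / 5 : ℝ) := by sorry

end LDP

end Vale.Agent.P146.Sh
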