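import Vale.Agent.P146.Sh.ShKv
import Vale.Agent.P146.Sh.ShLim
import Vale.Agent.P146.Lb.LMin
import Vale.Agent.P367.Cl.FBlk2
import Vale.Agent.P146.Ld.Cor1

/-!
# P146, Sh: the constant near the critical temperature (over the bricks)
-/

open MeasureTheory ProbabilityTheory Filter Topology Set

namespace Vale.Agent.P146.Sh

open Vale.Agent.P157.Par
open Vale.Agent.P146.Gap
open Vale.Agent.P146.Pw2
open Vale.Agent.P146.Lb
open Vale.Agent.P367.Cl

theorem tc_cb_tanh : Sp7Cb Real.tanh :=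
  ⟨continuous_iff_continuousAt.2 fun x => (GoodX.good_tanh x).continuousAt, 1,
    fun x => (Real.abs_tanh_lt_one x).le⟩

/-- `E (1 - tanh²)² ≤ 1 - E tanh²` -/
theorem tc_Ml {n : ℕ} {m r : ℕ → ℝ} (hm : Exponents n m) (hr : Path n r) :
    Ml n m r n ≤ 1 - spR n m r n := by
  have hF : Fl n m r n = lc := fl_last
  have e1 : Ml n m r n = Ee n m r n (fun x => (1 - Real.tanh x ^ 2) ^ 2) := by
    unfold Ml
    rw [hF, GoodX.good_lc2]
  have e2 : spR n m r n = Ee n m r n (fun x => Real.tanh x ^ 2) := by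
    rw [spR_eq hm hr le_rfl, hF, GoodX.good_lc1]
  have c1 : Sp7Cb (fun x => Real.tanh x ^ 2) := sp7_cb_sq tc_cb_tanh
  have c2 : Sp7Cb (fun x => (1 - Real.tanh x ^ 2) ^ 2) := by
    refine sp7_cb_sq ?_
    have := sp7_cb_add (sp7_cb_const 1) (sp7_cb_neg c1)
    simpa [sub_eq_add_neg] using this
  have h1 := ee_add hm hr le_rfl c2 c1
  have h2 : Ee n m r n (fun x => (1 - Real.tanh x ^ 2) ^ 2 + Real.tanh x ^ 2) ≤
      Ee n m r n (fun _ => 1) := by
    refine ee_mono hm hr le_rfl (sp7_cb_add c2 c1) (sp7_cb_const 1) fun x => ?_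
    have h3 := Real.tanh_sq_lt_one x
    have h4 := sq_nonneg (Real.tanh x)
    nlinarith
  rw [ee_const hm hr le_rfl, h1, ← e1, ← e2] at h2
  linarith

/-- the top of the minimiser is small near the critical temperature -/
theorem tc_top {b e : ℝ} (hb : 0 < b) {n d l : ℕ} (hl : l + 1 = n) {r : ℕ → ℝ}
    (hr : IsMinD b n d r)
    (h : |Mb n (gm n) r l (r (l + 1) - r l) - 1 / b ^ 2| ≤ e) : r n ≤ b ^ 2 - 1 + b ^ 2 * e := by
  have hm := gm_exponents n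
  have hB := hr.1
  have h1 := Mb_last hm hB.2.1 (show l < n by omega)
  rw [h1, hl] at h
  have h2 := tc_Ml hm hB.2.1
  have h3 := statD hb hr n le_rfl
  have h4 := (abs_le.1 h).1
  have hb2 : 0 < b ^ 2 := by positivity
  have h5 : spR n (gm n) r n ≤ 1 - 1 / b ^ 2 + e := by linarith
  rw [h3]
  calc b ^ 2 * spR n (gm n) r n ≤ b ^ 2 * (1 - 1 / b ^ 2 + e) :=
        mul_le_mul_of_nonneg_left h5 hb2.le
    _ = b ^ 2 - 1 + b ^ 2 * e := by field_simp

/-- the derivatives at the origin near the critical temperature -/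
theorem tc_vk : ∃ C : ℝ, 1 ≤ C ∧ ∀ (n : ℕ) (r : ℕ → ℝ), BPath 2 n r → 1 ≤ n →
    |vv n r - 1| ≤ C * r n ∧ |kk n r - 2| ≤ C * √(r n) := by
  obtain ⟨C, hC, h⟩ := kv 2
  refine ⟨C, hC, fun n r hB hn => ?_⟩
  obtain ⟨l, hl⟩ : ∃ l, l + 1 = n := ⟨n - 1, by omega⟩
  have hmono : r l ≤ r (l + 1) := hB.2.1.2 l (by omega)
  have h1 := h n r hB l (by omega) (r (l + 1) - r l) ⟨by linarith, le_rfl⟩
  have e1 : r l + (r (l + 1) - r l) = r n := by rw [← hl]; ring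
  have e2 : Gb n (gm n) r l (r (l + 1) - r l) = lc := by
    rw [Gb_last (gm_exponents n) (by omega), hl]
    exact fl_last
  rw [e1, e2, GoodX.good_lc2, GoodX.good_lc4] at h1
  simp only [Real.tanh_zero] at h1
  obtain ⟨h2, h3⟩ := h1
  constructor
  · rw [abs_sub_comm]
    have e : (1 : ℝ) - 0 ^ 2 - vv n r = 1 - vv n r := by ring
    rw [e] at h2
    exact h2
  · have e : (6 * (0 : ℝ) ^ 2 - 2) * (1 - 0 ^ 2) + kk n r = kk n r - 2 := by ring
    rw [e] at h3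
    exact h3

/-- algebra -/
theorem tc_alg {c K v k ρ C : ℝ} (hc : 0 < c) (hK : 1 ≤ K) (hC : 1 ≤ C) (hv : c ≤ v)
    (hv1 : v ≤ 1) (hk : c ≤ k) (hkK : k ≤ K) (hρ : 0 ≤ ρ) (hρ4 : ρ ≤ 4)
    (h1 : |v - 1| ≤ C * ρ) (h2 : |k - 2| ≤ C * √ρ) :
    |9 / 80 * v ^ 12 / k ^ 6 - 9 / 5120| ≤ (C * (2000 + 6 * (K + 2) ^ 5) / c ^ 6) * √ρ := by
  have hk0 : 0 < k := by linarith
  have hv0 : 0 < v := by linarith
  have hs : 0 ≤ √ρ := Real.sqrt_nonneg ρ
  have hs2 : √ρ ^ 2 = ρ := Real.sq_sqrt hρ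
  have hs4 : √ρ ≤ 2 := by
    rw [Real.sqrt_le_left (by norm_num)]
    linarith
  have hρs : ρ ≤ 2 * √ρ := by nlinarith
  have a1 : |v ^ 12 - 1| ≤ 12 * |v - 1| := by
    have e : v ^ 12 - 1 = (v - 1) * (∑ i ∈ Finset.range 12, v ^ i) := by
      rw [mul_comm, geom_sum_mul]
    rw [e, abs_mul, mul_comm]
    refine mul_le_mul_of_nonneg_right ?_ (abs_nonneg _)
    rw [abs_of_nonneg (Finset.sum_nonneg fun i _ => pow_nonneg hv0.le i)]
    calc ∑ i ∈ Finset.range 12, v ^ i ≤ ∑ i ∈ Finset.range 12, (1 : ℝ) :=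
          Finset.sum_le_sum fun i _ => pow_le_one₀ hv0.le hv1
      _ = 12 := by simp
  have a2 : |k ^ 6 - 64| ≤ 6 * (K + 2) ^ 5 * |k - 2| := by
    have e : k ^ 6 - 64 = (k - 2) * (k ^ 5 + 2 * k ^ 4 + 4 * k ^ 3 + 8 * k ^ 2 + 16 * k + 32) := by
      ring
    rw [e, abs_mul, mul_comm]
    refine mul_le_mul_of_nonneg_right ?_ (abs_nonneg _)
    rw [abs_of_nonneg (by positivity)]
    have b1 : ∀ i ≤ 5, k ^ i * 2 ^ (5 - i) ≤ (K + 2) ^ 5 := by
      intro i hi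
      calc k ^ i * 2 ^ (5 - i) ≤ (K + 2) ^ i * (K + 2) ^ (5 - i) := by
            gcongr <;> linarith
        _ = (K + 2) ^ 5 := by rw [← pow_add]; congr 1; omega
    have c0 := b1 0 (by norm_num)
    have c1 := b1 1 (by norm_num)
    have c2 := b1 2 (by norm_num)
    have c3 := b1 3 (by norm_num)
    have c4 := b1 4 (by norm_num)
    have c5 := b1 5 (by norm_num)
    norm_num at c0 c1 c2 c3 c4 c5
    linarith
  have e : 9 / 80 * v ^ 12 / k ^ 6 - 9 / 5120 =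
      (9 / 80 * (v ^ 12 - 1) - 9 / 5120 * (k ^ 6 - 64)) / k ^ 6 := by
    field_simp
    ring
  have hk6 : c ^ 6 ≤ k ^ 6 := pow_le_pow_left₀ hc.le hk 6
  have hc6 : 0 < c ^ 6 := by positivity
  rw [e, abs_div, abs_of_pos (by positivity : 0 < k ^ 6)]
  have hnum : |9 / 80 * (v ^ 12 - 1) - 9 / 5120 * (k ^ 6 - 64)| ≤
      C * (2000 + 6 * (K + 2) ^ 5) * √ρ := by
    have b1 : |9 / 80 * (v ^ 12 - 1) - 9 / 5120 * (k ^ 6 - 64)| ≤
        |v ^ 12 - 1| + |k ^ 6 - 64| := by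
      rw [abs_le]
      have := abs_le.1 (le_refl |v ^ 12 - 1|)
      have := abs_le.1 (le_refl |k ^ 6 - 64|)
      have := abs_nonneg (v ^ 12 - 1)
      have := abs_nonneg (k ^ 6 - 64)
      constructor <;> linarith
    have b2 : |v ^ 12 - 1| ≤ C * 2000 * √ρ := by
      have : 12 * |v - 1| ≤ 12 * (C * (2 * √ρ)) := by
        have := mul_le_mul_of_nonneg_left hρs (by linarith : 0 ≤ C)
        linarith
      have h3 : 0 ≤ C * √ρ := by positivity
      linarith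
    have b3 : |k ^ 6 - 64| ≤ C * (6 * (K + 2) ^ 5) * √ρ := by
      have h3 : 0 ≤ 6 * (K + 2) ^ 5 := by positivity
      have := mul_le_mul_of_nonneg_left h2 h3
      linarith
    have : C * (2000 + 6 * (K + 2) ^ 5) * √ρ =
        C * 2000 * √ρ + C * (6 * (K + 2) ^ 5) * √ρ := by ring
    linarith
  calc _ ≤ C * (2000 + 6 * (K + 2) ^ 5) * √ρ / k ^ 6 :=
        div_le_div_of_nonneg_right hnum (by positivity)
    _ ≤ C * (2000 + 6 * (K + 2) ^ 5) * √ρ / c ^ 6 :=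
        div_le_div_of_nonneg_left (by positivity) hc6 hk6
    _ = _ := by ring

end Vale.Agent.P146.Sh
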