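import Vale.Agent.P146.Sh.ShTc0

/-!
# P146, Sh: the constant near the critical temperature: the two bounds
-/

open MeasureTheory ProbabilityTheory Filter Topology Set

namespace Vale.Agent.P146.Sh

open Vale.Agent.P157.Par
open Vale.Agent.P146.Gap
open Vale.Agent.P146.Pw2
open Vale.Agent.P146.Lb
open Vale.Agent.P367.Cl

/-- the coefficient of the step at the minimisers -/
def TcB (b C₀ : ℝ) : Prop := ∃ c C : ℝ, 0 < c ∧ 1 ≤ C ∧ ∀ (n d : ℕ) (r : ℕ → ℝ),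
  1 ≤ d → d ≤ n → IsMinD b n d r → gm n d ≤ c → C ≤ gm n d ^ 40 * ((n : ℝ) + 1) →
    |9 / 80 * vv n r ^ 12 / kk n r ^ 6 - 9 / 5120| ≤ C₀ * √(b ^ 2 - 1 + 4 * gm n d ^ 8)

theorem tc_gm0 (n d : ℕ) : 0 ≤ gm n d := by unfold gm; positivity

theorem tc_pre (hbd : ∃ c K : ℝ, 0 < c ∧ 1 ≤ K ∧ ∀ (n : ℕ) (r : ℕ → ℝ), BPath 2 n r →
      c ≤ vv n r ∧ vv n r ≤ 1 ∧ c ≤ kk n r ∧ kk n r ≤ K) :
    ∃ C₀ : ℝ, 1 ≤ C₀ ∧ ∀ b : ℝ, 1 < b → b ≤ 2 →
      (∃ c C : ℝ, 0 < c ∧ 1 ≤ C ∧ ∀ (n d : ℕ) (r : ℕ → ℝ),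
        1 ≤ d → d ≤ n → IsMinD b n d r → gm n d ≤ c → C ≤ gm n d ^ 40 * (n + 1) →
          c * gm n d ≤ r d ∧ r d ≤ C * gm n d ∧ 2 * C * gm n d ≤ r n ∧
          ∀ l, d ≤ l → l < n → ∀ t ∈ Icc 0 (r (l + 1) - r l),
            |Mb n (gm n) r l t - 1 / b ^ 2| ≤ gm n d ^ 8) → TcB b C₀ := by
  obtain ⟨c, K, hc, hK, hvk⟩ := hbd
  obtain ⟨C, hC, hkv⟩ := tc_vk
  have h0 : 0 ≤ C * (2000 + 6 * (K + 2) ^ 5) / c ^ 6 := by positivity
  refine ⟨C * (2000 + 6 * (K + 2) ^ 5) / c ^ 6 + 1, by linarith, fun b hb hb2 hA => ?_⟩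
  obtain ⟨c₁, C₁, hc₁, hC₁, hl⟩ := hA
  refine ⟨min c₁ (1 / 2), C₁, by positivity, hC₁, fun n d r hd hdn hr hg hbig => ?_⟩
  have hg0 := tc_gm0 n d
  have hn0 : (0 : ℝ) < (n : ℝ) + 1 := by positivity
  have hg2 : gm n d ≤ 1 / 2 := hg.trans (min_le_right _ _)
  have hdn' : d < n := by
    rcases hdn.lt_or_eq with h | h
    · exact h
    · exfalso
      subst h
      unfold gm at hg2 hbig
      rw [div_le_div_iff₀ hn0 (by norm_num)] at hg2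
      have h1 : d = 1 := by
        have : (d : ℝ) ≤ 1 := by linarith
        have : d ≤ 1 := by exact_mod_cast this
        omega
      subst h1
      norm_num at hbig
      linarith
  obtain ⟨l, hl1⟩ : ∃ l, l + 1 = n := ⟨n - 1, by omega⟩
  have hB := hr.1
  have hmono : r l ≤ r (l + 1) := hB.2.1.2 l (by omega)
  obtain ⟨-, -, -, h4⟩ := hl n d r hd hdn hr (hg.trans (min_le_left _ _)) hbig
  have h5 := h4 l (by omega) (by omega) (r (l + 1) - r l) ⟨by linarith, le_rfl⟩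
  have htop := tc_top (by linarith : 0 < b) hl1 hr h5
  have hrn0 : 0 ≤ r n := by
    have hst := statD (by linarith : 0 < b) hr n le_rfl
    have := spR_nonneg (gm_exponents n) hB.2.1 (le_refl n)
    rw [hst]
    positivity
  have hb22 : b ^ 2 ≤ 4 := by nlinarith
  have hrn4 : r n ≤ 4 := hB.2.2.trans hb22
  have hB2 : BPath 2 n r := ⟨hB.1, hB.2.1, by norm_num; exact hrn4⟩
  obtain ⟨v1, v2, k1, k2⟩ := hvk n r hB2
  obtain ⟨a1, a2⟩ := hkv n r hB2 (by omega)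
  refine (tc_alg hc hK hC v1 v2 k1 k2 hrn0 hrn4 a1 a2).trans ?_
  have h6 : √(r n) ≤ √(b ^ 2 - 1 + 4 * gm n d ^ 8) := by
    apply Real.sqrt_le_sqrt
    have h7 : b ^ 2 * gm n d ^ 8 ≤ 4 * gm n d ^ 8 :=
      mul_le_mul_of_nonneg_right hb22 (by positivity)
    linarith
  refine mul_le_mul (by linarith) h6 (Real.sqrt_nonneg _) (by linarith)

theorem tc_inv (b : ℝ) : Tendsto (fun n : ℕ => 2 * b ^ 2 / ((n : ℝ) + 1)) atTop (𝓝 0) :=
  tendsto_const_nhds.div_atTop shlim_n1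

theorem tc_cont (b C₀ C : ℝ) (s : ℝ) : Continuous fun x : ℝ =>
    s * (C₀ * √(b ^ 2 - 1 + 4 * x ^ 8)) + C * √x := by fun_prop

/-- the lower bound -/
theorem tc_low {b C₀ : ℝ} (hb : 1 < b) (hB : TcB b C₀)
    (hdown : ∃ c C : ℝ, 0 < c ∧ 1 ≤ C ∧ ∀ (n d : ℕ) (r : ℕ → ℝ),
      1 ≤ d → d ≤ n → IsMinD b n d r → gm n d ≤ c → C ≤ gm n d ^ 40 * (n + 1) →
        ∃ r', BPath b n r' ∧ SKr b n (gm n) r' + 9 / 80 * vv n r ^ 12 / kk n r ^ 6 * gm n d ^ 5 ≤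
          SKr b n (gm n) r + C * (gm n d ^ 5 * √(gm n d)))
    (hge : ∀ {n d : ℕ}, 1 ≤ d → d ≤ n → ∀ {x : ℝ}, 0 < x → x ≤ 1 → gm n (d - 1) < x →
      ∀ {r : ℕ → ℝ}, IsMinD b n d r → SKr b n (gm n) r ≤ Vx b x + 2 * b ^ 2 / (n + 1)) :
    ∃ c C : ℝ, 0 < c ∧ 1 ≤ C ∧ ∀ x : ℝ, 0 < x → x < c →
      9 / 5120 + (-1 * (C₀ * √(b ^ 2 - 1 + 4 * x ^ 8)) + -C * √x) ≤ (Vx b x - P0 b) / x ^ 5 := by
  obtain ⟨c₁, C₁, hc₁, hC₁, h1⟩ := hB
  obtain ⟨c₂, C₂, hc₂, hC₂, h2⟩ := hdown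
  have hb0 : 0 < b := by linarith
  refine ⟨min (min c₁ c₂) 1, C₂, by positivity, hC₂, fun x hx hxc => ?_⟩
  have hx1 : x < 1 := hxc.trans_le (min_le_right _ _)
  have hxc₁ : x < c₁ := hxc.trans_le ((min_le_left _ _).trans (min_le_left _ _))
  have hxc₂ : x < c₂ := hxc.trans_le ((min_le_left _ _).trans (min_le_right _ _))
  rw [le_div_iff₀ (by positivity)]
  have t := shlim_td hx
  have hL : Tendsto (fun n : ℕ => P0 b + (9 / 5120 +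
      (-1 * (C₀ * √(b ^ 2 - 1 + 4 * gm n (shlimd x n) ^ 8)) + -C₂ * √(gm n (shlimd x n)))) *
        gm n (shlimd x n) ^ 5) atTop (𝓝 (P0 b + (9 / 5120 +
      (-1 * (C₀ * √(b ^ 2 - 1 + 4 * x ^ 8)) + -C₂ * √x)) * x ^ 5)) := by
    have hc : Continuous fun y : ℝ => P0 b + (9 / 5120 +
      (-1 * (C₀ * √(b ^ 2 - 1 + 4 * y ^ 8)) + -C₂ * √y)) * y ^ 5 := by fun_prop
    exact (hc.tendsto x).comp t
  have hR : Tendsto (fun n : ℕ => Vx b x + 2 * b ^ 2 / ((n : ℝ) + 1)) atTop (𝓝 (Vx b x)) := by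
    have := (tc_inv b).const_add (Vx b x)
    rwa [add_zero] at this
  have key := le_of_tendsto_of_tendsto hL hR (by
    filter_upwards [shlim_le hx1, shlim_big hx C₁ 40, shlim_big hx C₂ 40,
      t.eventually (gt_mem_nhds hxc₁), t.eventually (gt_mem_nhds hxc₂)] with n a1 a2 a3 a4 a5
    obtain ⟨r, hr⟩ := exists_minD (n := n) (d := shlimd x n) hb0 a1
    have b1 := h1 n _ r (shlim_one hx n) a1 hr a4.le a2
    obtain ⟨r', hr', b2⟩ := h2 n _ r (shlim_one hx n) a1 hr a5.le a3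
    have b3 := hge (shlim_one hx n) a1 hx hx1.le (shlim_lt hx n) hr
    have b4 : P0 b ≤ SKr b n (gm n) r' := Ld.cor_sInf_le hb.le hr'
    obtain ⟨y, hy⟩ : ∃ y : ℝ, y = gm n (shlimd x n) := ⟨_, rfl⟩
    have hy0 : 0 ≤ y := by rw [hy]; exact tc_gm0 _ _
    rw [← hy] at b1 b2 ⊢
    have hy5 : 0 ≤ y ^ 5 := by positivity
    have b5 := mul_le_mul_of_nonneg_right (abs_le.1 b1).1 hy5
    linarith)
  linarith

/-- the upper bound -/
theorem tc_upp {b C₀ : ℝ} (hb : 1 < b) (hC₀ : 0 ≤ C₀) (hB : TcB b C₀)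
    (hup : ∃ c C : ℝ, 0 < c ∧ 1 ≤ C ∧ ∀ (n d : ℕ) (r : ℕ → ℝ),
      1 ≤ d → d < n → IsMinD b n d r → gm n d ≤ c → C ≤ gm n d ^ 40 * (n + 1) →
        ∃ r', BPath b n r' ∧ (∀ l < d + 1, r' l = 0) ∧ SKr b n (gm n) r' ≤ SKr b n (gm n) r +
          1 / ((n : ℝ) + 1) * (9 / 16 * vv n r ^ 12 / kk n r ^ 6 * gm n d ^ 4 +
            C * (gm n d ^ 4 * √(gm n d))))
    (hle : ∀ {n d : ℕ}, 1 ≤ d → d ≤ n → ∀ {r : ℕ → ℝ}, BPath b n r → (∀ l < d, r l = 0) →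
      Vx b (gm n d) ≤ SKr b n (gm n) r)
    (hge : ∀ {n d : ℕ}, 1 ≤ d → d ≤ n → ∀ {x : ℝ}, 0 < x → x ≤ 1 → gm n (d - 1) < x →
      ∀ {r : ℕ → ℝ}, IsMinD b n d r → SKr b n (gm n) r ≤ Vx b x + 2 * b ^ 2 / (n + 1)) :
    ∃ c C : ℝ, 0 < c ∧ 1 ≤ C ∧ ∀ x : ℝ, 0 < x → x < c →
      Vx b x ≤ Vx b (x / 2) + (9 / 5120 + (1 * (C₀ * √(b ^ 2 - 1 + 4 * x ^ 8)) + C * √x)) *
        (x ^ 5 - (x / 2) ^ 5) := by
  obtain ⟨c₁, C₁, hc₁, hC₁, h1⟩ := hB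
  obtain ⟨c₂, C₂, hc₂, hC₂, h2⟩ := hup
  have hb0 : 0 < b := by linarith
  refine ⟨min (min c₁ c₂) 1, C₂, by positivity, hC₂, fun x hx hxc => ?_⟩
  have hx1 : x < 1 := hxc.trans_le (min_le_right _ _)
  have hxc₁ : x < c₁ := hxc.trans_le ((min_le_left _ _).trans (min_le_left _ _))
  have hxc₂ : x < c₂ := hxc.trans_le ((min_le_left _ _).trans (min_le_right _ _))
  have hx2 : 0 < x / 2 := by positivity
  have hxx : x / 2 ≤ x := by linarith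
  have t := shlim_td hx
  have t2 := shlim_td hx2
  have hR : Tendsto (fun n : ℕ => Vx b (x / 2) + 2 * b ^ 2 / ((n : ℝ) + 1) + (9 / 5120 +
      (1 * (C₀ * √(b ^ 2 - 1 + 4 * gm n (shlimd x n) ^ 8)) + C₂ * √(gm n (shlimd x n)))) *
        (gm n (shlimd x n) ^ 5 - gm n (shlimd (x / 2) n) ^ 5)) atTop
      (𝓝 (Vx b (x / 2) + 0 + (9 / 5120 + (1 * (C₀ * √(b ^ 2 - 1 + 4 * x ^ 8)) + C₂ * √x)) *
        (x ^ 5 - (x / 2) ^ 5))) := by
    have hc : Continuous fun y : ℝ =>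
      9 / 5120 + (1 * (C₀ * √(b ^ 2 - 1 + 4 * y ^ 8)) + C₂ * √y) := by fun_prop
    exact ((tc_inv b).const_add _).add (((hc.tendsto x).comp t).mul ((t.pow 5).sub (t2.pow 5)))
  have key := le_of_tendsto_of_tendsto (tendsto_const_nhds (x := Vx b x)) hR (by
    filter_upwards [shlim_le hx1, shlim_big hx2 C₁ 40, shlim_big hx2 C₂ 40,
      t.eventually (gt_mem_nhds hxc₁), t.eventually (gt_mem_nhds hxc₂)] with n a1 a2 a3 a4 a5
    have hd := shlim_mono hxx n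
    have hone := shlim_one hx2 n
    have hlt := shlim_lt hx2 n
    have hgex := shlim_ge x n
    obtain ⟨d₁, hd₁⟩ : ∃ d₁, d₁ = shlimd (x / 2) n := ⟨_, rfl⟩
    obtain ⟨d₂, hd₂⟩ : ∃ d₂, d₂ = shlimd x n := ⟨_, rfl⟩
    rw [← hd₁] at hd a2 a3 hone hlt ⊢
    rw [← hd₂] at hd a1 a4 a5 hgex ⊢
    have hex : ∀ d : ℕ, ∃ r, d ≤ n → IsMinD b n d r := fun d => by
      by_cases h : d ≤ n
      · obtain ⟨r, hr⟩ := exists_minD (n := n) (d := d) hb0 h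
        exact ⟨r, fun _ => hr⟩
      · exact ⟨fun _ => 0, fun h' => absurd h' h⟩
    choose R hRm using hex
    have hn0 : (0 : ℝ) < (n : ℝ) + 1 := by positivity
    obtain ⟨Y, hY⟩ : ∃ Y : ℝ, Y = gm n d₂ := ⟨_, rfl⟩
    rw [← hY]
    obtain ⟨E, hE⟩ : ∃ E : ℝ, E = 9 / 5120 + (1 * (C₀ * √(b ^ 2 - 1 + 4 * Y ^ 8)) + C₂ * √Y) :=
      ⟨_, rfl⟩
    rw [← hE]
    have hind : ∀ d, d₁ ≤ d → d ≤ d₂ → SKr b n (gm n) (R d) ≤
        SKr b n (gm n) (R d₁) + E * (gm n d ^ 5 - gm n d₁ ^ 5) := by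
      intro d h
      induction d, h using Nat.le_induction with
      | base => intro _; simp
      | succ d hd1 ih =>
        intro hd2
        have ih' := ih (by omega)
        have hm := hRm d (by omega)
        have hgd : gm n d ≤ Y := by
          rw [hY]
          unfold gm
          refine div_le_div_of_nonneg_right ?_ hn0.le
          exact_mod_cast (by omega : d ≤ d₂)
        have hg1d : gm n d₁ ≤ gm n d := by
          unfold gm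
          refine div_le_div_of_nonneg_right ?_ hn0.le
          exact_mod_cast hd1
        have hg0 := tc_gm0 n d
        have hg10 := tc_gm0 n d₁
        have h40 : gm n d₁ ^ 40 * ((n : ℝ) + 1) ≤ gm n d ^ 40 * ((n : ℝ) + 1) :=
          mul_le_mul_of_nonneg_right (pow_le_pow_left₀ hg10 hg1d 40) hn0.le
        have b1 := h1 n d (R d) (by omega) (by omega) hm
          (hgd.trans (by rw [hY]; exact a4.le)) (a2.trans h40)
        obtain ⟨r', hr', hr0, b2⟩ := h2 n d (R d) (by omega) (by omega) hm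
          (hgd.trans (by rw [hY]; exact a5.le)) (a3.trans h40)
        have b3 := (hRm (d + 1) (by omega)).2.2 r' hr' hr0
        have hy1 : gm n (d + 1) = gm n d + 1 / ((n : ℝ) + 1) := by
          unfold gm
          push_cast
          ring
        rw [hy1]
        obtain ⟨y, hy⟩ : ∃ y : ℝ, y = gm n d := ⟨_, rfl⟩
        obtain ⟨δ, hδ⟩ : ∃ δ : ℝ, δ = 1 / ((n : ℝ) + 1) := ⟨_, rfl⟩
        rw [← hy] at b1 b2 hgd hg0 ih' ⊢
        rw [← hδ] at b2 ⊢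
        have hδ0 : 0 ≤ δ := by rw [hδ]; positivity
        have hE0 : 0 ≤ E := by
          rw [hE]
          positivity
        have hY0 : 0 ≤ Y := hg0.trans hgd
        have hsq : √y ≤ √Y := Real.sqrt_le_sqrt hgd
        have hsq8 : √(b ^ 2 - 1 + 4 * y ^ 8) ≤ √(b ^ 2 - 1 + 4 * Y ^ 8) := by
          apply Real.sqrt_le_sqrt
          gcongr
        have b4 : 9 / 80 * vv n (R d) ^ 12 / kk n (R d) ^ 6 ≤
            9 / 5120 + C₀ * √(b ^ 2 - 1 + 4 * Y ^ 8) := by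
          have := (abs_le.1 b1).2
          have h5 := mul_le_mul_of_nonneg_left hsq8 hC₀
          linarith
        have b5 : 9 / 16 * vv n (R d) ^ 12 / kk n (R d) ^ 6 * y ^ 4 + C₂ * (y ^ 4 * √y) ≤
            5 * y ^ 4 * E := by
          have e : 9 / 16 * vv n (R d) ^ 12 / kk n (R d) ^ 6 =
              5 * (9 / 80 * vv n (R d) ^ 12 / kk n (R d) ^ 6) := by ring
          rw [e, hE]
          have hy4 : 0 ≤ y ^ 4 := by positivity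
          have h5 := mul_le_mul_of_nonneg_left b4 (by positivity : 0 ≤ 5 * y ^ 4)
          have h6 : C₂ * (y ^ 4 * √y) ≤ 5 * y ^ 4 * (C₂ * √Y) := by
            have h7 : C₂ * (y ^ 4 * √y) ≤ C₂ * (y ^ 4 * √Y) := by gcongr
            have h8 : 0 ≤ C₂ * (y ^ 4 * √Y) := by positivity
            linarith
          linarith
        have b6 := mul_le_mul_of_nonneg_left b5 hδ0
        have b7 : 5 * δ * y ^ 4 ≤ (y + δ) ^ 5 - y ^ 5 := by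
          have e : (y + δ) ^ 5 - y ^ 5 - 5 * δ * y ^ 4 =
              10 * y ^ 3 * δ ^ 2 + 10 * y ^ 2 * δ ^ 3 + 5 * y * δ ^ 4 + δ ^ 5 := by ring
          have : 0 ≤ 10 * y ^ 3 * δ ^ 2 + 10 * y ^ 2 * δ ^ 3 + 5 * y * δ ^ 4 + δ ^ 5 := by
            positivity
          linarith
        have b8 := mul_le_mul_of_nonneg_left b7 hE0
        have e2 : E * (5 * δ * y ^ 4) = δ * (5 * y ^ 4 * E) := by ring
        rw [e2] at b8
        have e3 : E * ((y + δ) ^ 5 - gm n d₁ ^ 5) =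
            E * ((y + δ) ^ 5 - y ^ 5) + E * (y ^ 5 - gm n d₁ ^ 5) := by ring
        rw [e3]
        linarith
    have c1 := hind d₂ hd le_rfl
    have c2 := hge hone (hd.trans a1) hx2 (by linarith) hlt (hRm d₁ (hd.trans a1))
    have hY1 : gm n d₂ ≤ 1 := by
      unfold gm
      rw [div_le_one hn0]
      have : ((d₂ : ℕ) : ℝ) ≤ n := by exact_mod_cast a1
      linarith
    have c3 : Vx b x ≤ SKr b n (gm n) (R d₂) :=
      (shlim_Vx hb hgex hY1).trans (hle (hone.trans hd) a1 (hRm d₂ a1).1 (hRm d₂ a1).2.1)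
    rw [← hY] at c1
    linarith)
  rw [add_zero] at key
  exact key

/-- the limit -/
theorem tc_lim {b C₀ A : ℝ}
    (hlim : Tendsto (fun x => (Vx b x - P0 b) / x ^ 5) (𝓝[>] 0) (𝓝 A))
    (hlow : ∃ c C : ℝ, 0 < c ∧ 1 ≤ C ∧ ∀ x : ℝ, 0 < x → x < c →
      9 / 5120 + (-1 * (C₀ * √(b ^ 2 - 1 + 4 * x ^ 8)) + -C * √x) ≤ (Vx b x - P0 b) / x ^ 5)
    (hupp : ∃ c C : ℝ, 0 < c ∧ 1 ≤ C ∧ ∀ x : ℝ, 0 < x → x < c →
      Vx b x ≤ Vx b (x / 2) + (9 / 5120 + (1 * (C₀ * √(b ^ 2 - 1 + 4 * x ^ 8)) + C * √x)) *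
        (x ^ 5 - (x / 2) ^ 5)) :
    |A - 9 / 5120| ≤ C₀ * √(b ^ 2 - 1) := by
  have hfun : ∀ s C : ℝ, Tendsto (fun x : ℝ =>
      9 / 5120 + (s * (C₀ * √(b ^ 2 - 1 + 4 * x ^ 8)) + C * √x)) (𝓝[>] 0)
      (𝓝 (9 / 5120 + s * (C₀ * √(b ^ 2 - 1)))) := by
    intro s C
    have hc : Continuous fun x : ℝ =>
      9 / 5120 + (s * (C₀ * √(b ^ 2 - 1 + 4 * x ^ 8)) + C * √x) := by fun_prop
    have h := (hc.tendsto 0).mono_left (nhdsWithin_le_nhds (s := Ioi 0))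
    have e : 9 / 5120 + (s * (C₀ * √(b ^ 2 - 1 + 4 * (0 : ℝ) ^ 8)) + C * √0) =
        9 / 5120 + s * (C₀ * √(b ^ 2 - 1)) := by
      rw [Real.sqrt_zero]
      norm_num
    rw [e] at h
    exact h
  rw [abs_le]
  constructor
  · obtain ⟨c, C, hc, hC, h⟩ := hlow
    have h1 := le_of_tendsto_of_tendsto (hfun (-1) (-C)) hlim (by
      filter_upwards [Ioo_mem_nhdsGT hc] with x hx
      exact h x hx.1 hx.2)
    linarith
  · obtain ⟨c, C, hc, hC, h⟩ := hupp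
    have hhalf : Tendsto (fun x : ℝ => x / 2) (𝓝[>] 0) (𝓝[>] 0) := by
      refine tendsto_nhdsWithin_iff.2 ⟨?_, ?_⟩
      · have hc2 : Continuous fun x : ℝ => x / 2 := by fun_prop
        have := (hc2.tendsto 0).mono_left (nhdsWithin_le_nhds (s := Ioi 0))
        simpa using this
      · filter_upwards [self_mem_nhdsWithin] with x hx
        have hx0 : (0 : ℝ) < x := hx
        exact half_pos hx0
    have h2 : Tendsto (fun x : ℝ => (Vx b (x / 2) - P0 b) / (x / 2) ^ 5) (𝓝[>] 0) (𝓝 A) :=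
      hlim.comp hhalf
    have h3 := (h2.div_const 32).add ((hfun 1 C).mul_const (31 / 32))
    have h1 := le_of_tendsto_of_tendsto hlim h3 (by
      filter_upwards [Ioo_mem_nhdsGT hc] with x hx
      have h4 := h x hx.1 hx.2
      have hx0 : 0 < x := hx.1
      have hx5 : 0 < x ^ 5 := by positivity
      rw [div_le_iff₀ hx5]
      have e1 : ((Vx b (x / 2) - P0 b) / (x / 2) ^ 5 / 32 +
          (9 / 5120 + (1 * (C₀ * √(b ^ 2 - 1 + 4 * x ^ 8)) + C * √x)) * (31 / 32)) * x ^ 5 =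
          (Vx b (x / 2) - P0 b) + (9 / 5120 + (1 * (C₀ * √(b ^ 2 - 1 + 4 * x ^ 8)) + C * √x)) *
            (x ^ 5 - (x / 2) ^ 5) := by
        field_simp
        ring
      rw [e1]
      linarith)
    linarith

/-- the constant near the critical temperature, over the bricks -/
theorem tc_of (hbd : ∃ c K : ℝ, 0 < c ∧ 1 ≤ K ∧ ∀ (n : ℕ) (r : ℕ → ℝ), BPath 2 n r →
      c ≤ vv n r ∧ vv n r ≤ 1 ∧ c ≤ kk n r ∧ kk n r ≤ K) :
    ∃ C₀ : ℝ, 1 ≤ C₀ ∧ ∀ b : ℝ, 1 < b → b ≤ 2 →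
      (∃ c C : ℝ, 0 < c ∧ 1 ≤ C ∧ ∀ (n d : ℕ) (r : ℕ → ℝ),
        1 ≤ d → d ≤ n → IsMinD b n d r → gm n d ≤ c → C ≤ gm n d ^ 40 * (n + 1) →
          c * gm n d ≤ r d ∧ r d ≤ C * gm n d ∧ 2 * C * gm n d ≤ r n ∧
          ∀ l, d ≤ l → l < n → ∀ t ∈ Icc 0 (r (l + 1) - r l),
            |Mb n (gm n) r l t - 1 / b ^ 2| ≤ gm n d ^ 8) →
      (∃ c C : ℝ, 0 < c ∧ 1 ≤ C ∧ ∀ (n d : ℕ) (r : ℕ → ℝ),
        1 ≤ d → d ≤ n → IsMinD b n d r → gm n d ≤ c → C ≤ gm n d ^ 40 * (n + 1) →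
          ∃ r', BPath b n r' ∧ SKr b n (gm n) r' + 9 / 80 * vv n r ^ 12 / kk n r ^ 6 * gm n d ^ 5 ≤
            SKr b n (gm n) r + C * (gm n d ^ 5 * √(gm n d))) →
      (∃ c C : ℝ, 0 < c ∧ 1 ≤ C ∧ ∀ (n d : ℕ) (r : ℕ → ℝ),
        1 ≤ d → d < n → IsMinD b n d r → gm n d ≤ c → C ≤ gm n d ^ 40 * (n + 1) →
          ∃ r', BPath b n r' ∧ (∀ l < d + 1, r' l = 0) ∧ SKr b n (gm n) r' ≤ SKr b n (gm n) r +
            1 / ((n : ℝ) + 1) * (9 / 16 * vv n r ^ 12 / kk n r ^ 6 * gm n d ^ 4 +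
              C * (gm n d ^ 4 * √(gm n d)))) →
      (∀ {n d : ℕ}, 1 ≤ d → d ≤ n → ∀ {r : ℕ → ℝ}, BPath b n r → (∀ l < d, r l = 0) →
        Vx b (gm n d) ≤ SKr b n (gm n) r) →
      (∀ {n d : ℕ}, 1 ≤ d → d ≤ n → ∀ {x : ℝ}, 0 < x → x ≤ 1 → gm n (d - 1) < x →
        ∀ {r : ℕ → ℝ}, IsMinD b n d r → SKr b n (gm n) r ≤ Vx b x + 2 * b ^ 2 / (n + 1)) →
      ∀ A : ℝ, Tendsto (fun x => (Vx b x - P0 b) / x ^ 5) (𝓝[>] 0) (𝓝 A) →
        |A - 9 / 5120| ≤ C₀ * √(b ^ 2 - 1) := by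
  obtain ⟨C₀, hC₀, h⟩ := tc_pre hbd
  refine ⟨C₀, hC₀, fun b hb hb2 hA hdown hup hle hge A hlim => ?_⟩
  have hB := h b hb hb2 hA
  exact tc_lim hlim (tc_low hb hB hdown hge) (tc_upp hb (by linarith) hB hup hle hge)

/-- the constant as a function of the inverse temperature -/
theorem tc_Lam_of {C₀ : ℝ} (h1 : ∀ b : ℝ, 1 < b → ∃ A : ℝ, 0 < A ∧
      Tendsto (fun x => (Vx b x - P0 b) / x ^ 5) (𝓝[>] 0) (𝓝 A))
    (h2 : ∀ b : ℝ, 1 < b → b ≤ 2 → ∀ A : ℝ,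
      Tendsto (fun x => (Vx b x - P0 b) / x ^ 5) (𝓝[>] 0) (𝓝 A) →
        |A - 9 / 5120| ≤ C₀ * √(b ^ 2 - 1)) :
    ∃ Λ : ℝ → ℝ, Tendsto Λ (𝓝[>] 1) (𝓝 (9 / 5120)) ∧ ∀ b : ℝ, 1 < b → 0 < Λ b ∧
      Tendsto (fun x => (Vx b x - P0 b) / x ^ 5) (𝓝[>] 0) (𝓝 (Λ b)) := by
  have h : ∀ b : ℝ, ∃ A : ℝ, 1 < b → 0 < A ∧
      Tendsto (fun x => (Vx b x - P0 b) / x ^ 5) (𝓝[>] 0) (𝓝 A) := fun b => by
    by_cases hb : 1 < b
    · obtain ⟨A, hA⟩ := h1 b hb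
      exact ⟨A, fun _ => hA⟩
    · exact ⟨0, fun h => absurd h hb⟩
  choose Λ hΛ using h
  refine ⟨Λ, ?_, hΛ⟩
  rw [tendsto_iff_dist_tendsto_zero]
  have hc : Continuous fun b : ℝ => C₀ * √(b ^ 2 - 1) := by fun_prop
  have ht : Tendsto (fun b : ℝ => C₀ * √(b ^ 2 - 1)) (𝓝[>] 1) (𝓝 0) := by
    have h := (hc.tendsto 1).mono_left (nhdsWithin_le_nhds (s := Ioi 1))
    have e : C₀ * √((1 : ℝ) ^ 2 - 1) = 0 := by norm_num
    rwa [e] at h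
  refine squeeze_zero' (Eventually.of_forall fun _ => dist_nonneg) ?_ ht
  filter_upwards [Ioo_mem_nhdsGT (show (1 : ℝ) < 2 by norm_num)] with b hb
  rw [Real.dist_eq]
  exact h2 b hb.1 hb.2.le (Λ b) (hΛ b hb.1).2

end Vale.Agent.P146.Sh
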