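import Vale.Agent.P146.Sh.ShDefs

/-!
# P146, Sh: increasing the first exponent by one step
-/

open MeasureTheory ProbabilityTheory Filter Topology Set

namespace Vale.Agent.P146.Sh

open Vale.Agent.P157.Par
open Vale.Agent.P146.Gap
open Vale.Agent.P146.Pw2
open Vale.Agent.P146.Lb
open Vale.Agent.P367.Cl

theorem up_sum {n d : ℕ} {r : ℕ → ℝ} (hd : d < n) (hr : ∀ l < d, r l = 0) :
    ∑ l ∈ Finset.range (n + 1), (gm n (l + 1) - gm n l) * one_r (d + 1) (d + 1) 0 r l ^ 2 =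
      (∑ l ∈ Finset.range (n + 1), (gm n (l + 1) - gm n l) * r l ^ 2) -
        1 / ((n : ℝ) + 1) * r d ^ 2 := by
  have hstep : ∀ l : ℕ, gm n (l + 1) - gm n l = 1 / (n + 1) := fun l => by
    unfold gm
    push_cast
    ring
  have h1 : ∀ l ∈ Finset.range (n + 1),
      (gm n (l + 1) - gm n l) * one_r (d + 1) (d + 1) 0 r l ^ 2 =
      (gm n (l + 1) - gm n l) * r l ^ 2 -
        if l = d then 1 / ((n : ℝ) + 1) * r d ^ 2 else 0 := fun l _ => by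
    rw [hstep]
    unfold one_r
    by_cases h2 : l < d + 1
    · rw [if_pos h2]
      by_cases h3 : l = d
      · rw [if_pos h3, h3]
        ring
      · rw [if_neg h3, hr l (by omega)]
        ring
    · rw [if_neg h2, if_neg h2, if_neg (by omega)]
      ring
  rw [Finset.sum_congr rfl h1, Finset.sum_sub_distrib, Finset.sum_ite_eq',
    if_pos (Finset.mem_range.2 (by omega))]

theorem up_good {n l : ℕ} {r : ℕ → ℝ} (hr : Path n r) (hl : l ≤ n) (hl1 : 1 ≤ l) :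
    ∃ C, Good (gm n l) C (Fl n (gm n) r l) := by
  obtain ⟨C0, h0⟩ := fl_good (gm_exponents n) hr hl
  exact ⟨C0, h0.lower (grid_gm_pos hl1) (grid_gm_mono (Nat.le_succ _))⟩

theorem up_diff {b : ℝ} {n d : ℕ} {r : ℕ → ℝ} (hr : BPath b n r) (hd1 : 1 ≤ d) (hdn : d < n)
    (h0 : ∀ l < d, r l = 0) :
    SKr b n (gm n) (one_r (d + 1) (d + 1) 0 r) = SKr b n (gm n) r +
      1 / 2 * (1 / ((n : ℝ) + 1)) * ((∫ τ in (0 : ℝ)..(r d),
        Rf (gm n (d + 1)) (gm n d) (r d) (Fl n (gm n) r d) τ) - r d ^ 2 / (2 * b ^ 2)) := by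
  have hpos : ∀ l, 1 ≤ l → gm n l ≠ 0 := fun l h1 => (grid_gm_pos h1).ne'
  have hle1 : ∀ l, l ≤ n + 1 → gm n l ≤ 1 := fun l h1 => by
    unfold gm
    rw [div_le_one (by positivity)]
    exact_mod_cast h1
  have hrd : 0 ≤ r d := len_nonneg hr (by omega)
  have hrd1 : 0 ≤ r (d + 1) := len_nonneg hr (by omega)
  have hstep : gm n (d + 1) - gm n d = 1 / ((n : ℝ) + 1) := by
    unfold gm
    push_cast
    ring
  have hpath := one_path (τ := 0) hr (show 1 ≤ d + 1 by omega) le_rfl (show d + 1 ≤ n by omega)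
    le_rfl hrd1
  obtain ⟨CG, hG⟩ := up_good hr.2.1 hdn.le hd1
  obtain ⟨C1, hG1⟩ := up_good hr.2.1 (show d + 1 ≤ n by omega) (show 1 ≤ d + 1 by omega)
  have c1 : cascade (gm n) r n lc 0 = gstep (gm n d) (r d) (Fl n (gm n) r d) 0 := by
    rw [fl_split hdn.le, minb_block hd1 (fun l h1 _ => hpos l h1) (fun l hl => by
      rw [h0 l hl, h0 0 (by omega)]), hr.1, sub_zero]
  have c2 : cascade (gm n) (one_r (d + 1) (d + 1) 0 r) n lc 0 =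
      gstep (gm n (d + 1)) (r (d + 1)) (Fl n (gm n) r (d + 1)) 0 := by
    rw [fl_split (show d + 1 ≤ n by omega), one_fl le_rfl, minb_block (by omega)
      (fun l h1 _ => hpos l h1) (fun l hl => by
        unfold one_r
        rw [if_pos hl, if_pos (by omega)])]
    have e5 : one_r (d + 1) (d + 1) 0 r (d + 1) = r (d + 1) := by
      unfold one_r
      rw [if_neg (by omega), if_neg (by omega)]
    rw [e5, hpath.1, sub_zero]
  have c3 : gstep (gm n (d + 1)) (r (d + 1)) (Fl n (gm n) r (d + 1)) =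
      gstep (gm n (d + 1)) (r d) (Fl n (gm n) r d) := by
    rw [fl_succ hdn, gstep_add hG1.adm (grid_gm_pos (by omega)) hrd (by
      have := hr.2.1.2 d hdn
      linarith)]
    congr 1
    ring
  have c4 := gstep_diff hG.adm (grid_gm_pos hd1) (hle1 d (by omega))
    (grid_gm_pos (show 1 ≤ d + 1 by omega)) (hle1 (d + 1) (by omega)) hrd 0
  have e1 : one_r (d + 1) (d + 1) 0 r n = r n := by
    unfold one_r
    rw [if_neg (by omega), if_neg (by omega)]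
  unfold SKr
  rw [one_spin hpath.1, one_spin hr.1, c1, c2, c3, up_sum hdn h0, e1]
  have c5 : gstep (gm n (d + 1)) (r d) (Fl n (gm n) r d) 0 =
      gstep (gm n d) (r d) (Fl n (gm n) r d) 0 + 1 / 2 * (1 / ((n : ℝ) + 1)) *
        ∫ τ in (0 : ℝ)..(r d), Rf (gm n (d + 1)) (gm n d) (r d) (Fl n (gm n) r d) τ := by
    rw [← hstep]
    have : (∫ τ in (0 : ℝ)..(r d), Rf (gm n (d + 1)) (gm n d) (r d) (Fl n (gm n) r d) τ) =
      ∫ τ in (0 : ℝ)..(r d), tlt (gm n (d + 1)) τ (gstep (gm n d) (r d - τ) (Fl n (gm n) r d))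
        (fun y => iteratedDeriv 1 (gstep (gm n d) (r d - τ) (Fl n (gm n) r d)) y ^ 2) 0 := rfl
    rw [this]
    linarith
  rw [c5]
  ring

theorem up_Rb {n d : ℕ} {r : ℕ → ℝ} (hr : Path n r) (h00 : r 0 = 0) (hdn : d + 1 ≤ n)
    (h0 : ∀ l < d + 1, r l = 0) {s : ℝ} (hs : s ∈ Icc 0 (r (d + 1))) :
    Rb n (gm n) r d s = Rf (gm n (d + 1)) (gm n (d + 1)) (r (d + 1)) (Fl n (gm n) r (d + 1)) s := by
  have hm := gm_exponents n
  have hrd : r d = 0 := h0 d (Nat.lt_succ_self _)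
  obtain ⟨CG, hG⟩ := up_good hr hdn (show 1 ≤ d + 1 by omega)
  have hx1 : gm n (d + 1) ≤ 1 := by
    unfold gm
    rw [div_le_one (by positivity)]
    have : ((d + 1 : ℕ) : ℝ) ≤ n := by exact_mod_cast hdn
    linarith
  have e1 : Gb n (gm n) r d s = gstep (gm n (d + 1)) (r (d + 1) - s) (Fl n (gm n) r (d + 1)) := by
    unfold Gb
    rw [hrd, sub_zero]
  unfold Rb Bt
  have hcb : ∃ C', Adm C' (Gb n (gm n) r d s) := by
    rw [e1]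
    have := hG.step (grid_gm_pos (by omega)) le_rfl hx1 (s := r (d + 1) - s) (by linarith [hs.2])
    exact ⟨_, this.adm⟩
  obtain ⟨C', hC'⟩ := hcb
  rw [rep_zero hm hr h00 (by omega) hrd
    (sp7_cb_tlt (adm_ec hC') (nest_cb_pow (nest_cb1 hC') 2) _ _), e1]
  rfl

/-- The real number estimate. -/
theorem up_num {κ v x R e : ℝ} (hκ : 0 < κ) (hv0 : 0 ≤ v) (hv : v ≤ 1) (hx : 0 ≤ x) (hR : 0 ≤ R)
    (he : 0 ≤ e) (h : |κ ^ 2 * R - 3 * x * v ^ 3| ≤ e) :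
    κ ^ 2 * R ^ 4 / 72 ≤ 9 / 8 * v ^ 12 / κ ^ 6 * x ^ 4 + e * (3 * x + e) ^ 3 / (18 * κ ^ 6) := by
  have h1 : κ ^ 2 * R ≤ 3 * x * v ^ 3 + e := by
    have := (abs_le.1 h).2
    linarith
  set a := 3 * x * v ^ 3 with ha
  have ha0 : 0 ≤ a := by positivity
  have ha3 : a ≤ 3 * x := by
    have : v ^ 3 ≤ 1 := pow_le_one₀ hv0 hv
    rw [ha]
    nlinarith
  have h2 : (κ ^ 2 * R) ^ 4 ≤ (a + e) ^ 4 := pow_le_pow_left₀ (by positivity) h1 4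
  have h3 : (a + e) ^ 4 ≤ a ^ 4 + 4 * e * (a + e) ^ 3 := by
    have : a ^ 4 + 4 * e * (a + e) ^ 3 - (a + e) ^ 4 =
        e ^ 2 * (6 * a ^ 2 + 8 * a * e + 3 * e ^ 2) := by ring
    have h4 : 0 ≤ e ^ 2 * (6 * a ^ 2 + 8 * a * e + 3 * e ^ 2) := by positivity
    linarith
  have h5 : (a + e) ^ 3 ≤ (3 * x + e) ^ 3 := pow_le_pow_left₀ (by positivity) (by linarith) 3
  have h6 : 4 * e * (a + e) ^ 3 ≤ 4 * e * (3 * x + e) ^ 3 :=
    mul_le_mul_of_nonneg_left h5 (by positivity)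
  have h7 : (κ ^ 2 * R) ^ 4 ≤ a ^ 4 + 4 * e * (3 * x + e) ^ 3 := by linarith
  have h8 : κ ^ 2 * R ^ 4 / 72 = (κ ^ 2 * R) ^ 4 / (72 * κ ^ 6) := by
    field_simp
  have h9 : 9 / 8 * v ^ 12 / κ ^ 6 * x ^ 4 + e * (3 * x + e) ^ 3 / (18 * κ ^ 6) =
      (a ^ 4 + 4 * e * (3 * x + e) ^ 3) / (72 * κ ^ 6) := by
    rw [ha]
    field_simp
    ring
  rw [h8, h9]
  exact div_le_div_of_nonneg_right h7 (by positivity)

theorem up_real {K C1 c0 κ v x V δ I : ℝ} (hK : 0 ≤ K) (hC1 : 1 ≤ C1) (hc0 : 0 < c0)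
    (hκ0 : c0 ≤ κ) (hv0 : 0 ≤ v) (hv1 : v ≤ 1) (hx0 : 0 < x) (hx1 : x ≤ 1) (hV0 : 0 ≤ V)
    (hδ0 : 0 < δ) (hδx : δ ≤ x ^ 40) (hB1 : |κ ^ 2 * V - 3 * x * v ^ 3| ≤ C1 * (x * √x))
    (hI : I ≤ κ ^ 2 * V ^ 4 / 72 + C1 * (x ^ 4 * √x) + K * δ * (V ^ 3 / 3)) :
    1 / 2 * δ * I ≤ δ * (9 / 16 * v ^ 12 / κ ^ 6 * x ^ 4 +
      (C1 + C1 * (3 + C1) ^ 3 / (18 * c0 ^ 6) + K * (3 + C1) ^ 3 / (3 * c0 ^ 6)) *
        (x ^ 4 * √x)) := by
  have hC10 : 0 < C1 := by linarith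
  have hκ : 0 < κ := hc0.trans_le hκ0
  have hsx : √x ≤ 1 := Real.sqrt_le_one.2 hx1
  have hsx0 : 0 ≤ √x := Real.sqrt_nonneg _
  have hxsx : x ≤ √x := by
    have h1 := Real.mul_self_sqrt hx0.le
    nlinarith
  have hA2 : 0 ≤ K * (3 + C1) ^ 3 / (3 * c0 ^ 6) := by positivity
  have he0 : 0 ≤ C1 * (x * √x) := by positivity
  have n1 := up_num hκ hv0 hv1 hx0.le hV0 he0 hB1
  have he1 : C1 * (x * √x) ≤ C1 * x := by
    refine mul_le_mul_of_nonneg_left ?_ hC10.le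
    calc x * √x ≤ x * 1 := mul_le_mul_of_nonneg_left hsx hx0.le
      _ = x := mul_one x
  have n2 : C1 * (x * √x) * (3 * x + C1 * (x * √x)) ^ 3 / (18 * κ ^ 6) ≤
      C1 * (3 + C1) ^ 3 / (18 * c0 ^ 6) * (x ^ 4 * √x) := by
    have h1 : (3 * x + C1 * (x * √x)) ^ 3 ≤ ((3 + C1) * x) ^ 3 :=
      pow_le_pow_left₀ (by positivity) (by linarith) 3
    have h2 : C1 * (x * √x) * (3 * x + C1 * (x * √x)) ^ 3 ≤
        C1 * (x * √x) * ((3 + C1) * x) ^ 3 := mul_le_mul_of_nonneg_left h1 he0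
    have h3 : C1 * (x * √x) * ((3 + C1) * x) ^ 3 = C1 * (3 + C1) ^ 3 * (x ^ 4 * √x) := by ring
    have h4 : 18 * c0 ^ 6 ≤ 18 * κ ^ 6 :=
      mul_le_mul_of_nonneg_left (pow_le_pow_left₀ hc0.le hκ0 6) (by norm_num)
    calc C1 * (x * √x) * (3 * x + C1 * (x * √x)) ^ 3 / (18 * κ ^ 6)
        ≤ C1 * (3 + C1) ^ 3 * (x ^ 4 * √x) / (18 * κ ^ 6) :=
          div_le_div_of_nonneg_right (by linarith) (by positivity)
      _ ≤ C1 * (3 + C1) ^ 3 * (x ^ 4 * √x) / (18 * c0 ^ 6) :=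
          div_le_div_of_nonneg_left (by positivity) (by positivity) h4
      _ = C1 * (3 + C1) ^ 3 / (18 * c0 ^ 6) * (x ^ 4 * √x) := by ring
  have n3 : V ≤ (3 + C1) * x / c0 ^ 2 := by
    rw [le_div_iff₀ (by positivity)]
    have h1 := (abs_le.1 hB1).2
    have h2 : v ^ 3 ≤ 1 := pow_le_one₀ hv0 hv1
    have h3 : 3 * x * v ^ 3 ≤ 3 * x * 1 := mul_le_mul_of_nonneg_left h2 (by positivity)
    have h4 : c0 ^ 2 * V ≤ κ ^ 2 * V :=
      mul_le_mul_of_nonneg_right (pow_le_pow_left₀ hc0.le hκ0 2) hV0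
    linarith
  have n4 : K * δ * (V ^ 3 / 3) ≤ K * (3 + C1) ^ 3 / (3 * c0 ^ 6) * (x ^ 4 * √x) := by
    have h1 : V ^ 3 ≤ ((3 + C1) * x / c0 ^ 2) ^ 3 := pow_le_pow_left₀ hV0 n3 3
    have h2 : x ^ 40 * x ^ 3 ≤ x ^ 4 * √x := by
      have h3 : x ^ 38 ≤ 1 := pow_le_one₀ hx0.le hx1
      have h4 : x ^ 40 * x ^ 3 = x ^ 4 * (x * x ^ 38) := by ring
      rw [h4]
      refine mul_le_mul_of_nonneg_left ?_ (by positivity)
      calc x * x ^ 38 ≤ x * 1 := mul_le_mul_of_nonneg_left h3 hx0.le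
        _ ≤ √x := by linarith
    have h5 : K * δ * (V ^ 3 / 3) ≤ K * x ^ 40 * (((3 + C1) * x / c0 ^ 2) ^ 3 / 3) :=
      mul_le_mul (mul_le_mul_of_nonneg_left hδx hK) (by linarith) (by positivity) (by positivity)
    have h6 : K * x ^ 40 * (((3 + C1) * x / c0 ^ 2) ^ 3 / 3) =
        K * (3 + C1) ^ 3 / (3 * c0 ^ 6) * (x ^ 40 * x ^ 3) := by
      field_simp
    rw [h6] at h5
    exact h5.trans (mul_le_mul_of_nonneg_left h2 hA2)
  have n6 : I ≤ 9 / 8 * v ^ 12 / κ ^ 6 * x ^ 4 +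
      (C1 + C1 * (3 + C1) ^ 3 / (18 * c0 ^ 6) + K * (3 + C1) ^ 3 / (3 * c0 ^ 6)) *
        (x ^ 4 * √x) := by
    have e1 : (C1 + C1 * (3 + C1) ^ 3 / (18 * c0 ^ 6) + K * (3 + C1) ^ 3 / (3 * c0 ^ 6)) *
        (x ^ 4 * √x) = C1 * (x ^ 4 * √x) +
        C1 * (3 + C1) ^ 3 / (18 * c0 ^ 6) * (x ^ 4 * √x) +
        K * (3 + C1) ^ 3 / (3 * c0 ^ 6) * (x ^ 4 * √x) := by ring
    rw [e1]
    linarith
  have hW0 : 0 ≤ C1 + C1 * (3 + C1) ^ 3 / (18 * c0 ^ 6) + K * (3 + C1) ^ 3 / (3 * c0 ^ 6) := by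
    positivity
  generalize C1 + C1 * (3 + C1) ^ 3 / (18 * c0 ^ 6) + K * (3 + C1) ^ 3 / (3 * c0 ^ 6) = W at *
  have n7 : 1 / 2 * δ * I ≤ 1 / 2 * δ * (9 / 8 * v ^ 12 / κ ^ 6 * x ^ 4 + W * (x ^ 4 * √x)) :=
    mul_le_mul_of_nonneg_left n6 (by positivity)
  have n8 : 1 / 2 * δ * (9 / 8 * v ^ 12 / κ ^ 6 * x ^ 4 + W * (x ^ 4 * √x)) =
      δ * (9 / 16 * v ^ 12 / κ ^ 6 * x ^ 4 + W * (x ^ 4 * √x)) -
        1 / 2 * δ * (W * (x ^ 4 * √x)) := by ring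
  have n9 : 0 ≤ 1 / 2 * δ * (W * (x ^ 4 * √x)) := by positivity
  linarith

/-- The integral of the tilted overlap. -/
theorem up_int {b K : ℝ} {n d : ℕ} {r : ℕ → ℝ} (hK : ∀ (C g g₁ g₂ s₁ : ℝ) (F : ℝ → ℝ), Adm C F →
      0 < g → g ≤ 1 → 0 < g₁ → g₁ ≤ g₂ → g₂ ≤ 1 → s₁ ≤ b ^ 2 → ∀ τ ∈ Icc 0 s₁,
      Rf g₂ g s₁ F τ ≤ Rf g₁ g s₁ F τ + K * (g₂ - g₁) * τ ^ 2)
    (hr : BPath b n r) (hdn : d + 1 < n) (h0 : ∀ l < d + 1, r l = 0) :
    (∫ τ in (0 : ℝ)..(r (d + 1)),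
      Rf (gm n (d + 1 + 1)) (gm n (d + 1)) (r (d + 1)) (Fl n (gm n) r (d + 1)) τ) -
        r (d + 1) ^ 2 / (2 * b ^ 2) ≤
      (∫ s in (0 : ℝ)..(r (d + 1)), (Rb n (gm n) r d s - s / b ^ 2)) +
        K * (1 / ((n : ℝ) + 1)) * (r (d + 1) ^ 3 / 3) := by
  have hx0 : 0 < gm n (d + 1) := grid_gm_pos (by omega)
  have hx'0 : 0 < gm n (d + 1 + 1) := grid_gm_pos (by omega)
  have hx'1 : gm n (d + 1 + 1) ≤ 1 := by
    unfold gm
    rw [div_le_one (by positivity)]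
    have : ((d + 1 + 1 : ℕ) : ℝ) ≤ n := by exact_mod_cast hdn
    linarith
  have hstep : gm n (d + 1 + 1) - gm n (d + 1) = 1 / ((n : ℝ) + 1) := by
    unfold gm
    push_cast
    ring
  have hδ0 : 0 ≤ 1 / ((n : ℝ) + 1) := by positivity
  have hxx : gm n (d + 1) ≤ gm n (d + 1 + 1) := by linarith
  have hx1 : gm n (d + 1) ≤ 1 := hxx.trans hx'1
  obtain ⟨CG, hG⟩ := up_good hr.2.1 hdn.le (show 1 ≤ d + 1 by omega)
  have hV0 : 0 ≤ r (d + 1) := len_nonneg hr (by omega)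
  have hVb : r (d + 1) ≤ b ^ 2 := (len_mono hr (show d + 1 ≤ n by omega) le_rfl).trans hr.2.2
  have c5 : ∀ s ∈ Icc 0 (r (d + 1)),
      Rf (gm n (d + 1 + 1)) (gm n (d + 1)) (r (d + 1)) (Fl n (gm n) r (d + 1)) s ≤
        Rb n (gm n) r d s + K * (1 / ((n : ℝ) + 1)) * s ^ 2 := by
    intro s hs
    have h1 := hK CG _ _ _ _ _ hG.adm hx0 hx1 hx0 hxx hx'1 hVb s hs
    rw [up_Rb hr.2.1 hr.1 (by omega) h0 hs]
    rw [hstep] at h1
    exact h1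
  have hrd : r d = 0 := h0 d (Nat.lt_succ_self _)
  have hRbc : ContinuousOn (Rb n (gm n) r d) (Icc 0 (r (d + 1))) := by
    refine (Rb_cont (gm_exponents n) hr.2.1 (by omega)).mono (Icc_subset_Icc_right ?_)
    rw [hrd, sub_zero]
  have i1 : IntervalIntegrable (Rb n (gm n) r d) volume 0 (r (d + 1)) :=
    ContinuousOn.intervalIntegrable (by rw [uIcc_of_le hV0]; exact hRbc)
  have i2 : IntervalIntegrable (fun s => K * (1 / ((n : ℝ) + 1)) * s ^ 2) volume 0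
      (r (d + 1)) := Continuous.intervalIntegrable (by fun_prop) _ _
  have i3 : IntervalIntegrable (Rf (gm n (d + 1 + 1)) (gm n (d + 1)) (r (d + 1))
      (Fl n (gm n) r (d + 1))) volume 0 (r (d + 1)) :=
    ContinuousOn.intervalIntegrable (by
      rw [uIcc_of_le hV0]
      exact Rf_cont hG.adm hx0 hx1 hx'0 hx'1)
  have c6 := intervalIntegral.integral_mono_on hV0 i3 (i1.add i2) c5
  have c7 : ∫ s in (0 : ℝ)..(r (d + 1)), (Rb n (gm n) r d s + K * (1 / ((n : ℝ) + 1)) * s ^ 2) =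
      (∫ s in (0 : ℝ)..(r (d + 1)), Rb n (gm n) r d s) +
        K * (1 / ((n : ℝ) + 1)) * (r (d + 1) ^ 3 / 3) := by
    rw [intervalIntegral.integral_add i1 i2, intervalIntegral.integral_const_mul, integral_pow]
    norm_num
  have c8 : ∫ s in (0 : ℝ)..(r (d + 1)), (Rb n (gm n) r d s - s / b ^ 2) =
      (∫ s in (0 : ℝ)..(r (d + 1)), Rb n (gm n) r d s) - r (d + 1) ^ 2 / 2 / b ^ 2 := by
    rw [intervalIntegral.integral_sub i1 (Continuous.intervalIntegrable (by fun_prop) _ _),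
      intervalIntegral.integral_div, integral_id]
    norm_num
  have n5 : r (d + 1) ^ 2 / (2 * b ^ 2) = r (d + 1) ^ 2 / 2 / b ^ 2 := by rw [div_div]
  rw [c7] at c6
  rw [c8, n5]
  linarith

theorem up_of {b : ℝ}
    (hB : ∃ c C : ℝ, 0 < c ∧ 1 ≤ C ∧ ∀ (n d : ℕ) (r : ℕ → ℝ),
      1 ≤ d → d ≤ n → IsMinD b n d r → gm n d ≤ c → C ≤ gm n d ^ 40 * (n + 1) →
        |kk n r ^ 2 * r d - 3 * gm n d * vv n r ^ 3| ≤ C * (gm n d * √(gm n d)) ∧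
        ∫ s in (0 : ℝ)..(r d), (Rb n (gm n) r (d - 1) s - s / b ^ 2) ≤
          kk n r ^ 2 * r d ^ 4 / 72 + C * (gm n d ^ 4 * √(gm n d)))
    (hV : ∃ c K : ℝ, 0 < c ∧ 1 ≤ K ∧ ∀ (n : ℕ) (r : ℕ → ℝ), BPath b n r →
      c ≤ vv n r ∧ vv n r ≤ 1 ∧ c ≤ kk n r ∧ kk n r ≤ K) :
    ∃ c C : ℝ, 0 < c ∧ 1 ≤ C ∧ ∀ (n d : ℕ) (r : ℕ → ℝ),
      1 ≤ d → d < n → IsMinD b n d r → gm n d ≤ c → C ≤ gm n d ^ 40 * (n + 1) →
        ∃ r', BPath b n r' ∧ (∀ l < d + 1, r' l = 0) ∧ SKr b n (gm n) r' ≤ SKr b n (gm n) r +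
          1 / ((n : ℝ) + 1) * (9 / 16 * vv n r ^ 12 / kk n r ^ 6 * gm n d ^ 4 +
            C * (gm n d ^ 4 * √(gm n d))) := by
  obtain ⟨c1, C1, hc1, hC1, hB⟩ := hB
  obtain ⟨c0, K0, hc0, hK0, hV⟩ := hV
  obtain ⟨K, hK, htilt⟩ := Rf_tilt4 (b ^ 2)
  have hC10 : 0 < C1 := by linarith
  have hA1 : 0 ≤ C1 * (3 + C1) ^ 3 / (18 * c0 ^ 6) := by positivity
  have hA2 : 0 ≤ K * (3 + C1) ^ 3 / (3 * c0 ^ 6) := by positivity
  refine ⟨min c1 1, C1 + C1 * (3 + C1) ^ 3 / (18 * c0 ^ 6) + K * (3 + C1) ^ 3 / (3 * c0 ^ 6),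
    by positivity, by linarith, ?_⟩
  intro n d r hd1 hdn hmin hx hCx
  have hr := hmin.1
  have hCx1 : C1 ≤ gm n d ^ 40 * (n + 1) := by linarith
  obtain ⟨hB1, hB2⟩ := hB n d r hd1 hdn.le hmin (hx.trans (min_le_left _ _)) hCx1
  obtain ⟨hv0, hv1, hκ0, hκ1⟩ := hV n r hr
  obtain ⟨d0, rfl⟩ : ∃ d0, d = d0 + 1 := ⟨d - 1, by omega⟩
  have hrd1 : 0 ≤ r (d0 + 1 + 1) := len_nonneg hr (by omega)
  refine ⟨one_r (d0 + 1 + 1) (d0 + 1 + 1) 0 r,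
    one_path hr (by omega) le_rfl (by omega) le_rfl hrd1, fun l hl => by
      unfold one_r
      rw [if_pos hl], ?_⟩
  rw [up_diff hr hd1 hdn hmin.2.1]
  have hn1 : (0 : ℝ) < (n : ℝ) + 1 := by positivity
  have hx0 : 0 < gm n (d0 + 1) := grid_gm_pos hd1
  have hδx : 1 / ((n : ℝ) + 1) ≤ gm n (d0 + 1) ^ 40 := by
    rw [div_le_iff₀ hn1]
    linarith
  have h1 := up_int htilt hr hdn hmin.2.1
  rw [Nat.add_sub_cancel] at hB2
  have h2 := up_real hK hC1 hc0 hκ0 (hc0.le.trans hv0) hv1 hx0 (hx.trans (min_le_right _ _))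
    (len_nonneg hr (by omega)) (by positivity : 0 < 1 / ((n : ℝ) + 1)) hδx hB1
    (h1.trans (add_le_add_left hB2 _))
  linarith

end Vale.Agent.P146.Sh
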